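import Vale.Agent.P141.H337.PairNorm

/-!
# P141, line W, end lemma: the alive mass for every `z` by the shifts

`s (p1 x1 + p2 x2 + p3 x3)` is the average of the products `f1 (x1 + θ1) f2 (x2 + θ2) f3 (x3 + θ3)`
over the shifts with `p1 θ1 + p2 θ2 + p3 θ3 = 0`; `g (c0 + q2 x2 + q3 x3)` is a lift.  For fixed
`x1`, `c0` the map `(θ, x2, x3) ↦ (x + θ, c0 + q2 x2 + q3 x3)` is injective.
-/

namespace Vale.Agent.P141.H150

open Finset Vale.Agent.P141.PL.H315 Vale.Agent.P141.H337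

noncomputable section

/-- the shifts of the plane -/
def InPl (p1 p2 p3 : ℤ) (T : Finset (ℤ × ℤ × ℤ)) : Prop :=
  ∀ t ∈ T, p1 * t.1 + p2 * t.2.1 + p3 * t.2.2 = 0

theorem InPl.mono {p1 p2 p3 : ℤ} {S T : Finset (ℤ × ℤ × ℤ)} (h : InPl p1 p2 p3 T) (hS : S ⊆ T) :
    InPl p1 p2 p3 S := fun t ht => h t (hS ht)

theorem shift_inj {p1 p2 p3 q2 q3 : ℤ} (hD : p2 * q3 - p3 * q2 ≠ 0) {t s : ℤ × ℤ × ℤ}
    (ht : p1 * t.1 + p2 * t.2.1 + p3 * t.2.2 = 0) (hs : p1 * s.1 + p2 * s.2.1 + p3 * s.2.2 = 0)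
    {x1 c0 x2 x3 y2 y3 : ℤ} (h1 : x1 + t.1 = x1 + s.1) (h2 : x2 + t.2.1 = y2 + s.2.1)
    (h3 : x3 + t.2.2 = y3 + s.2.2) (h4 : c0 + q2 * x2 + q3 * x3 = c0 + q2 * y2 + q3 * y3) :
    t = s ∧ x2 = y2 ∧ x3 = y3 := by
  have e1 : t.1 = s.1 := by linarith
  have ha : (p2 * q3 - p3 * q2) * (x2 - y2) = 0 := by
    have h5 : p2 * (x2 - y2) + p3 * (x3 - y3) = 0 := by
      have : p1 * t.1 = p1 * s.1 := by rw [e1]
      linear_combination p2 * h2 + p3 * h3 + this - ht + hs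
    have h6 : q2 * (x2 - y2) + q3 * (x3 - y3) = 0 := by linear_combination h4
    linear_combination q3 * h5 - p3 * h6
  have hb : (p2 * q3 - p3 * q2) * (x3 - y3) = 0 := by
    have h5 : p2 * (x2 - y2) + p3 * (x3 - y3) = 0 := by
      have : p1 * t.1 = p1 * s.1 := by rw [e1]
      linear_combination p2 * h2 + p3 * h3 + this - ht + hs
    have h6 : q2 * (x2 - y2) + q3 * (x3 - y3) = 0 := by linear_combination h4
    linear_combination p2 * h6 - q2 * h5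
  have a0 : x2 = y2 := by
    rcases mul_eq_zero.1 ha with h | h
    · exact absurd h hD
    · linarith
  have b0 : x3 = y3 := by
    rcases mul_eq_zero.1 hb with h | h
    · exact absurd h hD
    · linarith
  refine ⟨Prod.ext e1 (Prod.ext ?_ ?_), a0, b0⟩
  · linarith
  · linarith

/-- **The sum over the shifts.** -/
theorem shift_core {p1 p2 p3 q2 q3 : ℤ} (hD : p2 * q3 - p3 * q2 ≠ 0)
    {T : Finset (ℤ × ℤ × ℤ)} (hT : InPl p1 p2 p3 T) {F : ℤ → ℤ → ℤ → ℝ}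
    (hF : ∀ a b c, 0 ≤ F a b c) (g : ℤ → ℝ) {x1 c0 : ℤ} {J2 J3 I1 I2 I3 N : Finset ℤ}
    (h1 : ∀ t ∈ T, x1 + t.1 ∈ I1) (h2 : ∀ t ∈ T, ∀ x ∈ J2, x + t.2.1 ∈ I2)
    (h3 : ∀ t ∈ T, ∀ x ∈ J3, x + t.2.2 ∈ I3)
    (hN : ∀ x ∈ J2, ∀ y ∈ J3, c0 + q2 * x + q3 * y ∈ N) :
    ∑ t ∈ T, ∑ x ∈ J2, ∑ y ∈ J3, F (x1 + t.1) (x + t.2.1) (y + t.2.2) *
        g (c0 + q2 * x + q3 * y) ^ 2 ≤
      (∑ a ∈ I1, ∑ b ∈ I2, ∑ c ∈ I3, F a b c) * ∑ n ∈ N, g n ^ 2 := by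
  classical
  set P : Finset ((ℤ × ℤ × ℤ) × ℤ × ℤ) := T ×ˢ (J2 ×ˢ J3) with hP
  set e : (ℤ × ℤ × ℤ) × ℤ × ℤ → ℤ × ℤ × ℤ × ℤ := fun w =>
    (x1 + w.1.1, w.2.1 + w.1.2.1, w.2.2 + w.1.2.2, c0 + q2 * w.2.1 + q3 * w.2.2) with he
  set H : ℤ × ℤ × ℤ × ℤ → ℝ := fun w => F w.1 w.2.1 w.2.2.1 * g w.2.2.2 ^ 2 with hH
  have hinj : Set.InjOn e P := by
    intro w hw v hv h
    rw [hP, mem_coe, mem_product, mem_product] at hw hv
    simp only [he, Prod.mk.injEq] at h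
    obtain ⟨a, b, c⟩ := shift_inj hD (hT _ hw.1) (hT _ hv.1) h.1 h.2.1 h.2.2.1 h.2.2.2
    exact Prod.ext a (Prod.ext b c)
  have h5 : ∑ t ∈ T, ∑ x ∈ J2, ∑ y ∈ J3, F (x1 + t.1) (x + t.2.1) (y + t.2.2) *
        g (c0 + q2 * x + q3 * y) ^ 2 = ∑ w ∈ P, H (e w) := by
    rw [hP, sum_product]
    refine sum_congr rfl fun t _ => ?_
    rw [sum_product]
  rw [h5, ← sum_image (f := H) hinj]
  have h6 : (∑ a ∈ I1, ∑ b ∈ I2, ∑ c ∈ I3, F a b c) * ∑ n ∈ N, g n ^ 2 =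
      ∑ w ∈ I1 ×ˢ (I2 ×ˢ (I3 ×ˢ N)), H w := by
    rw [sum_product, sum_mul]
    refine sum_congr rfl fun a _ => ?_
    rw [sum_product, sum_mul]
    refine sum_congr rfl fun b _ => ?_
    rw [sum_product, sum_mul]
    refine sum_congr rfl fun c _ => ?_
    rw [mul_sum]
  rw [h6]
  refine sum_le_sum_of_subset_of_nonneg ?_ fun w _ _ => mul_nonneg (hF _ _ _) (sq_nonneg _)
  intro w hw
  rw [mem_image] at hw
  obtain ⟨v, hv, rfl⟩ := hw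
  rw [hP, mem_product, mem_product] at hv
  simp only [he, mem_product]
  exact ⟨h1 _ hv.1, h2 _ hv.1 _ hv.2.1, h3 _ hv.1 _ hv.2.2, hN _ hv.2.1 _ hv.2.2⟩

/-- a union of shifted intervals whose shifts differ by less than the length is covered by two -/
theorem two_cover {L lo b : ℤ} {S : Finset ℤ} (hS : ∀ s ∈ S, b ≤ s ∧ s < b + L)
    (hne : S.Nonempty) {f : ℤ → ℝ} (hf : ∀ x, 0 ≤ f x) {D : ℝ}
    (hD : ∀ s ∈ S, ∑ x ∈ Ico (lo + s) (lo + s + L), f x ≤ D) :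
    ∃ I : Finset ℤ, (∀ s ∈ S, ∀ x ∈ Ico (lo + s) (lo + s + L), x ∈ I) ∧ ∑ x ∈ I, f x ≤ 2 * D := by
  classical
  set m := S.min' hne with hm
  set M := S.max' hne with hM
  have m1 := S.min'_mem hne
  have M1 := S.max'_mem hne
  refine ⟨Ico (lo + m) (lo + m + L) ∪ Ico (lo + M) (lo + M + L), ?_, ?_⟩
  · intro s hs x hx
    have a1 := S.min'_le s hs
    have a2 := S.le_max' s hs
    have a3 := hS _ m1
    have a4 := hS _ M1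
    rw [mem_Ico] at hx
    rw [mem_union, mem_Ico, mem_Ico]
    by_cases h : x < lo + m + L
    · left; constructor <;> omega
    · right; constructor <;> omega
  · have h := sum_union_inter (s₁ := Ico (lo + m) (lo + m + L)) (s₂ := Ico (lo + M) (lo + M + L))
      (f := f)
    have h0 : 0 ≤ ∑ x ∈ Ico (lo + m) (lo + m + L) ∩ Ico (lo + M) (lo + M + L), f x :=
      sum_nonneg fun x _ => hf x
    have a1 := hD _ m1
    have a2 := hD _ M1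
    linarith

/-- the dyadic cell of a shift -/
def cl (j : ℕ) (t : ℤ × ℤ × ℤ) : ℤ × ℤ × ℤ := (t.1 / 2 ^ j, t.2.1 / 2 ^ j, t.2.2 / 2 ^ j)

theorem div_bounds (j : ℕ) (a : ℤ) : 2 ^ j * (a / 2 ^ j) ≤ a ∧ a < 2 ^ j * (a / 2 ^ j) + 2 ^ j := by
  have h2 : (0 : ℤ) < 2 ^ j := by positivity
  have h3 := Int.mul_ediv_add_emod a (2 ^ j)
  have h4 := Int.emod_nonneg a h2.ne'
  have h5 := Int.emod_lt_of_pos a h2
  constructor <;> linarith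

/-- one cell of shifts -/
theorem shift_cell {p1 p2 p3 q2 q3 : ℤ} (hD : p2 * q3 - p3 * q2 ≠ 0)
    {T : Finset (ℤ × ℤ × ℤ)} (hT : InPl p1 p2 p3 T) {f1 f2 f3 : ℤ → ℝ} (h1 : ∀ a, 0 ≤ f1 a)
    (h2 : ∀ a, 0 ≤ f2 a) (h3 : ∀ a, 0 ≤ f3 a) (g : ℤ → ℝ) {x1 c0 : ℤ} {j : ℕ} {n1 n2 n3 : ℤ}
    (hx1 : x1 ∈ ivm j n1) {D1 D2 D3 : ℝ} {N : Finset ℤ}
    (d1 : ∀ t ∈ T, ∑ y ∈ Ico (2 ^ j * n1 + t.1) (2 ^ j * n1 + t.1 + 2 ^ j), f1 y ≤ D1)
    (d2 : ∀ t ∈ T, ∑ y ∈ Ico (2 ^ j * n2 + t.2.1) (2 ^ j * n2 + t.2.1 + 2 ^ j), f2 y ≤ D2)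
    (d3 : ∀ t ∈ T, ∑ y ∈ Ico (2 ^ j * n3 + t.2.2) (2 ^ j * n3 + t.2.2 + 2 ^ j), f3 y ≤ D3)
    (hN : ∀ x ∈ ivm j n2, ∀ y ∈ ivm j n3, c0 + q2 * x + q3 * y ∈ N) (a : ℤ × ℤ × ℤ) :
    ∑ t ∈ T with cl j t = a, ∑ x ∈ ivm j n2, ∑ y ∈ ivm j n3,
        f1 (x1 + t.1) * f2 (x + t.2.1) * f3 (y + t.2.2) * g (c0 + q2 * x + q3 * y) ^ 2 ≤
      if a ∈ T.image (cl j) then 8 * (D1 * D2 * D3) * ∑ n ∈ N, g n ^ 2 else 0 := by
  classical
  set S := T.filter fun t => cl j t = a with hS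
  by_cases hne : S.Nonempty
  · have ha : a ∈ T.image (cl j) := by
      obtain ⟨t, ht⟩ := hne
      rw [hS, mem_filter] at ht
      exact mem_image.2 ⟨t, ht.1, ht.2⟩
    rw [if_pos ha]
    have mS : ∀ t ∈ S, t ∈ T ∧ cl j t = a := fun t ht => by rwa [hS, mem_filter] at ht
    -- the three covers
    obtain ⟨I1, c1, s1⟩ := two_cover (L := 2 ^ j) (lo := 2 ^ j * n1) (b := 2 ^ j * a.1)
      (S := S.image fun t => t.1) (by
        intro s hs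
        obtain ⟨t, ht, rfl⟩ := mem_image.1 hs
        have := div_bounds j t.1
        rw [← (mS t ht).2]
        exact this) (hne.image _) h1 (D := D1) (by
        intro s hs
        obtain ⟨t, ht, rfl⟩ := mem_image.1 hs
        exact d1 t (mS t ht).1)
    obtain ⟨I2, c2, s2⟩ := two_cover (L := 2 ^ j) (lo := 2 ^ j * n2) (b := 2 ^ j * a.2.1)
      (S := S.image fun t => t.2.1) (by
        intro s hs
        obtain ⟨t, ht, rfl⟩ := mem_image.1 hs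
        have := div_bounds j t.2.1
        rw [← (mS t ht).2]
        exact this) (hne.image _) h2 (D := D2) (by
        intro s hs
        obtain ⟨t, ht, rfl⟩ := mem_image.1 hs
        exact d2 t (mS t ht).1)
    obtain ⟨I3, c3, s3⟩ := two_cover (L := 2 ^ j) (lo := 2 ^ j * n3) (b := 2 ^ j * a.2.2)
      (S := S.image fun t => t.2.2) (by
        intro s hs
        obtain ⟨t, ht, rfl⟩ := mem_image.1 hs
        have := div_bounds j t.2.2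
        rw [← (mS t ht).2]
        exact this) (hne.image _) h3 (D := D3) (by
        intro s hs
        obtain ⟨t, ht, rfl⟩ := mem_image.1 hs
        exact d3 t (mS t ht).1)
    have hc := shift_core hD (hT.mono (filter_subset _ T)) (T := S)
      (F := fun a b c => f1 a * f2 b * f3 c)
      (fun a b c => mul_nonneg (mul_nonneg (h1 a) (h2 b)) (h3 c)) g (x1 := x1) (c0 := c0)
      (J2 := ivm j n2) (J3 := ivm j n3) (I1 := I1) (I2 := I2) (I3 := I3) (N := N)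
      (fun t ht => c1 _ (mem_image.2 ⟨t, ht, rfl⟩) _ (by
        unfold ivm at hx1
        rw [mem_Ico] at hx1 ⊢
        constructor <;> linarith))
      (fun t ht x hx => c2 _ (mem_image.2 ⟨t, ht, rfl⟩) _ (by
        unfold ivm at hx
        rw [mem_Ico] at hx ⊢
        constructor <;> linarith))
      (fun t ht x hx => c3 _ (mem_image.2 ⟨t, ht, rfl⟩) _ (by
        unfold ivm at hx
        rw [mem_Ico] at hx ⊢
        constructor <;> linarith)) hN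
    refine hc.trans ?_
    refine mul_le_mul_of_nonneg_right ?_ (sum_nonneg fun _ _ => sq_nonneg _)
    have e1 : ∑ a ∈ I1, ∑ b ∈ I2, ∑ c ∈ I3, f1 a * f2 b * f3 c =
        (∑ a ∈ I1, f1 a) * (∑ b ∈ I2, f2 b) * ∑ c ∈ I3, f3 c := by
      rw [sum_mul_sum, sum_mul]
      refine sum_congr rfl fun a _ => ?_
      rw [sum_mul]
      refine sum_congr rfl fun b _ => ?_
      rw [mul_sum]
    rw [e1]
    have n1 : 0 ≤ ∑ a ∈ I1, f1 a := sum_nonneg fun _ _ => h1 _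
    have n2 : 0 ≤ ∑ a ∈ I2, f2 a := sum_nonneg fun _ _ => h2 _
    have n3 : 0 ≤ ∑ a ∈ I3, f3 a := sum_nonneg fun _ _ => h3 _
    calc (∑ a ∈ I1, f1 a) * (∑ b ∈ I2, f2 b) * ∑ c ∈ I3, f3 c
        ≤ (2 * D1) * (2 * D2) * (2 * D3) := by
          refine mul_le_mul (mul_le_mul s1 s2 n2 (n1.trans s1)) s3 n3 ?_
          exact mul_nonneg (n1.trans s1) (n2.trans s2)
      _ = 8 * (D1 * D2 * D3) := by ring
  · rw [not_nonempty_iff_eq_empty] at hne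
    rw [hne, sum_empty]
    have ha : a ∉ T.image (cl j) := by
      intro h
      obtain ⟨t, ht, h'⟩ := mem_image.1 h
      have : t ∈ S := by rw [hS, mem_filter]; exact ⟨ht, h'⟩
      rw [hne] at this
      exact absurd this (notMem_empty _)
    rw [if_neg ha]

/-- **The sum over the alive shifts of the current energy.** -/
theorem shift_sum {p1 p2 p3 q2 q3 : ℤ} (hD : p2 * q3 - p3 * q2 ≠ 0)
    {T : Finset (ℤ × ℤ × ℤ)} (hT : InPl p1 p2 p3 T) {f1 f2 f3 : ℤ → ℝ} (h1 : ∀ a, 0 ≤ f1 a)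
    (h2 : ∀ a, 0 ≤ f2 a) (h3 : ∀ a, 0 ≤ f3 a) (g : ℤ → ℝ) {x1 c0 : ℤ} {j : ℕ} {n1 n2 n3 : ℤ}
    (hx1 : x1 ∈ ivm j n1) {D1 D2 D3 : ℝ} {N : Finset ℤ}
    (d1 : ∀ t ∈ T, ∑ y ∈ Ico (2 ^ j * n1 + t.1) (2 ^ j * n1 + t.1 + 2 ^ j), f1 y ≤ D1)
    (d2 : ∀ t ∈ T, ∑ y ∈ Ico (2 ^ j * n2 + t.2.1) (2 ^ j * n2 + t.2.1 + 2 ^ j), f2 y ≤ D2)
    (d3 : ∀ t ∈ T, ∑ y ∈ Ico (2 ^ j * n3 + t.2.2) (2 ^ j * n3 + t.2.2 + 2 ^ j), f3 y ≤ D3)
    (hN : ∀ x ∈ ivm j n2, ∀ y ∈ ivm j n3, c0 + q2 * x + q3 * y ∈ N) :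
    ∑ t ∈ T, ∑ x ∈ ivm j n2, ∑ y ∈ ivm j n3,
        f1 (x1 + t.1) * f2 (x + t.2.1) * f3 (y + t.2.2) * g (c0 + q2 * x + q3 * y) ^ 2 ≤
      (T.image (cl j)).card * (8 * (D1 * D2 * D3) * ∑ n ∈ N, g n ^ 2) := by
  classical
  rw [← sum_fiberwise_of_maps_to (g := cl j) (t := T.image (cl j))
    fun t ht => mem_image_of_mem _ ht]
  refine (sum_le_sum fun a ha => (shift_cell hD hT h1 h2 h3 g hx1 d1 d2 d3 hN a).trans
    (le_of_eq (if_pos ha))).trans (le_of_eq ?_)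
  rw [sum_const, nsmul_eq_mul]

/-- the number of cells met by the plane -/
theorem card_cl_le {p1 p2 p3 : ℤ} (hp : p1 ≠ 0) (b2 : |p2| ≤ 4) (b3 : |p3| ≤ 4)
    {T : Finset (ℤ × ℤ × ℤ)} (hT : InPl p1 p2 p3 T) {j k : ℕ} (hjk : j ≤ k)
    (hb : ∀ t ∈ T, (-2 ^ k ≤ t.2.1 ∧ t.2.1 < 2 ^ k) ∧ (-2 ^ k ≤ t.2.2 ∧ t.2.2 < 2 ^ k)) :
    ((T.image (cl j)).card : ℝ) * 4 ^ j ≤ 68 * 4 ^ k := by
  classical
  have h2j : (0 : ℤ) < 2 ^ j := by positivity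
  -- the fibres over the last two coordinates
  have h1 : ((T.image (cl j)).card : ℕ) ≤ 17 * ((T.image (cl j)).image fun a => a.2).card := by
    refine card_le_mul_card_image _ _ fun b hb' => ?_
    obtain ⟨a0, ha0, hb0⟩ := mem_image.1 hb'
    obtain ⟨t0, ht0, rfl⟩ := mem_image.1 ha0
    -- the fibre lies over an interval of 17 first coordinates
    have h2 : ∀ a ∈ (T.image (cl j)).filter (fun a => a.2 = b),
        a.1 ∈ Icc (t0.1 / 2 ^ j - 8) (t0.1 / 2 ^ j + 8) := by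
      intro a ha
      rw [mem_filter] at ha
      obtain ⟨t, ht, rfl⟩ := mem_image.1 ha.1
      have e : (cl j t).2 = (cl j t0).2 := by rw [ha.2, hb0]
      simp only [cl, Prod.mk.injEq] at e
      have u2 := div_bounds j t.2.1
      have u3 := div_bounds j t.2.2
      have v2 := div_bounds j t0.2.1
      have v3 := div_bounds j t0.2.2
      rw [← e.1] at v2
      rw [← e.2] at v3
      have w1 := hT t ht
      have w2 := hT t0 ht0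
      have w3 : p1 * (t.1 - t0.1) = -(p2 * (t.2.1 - t0.2.1) + p3 * (t.2.2 - t0.2.2)) := by
        linear_combination w1 - w2
      have z2 : |t.2.1 - t0.2.1| ≤ 2 ^ j - 1 := by rw [abs_le]; constructor <;> omega
      have z3 : |t.2.2 - t0.2.2| ≤ 2 ^ j - 1 := by rw [abs_le]; constructor <;> omega
      have z4 : |p1 * (t.1 - t0.1)| ≤ 8 * (2 ^ j - 1) := by
        rw [w3, abs_neg]
        refine (abs_add_le _ _).trans ?_
        rw [abs_mul, abs_mul]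
        have := mul_le_mul b2 z2 (abs_nonneg _) (by norm_num)
        have := mul_le_mul b3 z3 (abs_nonneg _) (by norm_num)
        linarith
      have z5 : |t.1 - t0.1| ≤ 8 * (2 ^ j - 1) := by
        refine le_trans ?_ z4
        rw [abs_mul]
        have : 1 ≤ |p1| := Int.one_le_abs hp
        nlinarith [abs_nonneg (t.1 - t0.1)]
      rw [abs_le] at z5
      have y1 := div_bounds j t.1
      have y2 := div_bounds j t0.1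
      show t.1 / 2 ^ j ∈ Icc (t0.1 / 2 ^ j - 8) (t0.1 / 2 ^ j + 8)
      rw [mem_Icc]
      constructor
      · by_contra h
        push Not at h
        have : t.1 / 2 ^ j + 1 ≤ t0.1 / 2 ^ j - 8 := by omega
        have := mul_le_mul_of_nonneg_left this h2j.le
        linarith
      · by_contra h
        push Not at h
        have : t0.1 / 2 ^ j + 8 + 1 ≤ t.1 / 2 ^ j := by omega
        have := mul_le_mul_of_nonneg_left this h2j.le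
        linarith
    have h3 : ((T.image (cl j)).filter fun a => a.2 = b).card ≤
        (Icc (t0.1 / 2 ^ j - 8) (t0.1 / 2 ^ j + 8)).card := by
      refine card_le_card_of_injOn (fun a => a.1) (fun a ha => by exact_mod_cast h2 a ha) ?_
      intro a ha c hc h
      rw [mem_coe, mem_filter] at ha hc
      exact Prod.ext h (by rw [ha.2, hc.2])
    refine h3.trans (le_of_eq ?_)
    rw [Int.card_Icc]
    have : t0.1 / 2 ^ j + 8 + 1 - (t0.1 / 2 ^ j - 8) = 17 := by ring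
    rw [this]; rfl
  have h4 : ((T.image (cl j)).image fun a => a.2).card ≤ (2 ^ (k - j + 1)) * (2 ^ (k - j + 1)) := by
    have hsub : ((T.image (cl j)).image fun a => a.2) ⊆
        Ico (-2 ^ (k - j) : ℤ) (2 ^ (k - j)) ×ˢ Ico (-2 ^ (k - j) : ℤ) (2 ^ (k - j)) := by
      intro b hb'
      obtain ⟨a, ha, rfl⟩ := mem_image.1 hb'
      obtain ⟨t, ht, rfl⟩ := mem_image.1 ha
      have e : (2 : ℤ) ^ k = 2 ^ j * 2 ^ (k - j) := by rw [← pow_add]; congr 1; omega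
      have key : ∀ s : ℤ, -2 ^ k ≤ s → s < 2 ^ k → s / 2 ^ j ∈ Ico (-2 ^ (k - j) : ℤ) (2 ^ (k - j)) := by
        intro s a1 a2
        rw [mem_Ico]
        constructor
        · rw [Int.le_ediv_iff_mul_le h2j]; rw [e] at a1; linarith
        · rw [Int.ediv_lt_iff_lt_mul h2j]; rw [e] at a2; linarith
      rw [mem_product]
      exact ⟨key _ (hb t ht).1.1 (hb t ht).1.2, key _ (hb t ht).2.1 (hb t ht).2.2⟩
    refine (card_le_card hsub).trans (le_of_eq ?_)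
    rw [card_product, Int.card_Ico]
    have : ((2 : ℤ) ^ (k - j) - -2 ^ (k - j)) = ((2 ^ (k - j + 1) : ℕ) : ℤ) := by
      push_cast; ring
    rw [this, Int.toNat_natCast]
  have h5 : ((T.image (cl j)).card : ℝ) ≤ 17 * (2 ^ (k - j + 1) * 2 ^ (k - j + 1)) := by
    exact_mod_cast h1.trans (Nat.mul_le_mul_left _ h4)
  have e4 : (4 : ℝ) ^ k = 2 ^ (k - j) * 2 ^ (k - j) * 4 ^ j := by
    rw [← mul_pow]
    norm_num
    rw [← pow_add]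
    congr 1; omega
  rw [e4]
  have h6 := mul_le_mul_of_nonneg_right h5 (by positivity : (0 : ℝ) ≤ 4 ^ j)
  refine h6.trans (le_of_eq ?_)
  rw [pow_succ]
  ring

/-- **The average over the alive shifts**, with the number of cells: the plane has `4 ^ k` shifts,
the local sums of `f1, f2, f3` over the shifted cells are `≤ D_i 2 ^ j`. -/
theorem shift_avg {p1 p2 p3 q2 q3 : ℤ} (hD : p2 * q3 - p3 * q2 ≠ 0) (hp : p1 ≠ 0)
    (b2 : |p2| ≤ 4) (b3 : |p3| ≤ 4)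
    {T : Finset (ℤ × ℤ × ℤ)} (hT : InPl p1 p2 p3 T) {j k : ℕ} (hjk : j ≤ k)
    (hb : ∀ t ∈ T, (-2 ^ k ≤ t.2.1 ∧ t.2.1 < 2 ^ k) ∧ (-2 ^ k ≤ t.2.2 ∧ t.2.2 < 2 ^ k))
    {f1 f2 f3 : ℤ → ℝ} (h1 : ∀ a, 0 ≤ f1 a)
    (h2 : ∀ a, 0 ≤ f2 a) (h3 : ∀ a, 0 ≤ f3 a) (g : ℤ → ℝ) {x1 c0 : ℤ} {n1 n2 n3 : ℤ}
    (hx1 : x1 ∈ ivm j n1) {D1 D2 D3 Λ : ℝ} (D10 : 0 ≤ D1) (D20 : 0 ≤ D2) (D30 : 0 ≤ D3)
    {N : Finset ℤ}
    (d1 : ∀ t ∈ T, ∑ y ∈ Ico (2 ^ j * n1 + t.1) (2 ^ j * n1 + t.1 + 2 ^ j), f1 y ≤ D1 * 2 ^ j)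
    (d2 : ∀ t ∈ T, ∑ y ∈ Ico (2 ^ j * n2 + t.2.1) (2 ^ j * n2 + t.2.1 + 2 ^ j), f2 y ≤ D2 * 2 ^ j)
    (d3 : ∀ t ∈ T, ∑ y ∈ Ico (2 ^ j * n3 + t.2.2) (2 ^ j * n3 + t.2.2 + 2 ^ j), f3 y ≤ D3 * 2 ^ j)
    (hN : ∀ x ∈ ivm j n2, ∀ y ∈ ivm j n3, c0 + q2 * x + q3 * y ∈ N)
    (hg : ∑ n ∈ N, g n ^ 2 ≤ Λ * 2 ^ j) :
    ∑ t ∈ T, ∑ x ∈ ivm j n2, ∑ y ∈ ivm j n3,
        f1 (x1 + t.1) * f2 (x + t.2.1) * f3 (y + t.2.2) * g (c0 + q2 * x + q3 * y) ^ 2 ≤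
      544 * (D1 * D2 * D3) * Λ * 4 ^ k * 4 ^ j := by
  classical
  refine (shift_sum hD hT h1 h2 h3 g hx1 d1 d2 d3 hN).trans ?_
  have hc := card_cl_le hp b2 b3 hT hjk hb
  have hS : 0 ≤ ∑ n ∈ N, g n ^ 2 := sum_nonneg fun _ _ => sq_nonneg _
  have e4 : (4 : ℝ) ^ j = 2 ^ j * 2 ^ j := by rw [← mul_pow]; norm_num
  have h5 : 8 * (D1 * 2 ^ j * (D2 * 2 ^ j) * (D3 * 2 ^ j)) * ∑ n ∈ N, g n ^ 2 ≤
      8 * (D1 * D2 * D3) * Λ * (4 ^ j * 4 ^ j) := by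
    have h6 : 0 ≤ 8 * (D1 * 2 ^ j * (D2 * 2 ^ j) * (D3 * 2 ^ j)) := by positivity
    refine (mul_le_mul_of_nonneg_left hg h6).trans (le_of_eq ?_)
    rw [e4]; ring
  have h7 : 0 ≤ 8 * (D1 * D2 * D3) * Λ := by
    have hΛ : 0 ≤ Λ := by
      by_contra h
      push Not at h
      have : Λ * 2 ^ j < 0 := mul_neg_of_neg_of_pos h (by positivity)
      linarith
    positivity
  calc ((T.image (cl j)).card : ℝ) *
        (8 * (D1 * 2 ^ j * (D2 * 2 ^ j) * (D3 * 2 ^ j)) * ∑ n ∈ N, g n ^ 2)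
      ≤ (T.image (cl j)).card * (8 * (D1 * D2 * D3) * Λ * (4 ^ j * 4 ^ j)) :=
        mul_le_mul_of_nonneg_left h5 (Nat.cast_nonneg _)
    _ = (8 * (D1 * D2 * D3) * Λ * 4 ^ j) * ((T.image (cl j)).card * 4 ^ j) := by ring
    _ ≤ (8 * (D1 * D2 * D3) * Λ * 4 ^ j) * (68 * 4 ^ k) :=
        mul_le_mul_of_nonneg_left hc (by positivity)
    _ = _ := by ring

/-- **The alive mass.**  Every alive shift has a large current energy, its mass is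
`≤ M f1 (x1 + θ1)` (whatever the reference square is). -/
theorem alive_mass {p1 p2 p3 q2 q3 : ℤ} (hD : p2 * q3 - p3 * q2 ≠ 0) (hp : p1 ≠ 0)
    (b2 : |p2| ≤ 4) (b3 : |p3| ≤ 4)
    {T : Finset (ℤ × ℤ × ℤ)} (hT : InPl p1 p2 p3 T) {j k : ℕ} (hjk : j ≤ k)
    (hb : ∀ t ∈ T, (-2 ^ k ≤ t.2.1 ∧ t.2.1 < 2 ^ k) ∧ (-2 ^ k ≤ t.2.2 ∧ t.2.2 < 2 ^ k))
    {f1 f2 f3 : ℤ → ℝ} (h1 : ∀ a, 0 ≤ f1 a)
    (h2 : ∀ a, 0 ≤ f2 a) (h3 : ∀ a, 0 ≤ f3 a) (g : ℤ → ℝ) {x1 c0 : ℤ} {n1 n2 n3 : ℤ}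
    (hx1 : x1 ∈ ivm j n1) {D1 D2 D3 Λ : ℝ} (D10 : 0 ≤ D1) (D20 : 0 ≤ D2) (D30 : 0 ≤ D3)
    {N : Finset ℤ}
    (d1 : ∀ t ∈ T, ∑ y ∈ Ico (2 ^ j * n1 + t.1) (2 ^ j * n1 + t.1 + 2 ^ j), f1 y ≤ D1 * 2 ^ j)
    (d2 : ∀ t ∈ T, ∑ y ∈ Ico (2 ^ j * n2 + t.2.1) (2 ^ j * n2 + t.2.1 + 2 ^ j), f2 y ≤ D2 * 2 ^ j)
    (d3 : ∀ t ∈ T, ∑ y ∈ Ico (2 ^ j * n3 + t.2.2) (2 ^ j * n3 + t.2.2 + 2 ^ j), f3 y ≤ D3 * 2 ^ j)
    (hN : ∀ x ∈ ivm j n2, ∀ y ∈ ivm j n3, c0 + q2 * x + q3 * y ∈ N)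
    (hg : ∑ n ∈ N, g n ^ 2 ≤ Λ * 2 ^ j)
    {mass : ℤ × ℤ × ℤ → ℝ} {M h ξ : ℝ} (hM : 0 ≤ M) (hξ : 0 < ξ)
    (hm : ∀ t ∈ T, mass t ≤ M * f1 (x1 + t.1))
    (hE : ∀ t ∈ T, ξ * 4 ^ j ≤ h ^ 2 * ∑ x ∈ ivm j n2, ∑ y ∈ ivm j n3,
      f2 (x + t.2.1) * f3 (y + t.2.2) * g (c0 + q2 * x + q3 * y) ^ 2) :
    ∑ t ∈ T, mass t ≤ 544 * (M * h ^ 2 / ξ) * (D1 * D2 * D3) * Λ * 4 ^ k := by
  have h4 : (0 : ℝ) < 4 ^ j := by positivity
  have hs := shift_avg hD hp b2 b3 hT hjk hb h1 h2 h3 g hx1 D10 D20 D30 d1 d2 d3 hN hg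
  have h5 : ∀ t ∈ T, mass t ≤ M * h ^ 2 / (ξ * 4 ^ j) *
      ∑ x ∈ ivm j n2, ∑ y ∈ ivm j n3,
        f1 (x1 + t.1) * f2 (x + t.2.1) * f3 (y + t.2.2) * g (c0 + q2 * x + q3 * y) ^ 2 := by
    intro t ht
    refine (hm t ht).trans ?_
    have h6 : ∑ x ∈ ivm j n2, ∑ y ∈ ivm j n3,
        f1 (x1 + t.1) * f2 (x + t.2.1) * f3 (y + t.2.2) * g (c0 + q2 * x + q3 * y) ^ 2 =
        f1 (x1 + t.1) * ∑ x ∈ ivm j n2, ∑ y ∈ ivm j n3,
          f2 (x + t.2.1) * f3 (y + t.2.2) * g (c0 + q2 * x + q3 * y) ^ 2 := by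
      rw [mul_sum]
      refine sum_congr rfl fun x _ => ?_
      rw [mul_sum]
      exact sum_congr rfl fun y _ => by ring
    rw [h6]
    have h7 : 0 ≤ M * f1 (x1 + t.1) / (ξ * 4 ^ j) :=
      div_nonneg (mul_nonneg hM (h1 _)) (by positivity)
    calc M * f1 (x1 + t.1) = M * f1 (x1 + t.1) / (ξ * 4 ^ j) * (ξ * 4 ^ j) := by
          field_simp
      _ ≤ M * f1 (x1 + t.1) / (ξ * 4 ^ j) * (h ^ 2 * ∑ x ∈ ivm j n2, ∑ y ∈ ivm j n3,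
          f2 (x + t.2.1) * f3 (y + t.2.2) * g (c0 + q2 * x + q3 * y) ^ 2) :=
          mul_le_mul_of_nonneg_left (hE t ht) h7
      _ = _ := by ring
  refine (sum_le_sum h5).trans ?_
  rw [← mul_sum]
  have h8 : 0 ≤ M * h ^ 2 / (ξ * 4 ^ j) := by positivity
  refine (mul_le_mul_of_nonneg_left hs h8).trans (le_of_eq ?_)
  field_simp

end

end Vale.Agent.P141.H150
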