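import Vale.Agent.P141.H443.Frame

/-!
# P141, line W, end lemma: the plane process with an energy level (hysteresis)

State of a square of a plane kernel `A`: `none` (nothing is alive, the residual is `A`) or `some r`
(the frames of the ancestor of scale `r` are alive).  A square is alive only while the CURRENT
energy is `≥ η 4 ^ k`; a (re)start needs `≥ 2 η 4 ^ k` and takes fresh frames.
-/

namespace Vale.Agent.P141.H150

open Finset Vale.Agent.P141.PL Vale.Agent.P141.PL.H317
open Vale.Agent.P141.H736 Vale.Agent.P141.H958 Vale.Agent.P141.H443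

noncomputable section

open Classical in
/-- the state of a square when the state of the parent is `p` -/
def stp (A : ℤ → ℤ → ℝ) (c ξ η : ℝ) (us : ℕ → ℤ → ℤ → Prop) (k : ℕ) (n m : ℤ) (p : Option ℕ) :
    Option ℕ :=
  if us k n m ∧ η * 4 ^ k ≤ E2 (iv k n) (iv k m) A then
    Option.elim p (if 2 * η * 4 ^ k ≤ E2 (iv k n) (iv k m) A then some k else none)
      fun r => if ξ * 4 ^ k ≤ E2 (iv k n) (iv k m) (fun x y => Um A c k n m x y - Ug A c r x y)
        then some k else some r
  else none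

/-- the states after `j` steps -/
def sts (A : ℤ → ℤ → ℝ) (c ξ η : ℝ) (us : ℕ → ℤ → ℤ → Prop) (K : ℕ) (j : ℕ) : ℤ → ℤ → Option ℕ :=
  Nat.rec (fun n m => stp A c ξ η us K n m none)
    (fun i p n m => stp A c ξ η us (K - (i + 1)) n m (p (n / 2) (m / 2))) j

/-- **The state** of the square `(k; n, m)`, `k ≤ K`. -/
def st (A : ℤ → ℤ → ℝ) (c ξ η : ℝ) (us : ℕ → ℤ → ℤ → Prop) (K k : ℕ) (n m : ℤ) : Option ℕ :=
  sts A c ξ η us K (K - k) n m

variable {A : ℤ → ℤ → ℝ} {c ξ η : ℝ} {us : ℕ → ℤ → ℤ → Prop} {K : ℕ}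

theorem st_top (n m : ℤ) : st A c ξ η us K K n m = stp A c ξ η us K n m none := by
  unfold st
  rw [Nat.sub_self]
  rfl

theorem st_step {k : ℕ} (hk : k < K) (n m : ℤ) :
    st A c ξ η us K k n m = stp A c ξ η us k n m (st A c ξ η us K (k + 1) (n / 2) (m / 2)) := by
  unfold st
  have h1 : K - k = (K - (k + 1)) + 1 := by omega
  have h2 : K - ((K - (k + 1)) + 1) = k := by omega
  rw [h1]
  show stp A c ξ η us (K - ((K - (k + 1)) + 1)) n m _ = _
  rw [h2]
  rfl

/-- the four cases of one step -/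
theorem stp_cases (k : ℕ) (n m : ℤ) (p : Option ℕ) :
    (stp A c ξ η us k n m p = none ∧ ¬ (us k n m ∧ η * 4 ^ k ≤ E2 (iv k n) (iv k m) A)) ∨
    (stp A c ξ η us k n m p = none ∧ p = none ∧ us k n m ∧
      E2 (iv k n) (iv k m) A < 2 * η * 4 ^ k) ∨
    (stp A c ξ η us k n m p = some k ∧ us k n m ∧ η * 4 ^ k ≤ E2 (iv k n) (iv k m) A ∧
      ((p = none ∧ 2 * η * 4 ^ k ≤ E2 (iv k n) (iv k m) A) ∨ ∃ r, p = some r ∧
        ξ * 4 ^ k ≤ E2 (iv k n) (iv k m) (fun x y => Um A c k n m x y - Ug A c r x y))) ∨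
    (∃ r, stp A c ξ η us k n m p = some r ∧ p = some r ∧ us k n m ∧
      η * 4 ^ k ≤ E2 (iv k n) (iv k m) A ∧
      E2 (iv k n) (iv k m) (fun x y => Um A c k n m x y - Ug A c r x y) < ξ * 4 ^ k) := by
  unfold stp
  by_cases h : us k n m ∧ η * 4 ^ k ≤ E2 (iv k n) (iv k m) A
  · rw [if_pos h]
    cases p with
    | none =>
      rw [Option.elim_none]
      by_cases h2 : 2 * η * 4 ^ k ≤ E2 (iv k n) (iv k m) A
      · rw [if_pos h2]
        exact Or.inr (Or.inr (Or.inl ⟨rfl, h.1, h.2, Or.inl ⟨rfl, h2⟩⟩))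
      · rw [if_neg h2]
        exact Or.inr (Or.inl ⟨rfl, rfl, h.1, not_le.1 h2⟩)
    | some r =>
      rw [Option.elim_some]
      by_cases h2 : ξ * 4 ^ k ≤
          E2 (iv k n) (iv k m) (fun x y => Um A c k n m x y - Ug A c r x y)
      · rw [if_pos h2]
        exact Or.inr (Or.inr (Or.inl ⟨rfl, h.1, h.2, Or.inr ⟨r, rfl, h2⟩⟩))
      · rw [if_neg h2]
        exact Or.inr (Or.inr (Or.inr ⟨r, rfl, rfl, h.1, h.2, not_le.1 h2⟩))
  · rw [if_neg h]
    exact Or.inl ⟨rfl, h⟩

/-- every state is a step -/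
theorem st_eq_stp {k : ℕ} (hk : k ≤ K) (n m : ℤ) :
    ∃ p, st A c ξ η us K k n m = stp A c ξ η us k n m p ∧
      (p = none ∨ (k < K ∧ p = st A c ξ η us K (k + 1) (n / 2) (m / 2))) := by
  rcases hk.eq_or_lt with rfl | h
  · exact ⟨none, st_top n m, Or.inl rfl⟩
  · exact ⟨_, st_step h n m, Or.inr ⟨h, rfl⟩⟩

theorem st_bounds {k : ℕ} (hk : k ≤ K) (n m : ℤ) {r : ℕ} (h : st A c ξ η us K k n m = some r) :
    k ≤ r ∧ r ≤ K := by
  have key : ∀ d k, k + d = K → ∀ n m r, st A c ξ η us K k n m = some r → k ≤ r ∧ r ≤ K := by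
    intro d
    induction d with
    | zero =>
      intro k hk n m r h
      have : k = K := by omega
      subst this
      rw [st_top] at h
      rcases stp_cases (A := A) (c := c) (ξ := ξ) (η := η) (us := us) k n m none with
        h1 | h1 | h1 | ⟨r', h1⟩
      · rw [h1.1] at h; exact absurd h (by simp)
      · rw [h1.1] at h; exact absurd h (by simp)
      · rw [h1.1] at h
        simp only [Option.some.injEq] at h
        omega
      · exact absurd h1.2.1 (by simp)
    | succ d ih =>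
      intro k hk n m r h
      have hlt : k < K := by omega
      rw [st_step hlt] at h
      rcases stp_cases (A := A) (c := c) (ξ := ξ) (η := η) (us := us) k n m
        (st A c ξ η us K (k + 1) (n / 2) (m / 2)) with h1 | h1 | h1 | ⟨r', h1⟩
      · rw [h1.1] at h; exact absurd h (by simp)
      · rw [h1.1] at h; exact absurd h (by simp)
      · rw [h1.1] at h
        simp only [Option.some.injEq] at h
        omega
      · rw [h1.1] at h
        simp only [Option.some.injEq] at h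
        subst h
        have := ih (k + 1) (by omega) _ _ _ h1.2.1
        omega
  exact key (K - k) k (by omega) n m r h

/-- **An alive square is used and has a large current energy.** -/
theorem alive_energy {k : ℕ} (hk : k ≤ K) {n m : ℤ} (h : st A c ξ η us K k n m ≠ none) :
    us k n m ∧ η * 4 ^ k ≤ E2 (iv k n) (iv k m) A := by
  obtain ⟨p, hp, -⟩ := st_eq_stp (A := A) (c := c) (ξ := ξ) (η := η) (us := us) hk n m
  rw [hp] at h
  rcases stp_cases (A := A) (c := c) (ξ := ξ) (η := η) (us := us) k n m p with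
    h1 | h1 | h1 | ⟨r, h1⟩
  · exact absurd h1.1 h
  · exact absurd h1.1 h
  · exact ⟨h1.2.1, h1.2.2.1⟩
  · exact ⟨h1.2.2.1, h1.2.2.2.1⟩

/-- a used square which is not alive has a small energy -/
theorem dead_energy {k : ℕ} (hk : k ≤ K) {n m : ℤ} (hη : 0 ≤ η) (hu : us k n m)
    (h : st A c ξ η us K k n m = none) : E2 (iv k n) (iv k m) A ≤ 2 * η * 4 ^ k := by
  have h4 : 0 ≤ η * 4 ^ k := by positivity
  obtain ⟨p, hp, -⟩ := st_eq_stp (A := A) (c := c) (ξ := ξ) (η := η) (us := us) hk n m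
  rw [hp] at h
  rcases stp_cases (A := A) (c := c) (ξ := ξ) (η := η) (us := us) k n m p with
    h1 | h1 | h1 | ⟨r, h1⟩
  · have h2 : E2 (iv k n) (iv k m) A < η * 4 ^ k := by
      by_contra h'
      exact h1.2 ⟨hu, not_lt.1 h'⟩
    linarith
  · exact h1.2.2.2.le
  · rw [h1.1] at h; exact absurd h (by simp)
  · rw [h1.1] at h; exact absurd h (by simp)

/-- a state `some r` with `r` not the scale of the square is inherited -/
theorem st_inherit {k : ℕ} (hk : k < K) {n m : ℤ} {r : ℕ} (h : st A c ξ η us K k n m = some r)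
    (hr : r ≠ k) : st A c ξ η us K (k + 1) (n / 2) (m / 2) = some r := by
  rw [st_step hk] at h
  rcases stp_cases (A := A) (c := c) (ξ := ξ) (η := η) (us := us) k n m
    (st A c ξ η us K (k + 1) (n / 2) (m / 2)) with h1 | h1 | h1 | ⟨r', h1⟩
  · rw [h1.1] at h; exact absurd h (by simp)
  · rw [h1.1] at h; exact absurd h (by simp)
  · rw [h1.1] at h
    simp only [Option.some.injEq] at h
    exact absurd h.symm hr
  · rw [h1.1] at h
    rw [h1.2.1, h]

/-- the reference is close to the minimiser -/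
theorem close_H (hξ : 0 < ξ) {k : ℕ} (hk : k ≤ K) {n m : ℤ} {r : ℕ}
    (h : st A c ξ η us K k n m = some r) :
    E2 (iv k n) (iv k m) (fun x y => Um A c k n m x y - Ug A c r x y) ≤ ξ * 4 ^ k := by
  have self : E2 (iv k n) (iv k m) (fun x y => Um A c k n m x y - Ug A c k x y) ≤ ξ * 4 ^ k := by
    have : E2 (iv k n) (iv k m) (fun x y => Um A c k n m x y - Ug A c k x y) = 0 := by
      unfold E2
      refine sum_eq_zero fun x hx => sum_eq_zero fun y hy => ?_
      show (Um A c k n m x y - Ug A c k x y) ^ 2 = 0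
      rw [Ug_eq A c hx hy]; ring
    rw [this]; positivity
  obtain ⟨p, hp, -⟩ := st_eq_stp (A := A) (c := c) (ξ := ξ) (η := η) (us := us) hk n m
  rw [hp] at h
  rcases stp_cases (A := A) (c := c) (ξ := ξ) (η := η) (us := us) k n m p with
    h1 | h1 | h1 | ⟨r', h1⟩
  · rw [h1.1] at h; exact absurd h (by simp)
  · rw [h1.1] at h; exact absurd h (by simp)
  · rw [h1.1] at h
    simp only [Option.some.injEq] at h
    rw [← h]; exact self
  · rw [h1.1] at h
    simp only [Option.some.injEq] at h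
    rw [← h]; exact h1.2.2.2.2.le

/-! ### The residual -/

/-- the residual at scale `k` -/
def RsH (A : ℤ → ℤ → ℝ) (c ξ η : ℝ) (us : ℕ → ℤ → ℤ → Prop) (K k : ℕ) (x y : ℤ) : ℝ :=
  Option.elim (st A c ξ η us K k (ix k x) (ix k y)) (A x y) fun r => Ug A c r x y

theorem RsH_none {k : ℕ} {n m x y : ℤ} (hx : x ∈ iv k n) (hy : y ∈ iv k m)
    (h : st A c ξ η us K k n m = none) : RsH A c ξ η us K k x y = A x y := by
  unfold RsH
  rw [mem_iv.1 hx, mem_iv.1 hy, h]
  rfl

theorem RsH_some {k : ℕ} {n m x y : ℤ} (hx : x ∈ iv k n) (hy : y ∈ iv k m) {r : ℕ}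
    (h : st A c ξ η us K k n m = some r) : RsH A c ξ η us K k x y = Ug A c r x y := by
  unfold RsH
  rw [mem_iv.1 hx, mem_iv.1 hy, h]
  rfl

/-- nothing changes where the state is the one of the parent -/
theorem RsH_step {k : ℕ} {n m : ℤ}
    (h : st A c ξ η us K k n m = st A c ξ η us K (k + 1) (n / 2) (m / 2)) {x y : ℤ}
    (hx : x ∈ iv k n) (hy : y ∈ iv k m) :
    RsH A c ξ η us K k x y = RsH A c ξ η us K (k + 1) x y := by
  have h1 : ix (k + 1) x = n / 2 := by
    rw [← ix_ix k 1, mem_iv.1 hx]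
    unfold ix; norm_num
  have h2 : ix (k + 1) y = m / 2 := by
    rw [← ix_ix k 1, mem_iv.1 hy]
    unfold ix; norm_num
  unfold RsH
  rw [mem_iv.1 hx, mem_iv.1 hy, h1, h2, h]

/-- **The cap of the residual.** -/
theorem cap_RsH (hc : 0 < c) (hξ : 0 < ξ) (hη : 0 ≤ η) {k : ℕ} (hk : k ≤ K) {n m : ℤ}
    (hu : us k n m) {s S : ℝ} (hs : 0 ≤ s) (hS : s + √ξ ≤ S) (hS' : √(2 * η) ≤ S)
    (hA : E2 (iv k n) (iv k m) A ≤ c * s ^ 4 * 4 ^ k) :
    Cap k n m S (RsH A c ξ η us K k) := by
  have mono : ∀ {a : ℝ} {V : ℤ → ℤ → ℝ}, 0 ≤ a → a ≤ S → Cap k n m a V → Cap k n m S V := by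
    intro a V ha haS hV u v
    have h1 := hV u v
    have h2 : (a * 2 ^ k) ^ 2 ≤ (S * 2 ^ k) ^ 2 :=
      pow_le_pow_left₀ (by positivity) (mul_le_mul_of_nonneg_right haS (by positivity)) 2
    refine h1.trans ?_
    have h3 : 0 ≤ ∑ x ∈ iv k n, u x ^ 2 := sum_nonneg fun _ _ => sq_nonneg _
    have h4 : 0 ≤ ∑ y ∈ iv k m, v y ^ 2 := sum_nonneg fun _ _ => sq_nonneg _
    exact mul_le_mul_of_nonneg_right (mul_le_mul_of_nonneg_right h2 h3) h4
  rcases h : st A c ξ η us K k n m with _ | r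
  · refine mono (Real.sqrt_nonneg _) hS' ?_
    refine cap_of_E2 ?_
    rw [Real.sq_sqrt (by positivity)]
    refine le_trans (le_of_eq ?_) (dead_energy hk hη hu h)
    exact E2_congr fun x hx y hy => RsH_none hx hy h
  · refine mono (add_nonneg hs (Real.sqrt_nonneg _)) hS ?_
    have h1 := cap_Um hc hA
    have h2 : Cap k n m (√ξ) fun x y => Ug A c r x y - Um A c k n m x y := by
      refine cap_of_E2 ?_
      rw [Real.sq_sqrt hξ.le]
      refine le_trans (le_of_eq ?_) (close_H (A := A) (c := c) hξ hk h)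
      unfold E2
      exact sum_congr rfl fun x _ => sum_congr rfl fun y _ => by ring
    refine cap_congr (fun x hx y hy => ?_) (cap_add' hs (Real.sqrt_nonneg ξ) h1 h2)
    rw [RsH_some hx hy h]; ring

/-! ### The active components -/

/-- **the active components** of the square `(k; n, m)` -/
def actH (A : ℤ → ℤ → ℝ) (c ξ η : ℝ) (us : ℕ → ℤ → ℤ → Prop) (K k : ℕ) (n m : ℤ) :
    Finset (ℕ × ℤ × ℤ) :=
  Option.elim (st A c ξ η us K k n m) ∅ fun r => cset r (ix (r - k) n) (ix (r - k) m)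

theorem actH_none {k : ℕ} {n m : ℤ} (h : st A c ξ η us K k n m = none) :
    actH A c ξ η us K k n m = ∅ := by
  unfold actH; rw [h]; rfl

theorem actH_some {k : ℕ} {n m : ℤ} {r : ℕ} (h : st A c ξ η us K k n m = some r) :
    actH A c ξ η us K k n m = cset r (ix (r - k) n) (ix (r - k) m) := by
  unfold actH; rw [h]; rfl

/-- **The alive matrix is the sum of the active components.** -/
theorem aliveH_eq (hc : 0 ≤ c) {k : ℕ} (hk : k ≤ K) {n m x y : ℤ} (hx : x ∈ iv k n)
    (hy : y ∈ iv k m) :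
    A x y - RsH A c ξ η us K k x y =
      ∑ i ∈ actH A c ξ η us K k n m, comA A c i x * comB A c i y := by
  rcases h : st A c ξ η us K k n m with _ | r
  · rw [actH_none h, sum_empty, RsH_none hx hy h, sub_self]
  · have hb := st_bounds hk n m h
    have ex := ix_ref hb.1 hx
    have ey := ix_ref hb.1 hy
    have hx' : x ∈ iv r (ix (r - k) n) := mem_iv.2 ex
    have hy' : y ∈ iv r (ix (r - k) m) := mem_iv.2 ey
    rw [RsH_some hx hy h, Ug_eq A c hx' hy', frame_eq hc A hx' hy', actH_some h, sum_cset]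
    refine sum_congr rfl fun x' hx'' => ?_
    rw [comA_of_mem hx' hx'', comB_of_mem hy' hx'']

/-- the scale of a component is the scale of its birth square -/
theorem actH_scale {k : ℕ} {n m : ℤ} {i : ℕ × ℤ × ℤ} (hi : i ∈ actH A c ξ η us K k n m) :
    st A c ξ η us K k n m = some i.1 := by
  rcases h : st A c ξ η us K k n m with _ | r
  · rw [actH_none h] at hi; exact absurd hi (notMem_empty _)
  · rw [actH_some h, mem_cset] at hi
    rw [hi.1]

theorem ix_succ_shift {r k : ℕ} (h : k < r) (n : ℤ) : ix (r - k) n = ix (r - (k + 1)) (n / 2) := by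
  have h2 : r - k = 1 + (r - (k + 1)) := by omega
  rw [h2, ← ix_ix 1 (r - (k + 1)) n]
  have h3 : ix 1 n = n / 2 := by unfold ix; norm_num
  rw [h3]

/-- **Upwards closed until the birth.** -/
theorem actH_up {k : ℕ} (hk : k < K) {n m : ℤ} {i : ℕ × ℤ × ℤ}
    (hi : i ∈ actH A c ξ η us K k n m) (h : k < i.1) :
    i ∈ actH A c ξ η us K (k + 1) (n / 2) (m / 2) := by
  have h1 := actH_scale hi
  have h2 := st_inherit hk h1 (by omega)
  rw [actH_some h1] at hi
  rw [actH_some h2, ← ix_succ_shift h, ← ix_succ_shift h]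
  exact hi

end

end Vale.Agent.P141.H150
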