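import Vale.Agent.P141.H150.Hyst

/-!
# P141, line W, end lemma: packing of the births of the plane process with an energy level
-/

namespace Vale.Agent.P141.H150

open Finset Vale.Agent.P141.PL Vale.Agent.P141.PL.H317
open Vale.Agent.P141.H736 Vale.Agent.P141.H958 Vale.Agent.P141.H443

noncomputable section

variable {A : ℤ → ℤ → ℝ} {c ξ η : ℝ} {us : ℕ → ℤ → ℤ → Prop} {K : ℕ}

open Classical in
/-- the contribution of one square: births at it and below it, `R` = births strictly below -/
def bst (A : ℤ → ℤ → ℝ) (c ξ η : ℝ) (us : ℕ → ℤ → ℤ → Prop) (i : ℕ) (a b : ℤ)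
    (R : Option (ℤ → ℤ → ℝ) → ℝ) (S : Option (ℤ → ℤ → ℝ)) : ℝ :=
  if us i a b ∧ η * 4 ^ i ≤ E2 (iv i a) (iv i b) A then
    Option.elim S (if 2 * η * 4 ^ i ≤ E2 (iv i a) (iv i b) A then
        4 ^ i + R (some (Um A c i a b)) else R none)
      fun W => if ξ * 4 ^ i ≤ E2 (iv i a) (iv i b) (fun x y => Um A c i a b x y - W x y)
        then 4 ^ i + R (some (Um A c i a b)) else R (some W)
  else R none

/-- the area of the births strictly below `(k; n, m)`, the reference function is `S` -/
def BM (A : ℤ → ℤ → ℝ) (c ξ η : ℝ) (us : ℕ → ℤ → ℤ → Prop) (k : ℕ) :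
    ℤ → ℤ → Option (ℤ → ℤ → ℝ) → ℝ :=
  Nat.rec (fun _ _ _ => 0) (fun i R n m S => ch4 n m fun a b => bst A c ξ η us i a b (R a b) S) k

theorem BM_zero (n m : ℤ) (S : Option (ℤ → ℤ → ℝ)) : BM A c ξ η us 0 n m S = 0 := rfl

theorem BM_succ (k : ℕ) (n m : ℤ) (S : Option (ℤ → ℤ → ℝ)) :
    BM A c ξ η us (k + 1) n m S =
      ch4 n m fun a b => bst A c ξ η us k a b (BM A c ξ η us k a b) S := rfl

/-- the cases of one square -/
theorem bst_cases (i : ℕ) (a b : ℤ) (R : Option (ℤ → ℤ → ℝ) → ℝ) (S : Option (ℤ → ℤ → ℝ)) :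
    (bst A c ξ η us i a b R S = R none ∧ (¬ us i a b ∨ E2 (iv i a) (iv i b) A < η * 4 ^ i)) ∨
    (bst A c ξ η us i a b R S = R none ∧ S = none ∧ us i a b) ∨
    (bst A c ξ η us i a b R S = 4 ^ i + R (some (Um A c i a b)) ∧ us i a b ∧
      ((S = none ∧ 2 * η * 4 ^ i ≤ E2 (iv i a) (iv i b) A) ∨ ∃ W, S = some W ∧
        ξ * 4 ^ i ≤ E2 (iv i a) (iv i b) (fun x y => Um A c i a b x y - W x y))) ∨
    (∃ W, bst A c ξ η us i a b R S = R (some W) ∧ S = some W ∧ us i a b ∧
      E2 (iv i a) (iv i b) (fun x y => Um A c i a b x y - W x y) < ξ * 4 ^ i) := by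
  unfold bst
  by_cases h : us i a b ∧ η * 4 ^ i ≤ E2 (iv i a) (iv i b) A
  · rw [if_pos h]
    cases S with
    | none =>
      rw [Option.elim_none]
      by_cases h2 : 2 * η * 4 ^ i ≤ E2 (iv i a) (iv i b) A
      · rw [if_pos h2]
        exact Or.inr (Or.inr (Or.inl ⟨rfl, h.1, Or.inl ⟨rfl, h2⟩⟩))
      · rw [if_neg h2]
        exact Or.inr (Or.inl ⟨rfl, rfl, h.1⟩)
    | some W =>
      rw [Option.elim_some]
      by_cases h2 : ξ * 4 ^ i ≤
          E2 (iv i a) (iv i b) (fun x y => Um A c i a b x y - W x y)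
      · rw [if_pos h2]
        exact Or.inr (Or.inr (Or.inl ⟨rfl, h.1, Or.inr ⟨W, rfl, h2⟩⟩))
      · rw [if_neg h2]
        exact Or.inr (Or.inr (Or.inr ⟨W, rfl, rfl, h.1, not_le.1 h2⟩))
  · rw [if_neg h]
    refine Or.inl ⟨rfl, ?_⟩
    by_contra h'
    push Not at h'
    exact h ⟨h'.1, h'.2⟩

/-- below an unused square nothing is born -/
theorem BM_unused (hus : ∀ k n m, us k n m → us (k + 1) (n / 2) (m / 2)) (k : ℕ) :
    ∀ (n m : ℤ) (S : Option (ℤ → ℤ → ℝ)), ¬ us k n m → BM A c ξ η us k n m S = 0 := by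
  induction k with
  | zero => intro n m S _; rfl
  | succ k ih =>
    intro n m S h
    rw [BM_succ]
    have h1 : ∀ a b, a / 2 = n → b / 2 = m → bst A c ξ η us k a b (BM A c ξ η us k a b) S = 0 := by
      intro a b ha hb
      have hu : ¬ us k a b := fun h' => h (by rw [← ha, ← hb]; exact hus k a b h')
      have h2 : bst A c ξ η us k a b (BM A c ξ η us k a b) S = BM A c ξ η us k a b none := by
        unfold bst
        rw [if_neg (fun h' => hu h'.1)]
      rw [h2, ih a b none hu]
    rw [ch4_congr (g := fun _ _ => 0) h1]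
    unfold ch4; ring

theorem BM_nonneg (k : ℕ) : ∀ (n m : ℤ) (S : Option (ℤ → ℤ → ℝ)), 0 ≤ BM A c ξ η us k n m S := by
  induction k with
  | zero => intro n m S; exact le_rfl
  | succ k ih =>
    intro n m S
    rw [BM_succ]
    have h : ∀ a b : ℤ, 0 ≤ bst A c ξ η us k a b (BM A c ξ η us k a b) S := by
      intro a b
      rcases bst_cases (A := A) (c := c) (ξ := ξ) (η := η) (us := us) k a b
        (BM A c ξ η us k a b) S with h | h | h | ⟨W, h⟩
      · rw [h.1]; exact ih _ _ _
      · rw [h.1]; exact ih _ _ _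
      · rw [h.1]
        have := ih a b (some (Um A c k a b))
        positivity
      · rw [h.1]; exact ih _ _ _
    unfold ch4
    exact add_nonneg (add_nonneg (add_nonneg (h _ _) (h _ _)) (h _ _)) (h _ _)

/-- the value of an alive claim at a square -/
def Cl (A : ℤ → ℤ → ℝ) (c ξ D : ℝ) (k : ℕ) (n m : ℤ) (v : ℝ) (W : ℤ → ℤ → ℝ) : Prop :=
  ∃ (V : ℤ → ℤ → ℝ) (μ : ℝ), μ ≤ v ∧
    ξ * μ ≤ E2 (iv k n) (iv k m) (fun x y => V x y - W x y) ∧
    fE A c k n m V + ξ * (v - μ) ≤ E2 (iv k n) (iv k m) A + D * 4 ^ k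

/-- a claim with the minimiser as the reference bounds the value -/
theorem Cl.bound (hc : 0 ≤ c) {D : ℝ} {k : ℕ} {n m : ℤ} {v : ℝ}
    (h : Cl A c ξ D k n m v (Um A c k n m)) :
    fE A c k n m (Um A c k n m) + ξ * v ≤ E2 (iv k n) (iv k m) A + D * 4 ^ k := by
  obtain ⟨V, μ, h0, h1, h2⟩ := h
  have h3 := strong hc (Um_min hc A k n m) V
  have e2 : ξ * (v - μ) = ξ * v - ξ * μ := by ring
  rw [e2] at h2
  linarith

/-- the claim with `V` the minimiser, `μ = 0` -/
theorem Cl.triv (hc : 0 ≤ c) {D : ℝ} {k : ℕ} {n m : ℤ} {v : ℝ} (hv : 0 ≤ v)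
    (h : ξ * v ≤ D * 4 ^ k) (W : ℤ → ℤ → ℝ) : Cl A c ξ D k n m v W := by
  refine ⟨Um A c k n m, 0, hv, ?_, ?_⟩
  · rw [mul_zero]; exact E2_nonneg _ _ _
  · have h1 := Um_min hc A k n m fun _ _ => 0
    rw [fE_zero] at h1
    rw [sub_zero]
    linarith

/-- **The two potentials.** -/
theorem BM_claim (hc : 0 ≤ c) (hξ : 0 < ξ) (hη : 0 < η)
    (hus : ∀ k n m, us k n m → us (k + 1) (n / 2) (m / 2)) (k : ℕ) :
    (∀ n m : ℤ, BM A c ξ η us k n m none ≤ (1 / η + 2 / ξ) * E2 (iv k n) (iv k m) A) ∧
    ∀ (n m : ℤ) (W : ℤ → ℤ → ℝ),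
      Cl A c ξ (ξ * η * (1 / η + 2 / ξ)) k n m (BM A c ξ η us k n m (some W)) W := by
  set C0 : ℝ := 1 / η + 2 / ξ with hC0
  have hC : 0 < C0 := by positivity
  induction k with
  | zero =>
    refine ⟨fun n m => ?_, fun n m W => ?_⟩
    · rw [BM_zero]
      exact mul_nonneg hC.le (E2_nonneg _ _ _)
    · rw [BM_zero]
      exact Cl.triv hc le_rfl (by rw [mul_zero]; positivity) W
  | succ k ih =>
    obtain ⟨ihN, ihC⟩ := ih
    have h4 : (0 : ℝ) < 4 ^ k := by positivity
    refine ⟨fun n m => ?_, fun n m W => ?_⟩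
    · rw [BM_succ, E2_children]
      have e : C0 * ch4 n m (fun a b => E2 (iv k a) (iv k b) A) =
          ch4 n m fun a b => C0 * E2 (iv k a) (iv k b) A := by unfold ch4; ring
      rw [e]
      refine ch4_mono fun a b _ _ => ?_
      have hE := E2_nonneg (iv k a) (iv k b) A
      rcases bst_cases (A := A) (c := c) (ξ := ξ) (η := η) (us := us) k a b
        (BM A c ξ η us k a b) none with h | h | h | ⟨W, h⟩
      · rw [h.1]; exact ihN a b
      · rw [h.1]; exact ihN a b
      · rw [h.1]
        rcases h.2.2 with h5 | ⟨W, h5, -⟩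
        · have h6 := (ihC a b (Um A c k a b)).bound hc
          have h7 := fE_nonneg (A := A) hc k a b (Um A c k a b)
          set v := BM A c ξ η us k a b (some (Um A c k a b)) with hv
          set E := E2 (iv k a) (iv k b) A with hE'
          have h8 : ξ * v ≤ E + ξ * η * C0 * 4 ^ k := by linarith
          have h9 : 2 * η * 4 ^ k ≤ E := h5.2
          -- v ≤ E / ξ + η C0 4^k
          have h10 : v ≤ E / ξ + η * C0 * 4 ^ k := by
            rw [div_add' _ _ _ hξ.ne', le_div_iff₀ hξ]
            linarith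
          have h11 : (4 : ℝ) ^ k ≤ E / (2 * η) := by
            rw [le_div_iff₀ (by positivity)]; linarith
          have h12 : η * C0 * 4 ^ k ≤ C0 * E / 2 := by
            have := mul_le_mul_of_nonneg_left h9 hC.le
            linarith
          have e3 : C0 * E = E / η + 2 * (E / ξ) := by rw [hC0]; field_simp
          have e4 : E / (2 * η) = E / η / 2 := by field_simp
          rw [e4] at h11
          linarith
        · exact absurd h5 (by simp)
      · exact absurd h.2.1 (by simp)
    · -- the alive claim: the four children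
      have hch : ∀ a b : ℤ, Cl A c ξ (ξ * η * C0) k a b
          (bst A c ξ η us k a b (BM A c ξ η us k a b) (some W)) W := by
        intro a b
        rcases bst_cases (A := A) (c := c) (ξ := ξ) (η := η) (us := us) k a b
          (BM A c ξ η us k a b) (some W) with h | h | h | ⟨W', h⟩
        · rw [h.1]
          refine Cl.triv hc (BM_nonneg k a b none) ?_ W
          rcases h.2 with hu | hE
          · rw [BM_unused hus k a b none hu, mul_zero]; positivity
          · have h5 := (ihN a b).trans (mul_le_mul_of_nonneg_left hE.le hC.le)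
            have h6 := mul_le_mul_of_nonneg_left h5 hξ.le
            linarith
        · exact absurd h.2.1 (by simp)
        · rw [h.1]
          rcases h.2.2 with h5 | ⟨W', h5, h6⟩
          · exact absurd h5.1 (by simp)
          · simp only [Option.some.injEq] at h5
            subst h5
            have h7 := (ihC a b (Um A c k a b)).bound hc
            have h8 := BM_nonneg (A := A) (c := c) (ξ := ξ) (η := η) (us := us) k a b
              (some (Um A c k a b))
            refine ⟨Um A c k a b, 4 ^ k, by linarith, h6, ?_⟩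
            have e : ξ * (4 ^ k + BM A c ξ η us k a b (some (Um A c k a b)) - 4 ^ k) =
                ξ * BM A c ξ η us k a b (some (Um A c k a b)) := by ring
            rw [e]
            exact h7
        · have h5 := h.2.1
          simp only [Option.some.injEq] at h5
          subst h5
          rw [h.1]
          exact ihC a b W
      choose V μ h0 h1 h2 using hch
      refine ⟨gl k V, ch4 n m μ, ?_, ?_, ?_⟩
      · rw [BM_succ]
        exact ch4_mono fun a b _ _ => h0 a b
      · rw [E2_children]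
        have e : ξ * ch4 n m μ = ch4 n m fun a b => ξ * μ a b := by unfold ch4; ring
        rw [e]
        refine ch4_mono fun a b ha hb => ?_
        refine (h1 a b).trans (le_of_eq (E2_congr fun x hx y hy => ?_))
        rw [gl_eq hx hy]
      · have h3 := fE_children hc A k n m (gl k V)
        have h4 : ch4 n m (fun a b => fE A c k a b (gl k V)) = ch4 n m fun a b =>
            fE A c k a b (V a b) :=
          ch4_congr fun a b _ _ => fE_congr fun x hx y hy => gl_eq hx hy
        rw [h4] at h3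
        have h5 : ch4 n m (fun a b => fE A c k a b (V a b) + ξ *
            (bst A c ξ η us k a b (BM A c ξ η us k a b) (some W) - μ a b)) ≤
            ch4 n m fun a b => E2 (iv k a) (iv k b) A + ξ * η * C0 * 4 ^ k :=
          ch4_mono fun a b _ _ => h2 a b
        have e6 : ch4 n m (fun a b => E2 (iv k a) (iv k b) A + ξ * η * C0 * 4 ^ k) =
            E2 (iv (k + 1) n) (iv (k + 1) m) A + ξ * η * C0 * 4 ^ (k + 1) := by
          rw [E2_children]
          unfold ch4
          rw [pow_succ]
          ring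
        rw [e6] at h5
        rw [BM_succ]
        refine le_trans ?_ h5
        unfold ch4 at h3 ⊢
        linarith

/-- one step of the births from a dead parent -/
theorem bst_none_le (hc : 0 ≤ c) (hξ : 0 < ξ) (hη : 0 < η)
    (hus : ∀ k n m, us k n m → us (k + 1) (n / 2) (m / 2)) (k : ℕ) (n m : ℤ) :
    bst A c ξ η us k n m (BM A c ξ η us k n m) none ≤
      (1 / η + 2 / ξ) * E2 (iv k n) (iv k m) A := by
  -- the square is a child of a square of scale `k + 1`; the other children contribute `≥ 0`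
  obtain ⟨ihN, ihC⟩ := BM_claim (A := A) (c := c) hc hξ hη hus k
  set C0 : ℝ := 1 / η + 2 / ξ with hC0
  have hC : 0 < C0 := by positivity
  rcases bst_cases (A := A) (c := c) (ξ := ξ) (η := η) (us := us) k n m
    (BM A c ξ η us k n m) none with h | h | h | ⟨W, h⟩
  · rw [h.1]; exact ihN n m
  · rw [h.1]; exact ihN n m
  · rw [h.1]
    rcases h.2.2 with h5 | ⟨W, h5, -⟩
    · have h6 := (ihC n m (Um A c k n m)).bound hc
      have h7 := fE_nonneg (A := A) hc k n m (Um A c k n m)
      set v := BM A c ξ η us k n m (some (Um A c k n m)) with hv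
      set E := E2 (iv k n) (iv k m) A with hE'
      have h8 : ξ * v ≤ E + ξ * η * C0 * 4 ^ k := by linarith
      have h9 : 2 * η * 4 ^ k ≤ E := h5.2
      have h10 : v ≤ E / ξ + η * C0 * 4 ^ k := by
        rw [div_add' _ _ _ hξ.ne', le_div_iff₀ hξ]
        linarith
      have h11 : (4 : ℝ) ^ k ≤ E / (2 * η) := by
        rw [le_div_iff₀ (by positivity)]; linarith
      have h12 : η * C0 * 4 ^ k ≤ C0 * E / 2 := by
        have := mul_le_mul_of_nonneg_left h9 hC.le
        linarith
      have e3 : C0 * E = E / η + 2 * (E / ξ) := by rw [hC0]; field_simp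
      have e4 : E / (2 * η) = E / η / 2 := by field_simp
      rw [e4] at h11
      linarith
    · exact absurd h5 (by simp)
  · exact absurd h.2.1 (by simp)

/-! ### The area of the births -/

theorem bst_congr {i : ℕ} {a b : ℤ} {R R' : Option (ℤ → ℤ → ℝ) → ℝ} {S S' : Option (ℤ → ℤ → ℝ)}
    (hn : R none = R' none) (hu : R (some (Um A c i a b)) = R' (some (Um A c i a b)))
    (hS : (S = none ∧ S' = none) ∨ ∃ W W', S = some W ∧ S' = some W' ∧
      (∀ x ∈ iv i a, ∀ y ∈ iv i b, W x y = W' x y) ∧ R (some W) = R' (some W')) :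
    bst A c ξ η us i a b R S = bst A c ξ η us i a b R' S' := by
  classical
  unfold bst
  rcases hS with ⟨rfl, rfl⟩ | ⟨W, W', rfl, rfl, hW, hR⟩
  · rw [Option.elim_none, Option.elim_none, hn, hu]
  · rw [Option.elim_some, Option.elim_some, hn, hu, hR]
    rw [E2_congr (V := fun x y => Um A c i a b x y - W x y)
      (W := fun x y => Um A c i a b x y - W' x y) fun x hx y hy => by rw [hW x hx y hy]]

theorem BM_congr (k : ℕ) : ∀ (n m : ℤ) {W W' : ℤ → ℤ → ℝ},
    (∀ x ∈ iv k n, ∀ y ∈ iv k m, W x y = W' x y) →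
    BM A c ξ η us k n m (some W) = BM A c ξ η us k n m (some W') := by
  induction k with
  | zero => intro n m W W' _; rfl
  | succ k ih =>
    intro n m W W' h
    rw [BM_succ, BM_succ]
    refine ch4_congr fun a b ha hb => ?_
    have h' : ∀ x ∈ iv k a, ∀ y ∈ iv k b, W x y = W' x y := fun x hx y hy =>
      h x (iv_sub_child ha hx) y (iv_sub_child hb hy)
    exact bst_congr rfl rfl (Or.inr ⟨W, W', rfl, rfl, h', ih a b h'⟩)

open Classical in
/-- the area of the births strictly below the square `(k; n, m)` -/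
def bA (A : ℤ → ℤ → ℝ) (c ξ η : ℝ) (us : ℕ → ℤ → ℤ → Prop) (K k : ℕ) (n m : ℤ) : ℝ :=
  sumd (fun j a b => if st A c ξ η us K j a b = some j then (4 : ℝ) ^ j else 0) k n m

theorem bA_zero (n m : ℤ) : bA A c ξ η us K 0 n m = 0 := rfl

open Classical in
theorem bA_succ (k : ℕ) (n m : ℤ) : bA A c ξ η us K (k + 1) n m = ch4 n m fun a b =>
    (if st A c ξ η us K k a b = some k then (4 : ℝ) ^ k else 0) + bA A c ξ η us K k a b :=
  sumd_succ _ k n m

/-- the reference function of a state -/
def rfn (A : ℤ → ℤ → ℝ) (c : ℝ) (p : Option ℕ) : Option (ℤ → ℤ → ℝ) := p.map (Ug A c)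

open Classical in
/-- one square: the births at it and below it -/
theorem step_eq {k : ℕ} (a b : ℤ) (p : Option ℕ) (hp : ∀ r, p = some r → k < r) :
    (if stp A c ξ η us k a b p = some k then (4 : ℝ) ^ k else 0) +
        BM A c ξ η us k a b (rfn A c (stp A c ξ η us k a b p)) =
      bst A c ξ η us k a b (BM A c ξ η us k a b) (rfn A c p) := by
  have hUg : BM A c ξ η us k a b (some (Ug A c k)) = BM A c ξ η us k a b (some (Um A c k a b)) :=
    BM_congr k a b fun x hx y hy => Ug_eq A c hx hy
  unfold stp bst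
  by_cases h : us k a b ∧ η * 4 ^ k ≤ E2 (iv k a) (iv k b) A
  · rw [if_pos h, if_pos h]
    cases p with
    | none =>
      have e : rfn A c none = none := rfl
      rw [Option.elim_none, e, Option.elim_none]
      by_cases h2 : 2 * η * 4 ^ k ≤ E2 (iv k a) (iv k b) A
      · rw [if_pos h2, if_pos h2, if_pos rfl]
        show 4 ^ k + BM A c ξ η us k a b (some (Ug A c k)) = _
        rw [hUg]
      · rw [if_neg h2, if_neg h2, if_neg (by simp), zero_add]
        rfl
    | some r =>
      have hr := hp r rfl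
      have e : rfn A c (some r) = some (Ug A c r) := rfl
      rw [Option.elim_some, e, Option.elim_some]
      by_cases h2 : ξ * 4 ^ k ≤ E2 (iv k a) (iv k b) (fun x y => Um A c k a b x y - Ug A c r x y)
      · rw [if_pos h2, if_pos h2, if_pos rfl]
        show 4 ^ k + BM A c ξ η us k a b (some (Ug A c k)) = _
        rw [hUg]
      · rw [if_neg h2, if_neg h2, if_neg, zero_add]
        · rfl
        · simp only [Option.some.injEq]; omega
  · rw [if_neg h, if_neg h, if_neg (by simp), zero_add]
    rfl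

theorem bA_eq_BM (k : ℕ) (hk : k ≤ K) : ∀ n m : ℤ,
    bA A c ξ η us K k n m = BM A c ξ η us k n m (rfn A c (st A c ξ η us K k n m)) := by
  classical
  induction k with
  | zero => intro n m; rfl
  | succ k ih =>
    intro n m
    have ih' := ih (by omega)
    rw [bA_succ, BM_succ]
    refine ch4_congr fun a b ha hb => ?_
    have h1 := st_step (A := A) (c := c) (ξ := ξ) (η := η) (us := us) (by omega : k < K) a b
    rw [ha, hb] at h1
    rw [ih' a b, h1]
    refine step_eq a b _ fun r hr => ?_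
    have := st_bounds (A := A) (c := c) (ξ := ξ) (η := η) (us := us) (by omega : k + 1 ≤ K) n m hr
    omega

open Classical in
/-- **Packing of the births**, the root included. -/
theorem births_le (hc : 0 ≤ c) (hξ : 0 < ξ) (hη : 0 < η)
    (hus : ∀ k n m, us k n m → us (k + 1) (n / 2) (m / 2)) (n m : ℤ) :
    (if st A c ξ η us K K n m = some K then (4 : ℝ) ^ K else 0) + bA A c ξ η us K K n m ≤
      (1 / η + 2 / ξ) * E2 (iv K n) (iv K m) A := by
  rw [bA_eq_BM K le_rfl, st_top]
  rw [step_eq n m none (fun r h => absurd h (by simp))]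
  exact bst_none_le hc hξ hη hus K n m

/-- **Packing of the births below any square.** -/
theorem births_loc (hc : 0 ≤ c) (hξ : 0 < ξ) (hη : 0 < η)
    (hus : ∀ k n m, us k n m → us (k + 1) (n / 2) (m / 2)) {k : ℕ} (hk : k ≤ K) (n m : ℤ) :
    bA A c ξ η us K k n m ≤ (1 / η + 2 / ξ) * E2 (iv k n) (iv k m) A +
      (4 + 4 * η / ξ) * 4 ^ k := by
  obtain ⟨ihN, ihC⟩ := BM_claim (A := A) (c := c) hc hξ hη hus k
  have hE := E2_nonneg (iv k n) (iv k m) A
  rw [bA_eq_BM k hk]
  rcases h : st A c ξ η us K k n m with _ | r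
  · show BM A c ξ η us k n m none ≤ _
    have : (0 : ℝ) ≤ (4 + 4 * η / ξ) * 4 ^ k := by positivity
    linarith [ihN n m]
  · show BM A c ξ η us k n m (some (Ug A c r)) ≤ _
    obtain ⟨V, μ, h0, h1, h2⟩ := ihC n m (Ug A c r)
    have h3 := strong hc (Um_min hc A k n m) V
    have h5 := fE_nonneg (A := A) hc k n m (Um A c k n m)
    have h6 := E2_sub_le (iv k n) (iv k m) V (Ug A c r) (Um A c k n m)
    have h7 := mul_le_mul_of_nonneg_left h0 hξ.le
    have h8 := close_H (A := A) (c := c) hξ hk h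
    set v := BM A c ξ η us k n m (some (Ug A c r)) with hv
    set E := E2 (iv k n) (iv k m) A with hE'
    set D := E2 (iv k n) (iv k m) (fun x y => V x y - Um A c k n m x y) with hD
    have e2 : ξ * (v - μ) = ξ * v - ξ * μ := by ring
    rw [e2] at h2
    have e3 : ξ * η * (1 / η + 2 / ξ) = ξ + 2 * η := by field_simp
    rw [e3] at h2
    -- ξ μ ≤ 2 D + 2 ξ 4^k, D ≤ E + (ξ + 2 η) 4^k - ξ (v - μ)
    have h9 : ξ * v ≤ 2 * E + (4 * ξ + 4 * η) * 4 ^ k := by nlinarith
    have h10 : ξ * v ≤ ξ * ((1 / η + 2 / ξ) * E + (4 + 4 * η / ξ) * 4 ^ k) := by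
      have e4 : ξ * ((1 / η + 2 / ξ) * E + (4 + 4 * η / ξ) * 4 ^ k) =
          ξ * E / η + 2 * E + (4 * ξ + 4 * η) * 4 ^ k := by field_simp
      rw [e4]
      have : 0 ≤ ξ * E / η := by positivity
      linarith
    exact le_of_mul_le_mul_left h10 hξ

end

end Vale.Agent.P141.H150
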