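import Vale.Agent.P141.H222.NumOf
import Vale.Agent.P141.H736.FixBD
import Vale.Agent.P141.H74.CutBC
import Vale.Agent.P141.H652.NumR
import Vale.Agent.P141.H652.NumQ
import Vale.Agent.P141.H329.WinS
import Vale.Agent.P141.H302.BornU
import Vale.Agent.P141.H548.LagU
import Vale.Agent.P141.H989.CrB3
import Vale.Agent.P141.H886.CapC

/-!
# P141, line (A), increasing part: the leaf `LBCg`

* `fE` : the number of the second slot at one `x0`; `sumU_fE`;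
* `pt` : the pair `(Bg, Cg)` at one `x0`, class data;
* **`lBCg : H408.LBCg`**.
-/

namespace Vale.Agent.P141.H150.LbcG

open Finset Matrix
open Vale.Agent.P075 (Ix)
open Vale.Agent.P141.PL (Pt iv ix cx mem_iv)
open Vale.Agent.P141.PL.H315 (Tri)
open Vale.Agent.P141.H48 (US ES BSl)
open Vale.Agent.P141.H305 (ClsM kapM)
open Vale.Agent.P141.H401 (StQ FibU FibP cb)
open Vale.Agent.P141.H677 (rt KT tr_T cP)
open Vale.Agent.P141.H652 (Th ah eb dB payS PbS)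
open Vale.Agent.P141.H505.Sk1 (Ch eT)
open Vale.Agent.P141.H408
open Vale.Agent.P141.H886
open Vale.Agent.P141.H808 (cS thS)
open Vale.Agent.P141.H548 (chg chg_nonneg raw_le varL oN sumL_o cS_zero)
open Vale.Agent.P141.H302 (bN sumL_b sumU_b1 Pr pr_not pr_ch nmB_bN Wn_bN eT_nn)
open Vale.Agent.P141.H989.CrB (fCRB mB sumU_mB wE_eT)
open Vale.Agent.P141.H419.WFamR (Wn Dn En nmH nmD nmE nmB c1 nmH_nonneg nmD_nonneg)
open Vale.Agent.P141.H874 (CP)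
open Vale.Agent.P141.H457 (SD PG rs)
open Vale.Agent.P141.H912 (wS)
open Vale.Agent.P141.H74.CutBC

noncomputable section

open scoped Classical

set_option linter.unusedVariables false

/-! ### The numbers -/

/-- the charges of the lag `q`, slot of the time `k + j` -/
def gN (j q : ℕ) : NumF := fun ι _ _ p n ez F1 F2 F3 o K x s r U g u v Q1 Q2 Q3 x0 =>
  ∑ k ∈ range (K - q), ∑ x1 ∈ iv K (cx K x).1, ∑ z ∈ iv K (cx K x).2.2,
    chg p s r o K x u x0 (k + q) x1 z (cS p ez U K v F2 x0 (k + j) x1 z)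

theorem sumL_g {j : ℕ} (hj : j ≤ 1) : SumL 1 (gN j) := by
  refine PairQ.toU (PairQ.imp varL ?_)
  intro ι _ _ p n ez F1 F2 F3 o K x s r U g u v Q1 Q2 Q3 X h q
  unfold H886.SumQ
  rw [one_mul]
  exact h q j hj

/-- one lag -/
theorem SumL.at0 {σ : ℝ} {f : ℕ → NumF} (H : SumL σ f) (l : ℕ) : SumU σ (f l) := by
  refine PairU.map (M := 1) zero_le_one H ?_
  intro ι _ _ p n ez F1 F2 F3 o K x s r U g u v Q1 Q2 Q3 X ht hs hr hez hX h
  rw [one_mul]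
  exact h l

/-- the number of the second slot -/
def fE : NumF := fun ι _ _ p n ez F1 F2 F3 o K x s r U g u v Q1 Q2 Q3 x0 =>
  ((((oN 0 ι p n ez F1 F2 F3 o K x s r U g u v Q1 Q2 Q3 x0 +
    gN 1 0 ι p n ez F1 F2 F3 o K x s r U g u v Q1 Q2 Q3 x0) +
    fCRB mB ι p n ez F1 F2 F3 o K x s r U g u v Q1 Q2 Q3 x0) +
    bN 0 ι p n ez F1 F2 F3 o K x s r U g u v Q1 Q2 Q3 x0) +
    ∑ l ∈ range (K + 1), (3 / 4 : ℝ) ^ l *
      gN 0 l ι p n ez F1 F2 F3 o K x s r U g u v Q1 Q2 Q3 x0) +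
    ∑ l ∈ range (K + 1), (3 / 4 : ℝ) ^ l *
      bN (l + 1) ι p n ez F1 F2 F3 o K x s r U g u v Q1 Q2 Q3 x0

theorem sumU_fE : SumU 1 fE :=
  SumU.add (SumU.add (SumU.add (SumU.add (SumU.add (SumL.at0 sumL_o 0)
    (SumL.at0 (sumL_g le_rfl) 0)) sumU_mB) (SumL.at0 sumL_b 0)) (sumL_g zero_le_one).wS) sumU_b1

/-- the number of the first slot -/
def fB : NumF := fun ι _ _ p n ez F1 F2 F3 o K x s r U g u v Q1 Q2 Q3 x0 =>
  dB p s r U K x u F3 Q3 x0 +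
    payS (beI p r) (p.lam s r) o K (cx K x) u (fun k => H652.bS p s r U K u F3 Q3 x0 k) x0

theorem sumU_fB : SumU (-1) fB := H652.EBU

section pt

variable {ι : Type} [Fintype ι] [DecidableEq ι] {p : H401.Num} {n K : ℕ} {ez : ℝ}
  {F1 F2 F3 : ℕ → Pt → ℝ} {Q1 Q2 Q3 : ℕ → Pt → Prop} {x : Pt} {s r : ℝ} {U : Tri}
  {g : ℤ → ℤ → ℝ} {u v : ℤ → ℤ → ι → ℝ} {o : ℤ} {x0 : ℤ}

/-- the moving weight -/
abbrev TW (p : H401.Num) (s r : ℝ) (o : ℤ) (K : ℕ) (x : Pt) (u : ℤ → ℤ → ι → ℝ) (x0 : ℤ) :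
    ℕ → ℤ → ℤ → Matrix ι ι ℝ :=
  fun a x1 m => Th (p.lam s r) K (cx K x).2.1 (KT (p.lam s r) u x1) (o - 2) x0 x1 a m

/-- its drift -/
abbrev EW (p : H401.Num) (s r : ℝ) (o : ℤ) (K : ℕ) (x : Pt) (u : ℤ → ℤ → ι → ℝ) (x0 : ℤ) :
    ℕ → ℤ → ℤ → Matrix ι ι ℝ :=
  fun k x1 m => eb (p.lam s r) K (cx K x).2.1 (KT (p.lam s r) u x1) (o - 2) x0 x1 (k + 1) m

/-- its variation -/
abbrev DW (p : H401.Num) (s r : ℝ) (o : ℤ) (K : ℕ) (x : Pt) (u : ℤ → ℤ → ι → ℝ) (x0 : ℤ) :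
    ℕ → ℤ → ℤ → Matrix ι ι ℝ :=
  fun k x1 m => ah (p.lam s r) K (cx K x).2.1 (KT (p.lam s r) u x1) (o - 2) x0 x1 k m

theorem gN_nn (ht : 0 < p.t) (hs : 0 < s) (hr : 1 ≤ r) (j q : ℕ) :
    0 ≤ gN j q ι p n ez F1 F2 F3 o K x s r U g u v Q1 Q2 Q3 x0 :=
  sum_nonneg fun k _ => sum_nonneg fun x1 _ => sum_nonneg fun z _ =>
    chg_nonneg ht hs hr _ _ _ _ _ _ _ _ _

theorem bN_nn (ht : 0 < p.t) (hs : 0 < s) (hr : 1 ≤ r) (q : ℕ) :
    0 ≤ bN q ι p n ez F1 F2 F3 o K x s r U g u v Q1 Q2 Q3 x0 :=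
  sum_nonneg fun k _ => sum_nonneg fun x1 _ => sum_nonneg fun z _ => by
    split_ifs
    · exact eT_nn ht hs hr _ _ _ _
    · exact le_rfl

theorem oN_nn (ht : 0 < p.t) (hs : 0 < s) (hr : 1 ≤ r) (q : ℕ) :
    0 ≤ oN q ι p n ez F1 F2 F3 o K x s r U g u v Q1 Q2 Q3 x0 :=
  sum_nonneg fun x1 _ => sum_nonneg fun z _ => eT_nn ht hs hr _ _ _ _

theorem fC_nn (ht : 0 < p.t) (hs : 0 < s) (hr : 1 ≤ r) :
    0 ≤ fCRB mB ι p n ez F1 F2 F3 o K x s r U g u v Q1 Q2 Q3 x0 :=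
  sum_nonneg fun k _ => sum_nonneg fun x1 _ => sum_nonneg fun z _ => by
    split_ifs
    · rw [wE_eT]
      exact eT_nn ht hs hr _ _ _ _
    · exact le_rfl

theorem fE_nn (ht : 0 < p.t) (hs : 0 < s) (hr : 1 ≤ r) :
    0 ≤ fE ι p n ez F1 F2 F3 o K x s r U g u v Q1 Q2 Q3 x0 := by
  unfold fE
  refine add_nonneg (add_nonneg (add_nonneg (add_nonneg (add_nonneg (oN_nn ht hs hr 0)
    (gN_nn ht hs hr 1 0)) (fC_nn ht hs hr)) (bN_nn ht hs hr 0)) ?_) ?_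
  · exact sum_nonneg fun l _ => mul_nonneg (by positivity) (gN_nn ht hs hr 0 l)
  · exact sum_nonneg fun l _ => mul_nonneg (by positivity) (bN_nn ht hs hr (l + 1))

theorem fB_nn (ht : 0 < p.t) (hs : 0 < s) (hr : 1 ≤ r) :
    0 ≤ fB ι p n ez F1 F2 F3 o K x s r U g u v Q1 Q2 Q3 x0 :=
  add_nonneg (H652.dB_nonneg x x0) (H652.payS_nonneg
    (Real.rpow_pos_of_pos (div_pos ht (by linarith)) _) (H401.Num.lam_pos (p := p) ht hs hr) _)

/-- variation, lag `q` -/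
theorem nmD_gN (ht : 0 < p.t) (hs : 0 < s) (hr : 1 ≤ r) (q : ℕ) :
    (beI p r)⁻¹ * nmD K (cx K x).2.2 (cx K x).1 (DW p s r o K x u x0)
      (cS p ez U K v F2 x0) q ≤ gN 0 q ι p n ez F1 F2 F3 o K x s r U g u v Q1 Q2 Q3 x0 := by
  have hb : 0 < (beI p r)⁻¹ := inv_pos.2 (Real.rpow_pos_of_pos (div_pos ht (by linarith)) _)
  unfold H419.WFamR.nmD H419.WFamR.Dn gN
  rw [mul_sum, range_eq_Ico]
  refine sum_le_sum fun k _ => ?_
  rw [mul_sum]
  refine sum_le_sum fun x1 _ => ?_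
  rw [mul_sum]
  refine sum_le_sum fun z _ => ?_
  have h1 := raw_le ht hs hr o K x u x0 (k + q) x1 z (cS p ez U K v F2 x0 (k + 0) x1 z)
  have h2 := mul_nonneg hb.le (H808.form_nonneg (H652.eb_psd (M := (cx K x).2.1)
    (tr_T (H401.Num.lam_pos (p := p) ht hs hr) K u x1) (o - 2) x0 x1 (k + q + 1)
      (ix (k + q + 1) z)) (cS p ez U K v F2 x0 (k + 0) x1 z))
  exact (le_add_of_nonneg_right h2).trans h1

/-- drift, lag `q` -/
theorem nmE_gN (ht : 0 < p.t) (hs : 0 < s) (hr : 1 ≤ r) (q : ℕ) :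
    (beI p r)⁻¹ * nmE K (cx K x).2.2 (cx K x).1 (EW p s r o K x u x0)
      (cS p ez U K v F2 x0) q ≤ gN 0 q ι p n ez F1 F2 F3 o K x s r U g u v Q1 Q2 Q3 x0 := by
  have hb : 0 < (beI p r)⁻¹ := inv_pos.2 (Real.rpow_pos_of_pos (div_pos ht (by linarith)) _)
  unfold H419.WFamR.nmE H419.WFamR.En gN
  rw [mul_sum, range_eq_Ico]
  refine sum_le_sum fun k _ => ?_
  rw [mul_sum]
  refine sum_le_sum fun x1 _ => ?_
  rw [mul_sum]
  refine sum_le_sum fun z _ => ?_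
  have h1 := raw_le ht hs hr o K x u x0 (k + q) x1 z (cS p ez U K v F2 x0 (k + 0) x1 z)
  have h2 := mul_nonneg hb.le (H447.dot_self_nonneg (ah (p.lam s r) K (cx K x).2.1
    (KT (p.lam s r) u x1) (o - 2) x0 x1 (k + q) (ix (k + q + 1) z) *ᵥ
      cS p ez U K v F2 x0 (k + 0) x1 z))
  exact (le_add_of_nonneg_left h2).trans h1

/-- variation, shifted path, lag `0` -/
theorem nmD1_gN (ht : 0 < p.t) (hs : 0 < s) (hr : 1 ≤ r) :
    (beI p r)⁻¹ * nmD K (cx K x).2.2 (cx K x).1 (DW p s r o K x u x0)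
      (c1 K (cS p ez U K v F2 x0)) 0 ≤
      gN 1 0 ι p n ez F1 F2 F3 o K x s r U g u v Q1 Q2 Q3 x0 := by
  have hb : 0 < (beI p r)⁻¹ := inv_pos.2 (Real.rpow_pos_of_pos (div_pos ht (by linarith)) _)
  unfold H419.WFamR.nmD H419.WFamR.Dn gN
  rw [mul_sum, range_eq_Ico]
  refine sum_le_sum fun k hk => ?_
  have hk1 : min (k + 1) K = k + 1 := by
    have := (mem_Ico.1 hk).2
    omega
  unfold H419.WFamR.c1
  rw [hk1, mul_sum]
  refine sum_le_sum fun x1 _ => ?_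
  rw [mul_sum]
  refine sum_le_sum fun z _ => ?_
  have h1 := raw_le ht hs hr o K x u x0 (k + 0) x1 z (cS p ez U K v F2 x0 (k + 1) x1 z)
  have h2 := mul_nonneg hb.le (H808.form_nonneg (H652.eb_psd (M := (cx K x).2.1)
    (tr_T (H401.Num.lam_pos (p := p) ht hs hr) K u x1) (o - 2) x0 x1 (k + 0 + 1)
      (ix (k + 0 + 1) z)) (cS p ez U K v F2 x0 (k + 1) x1 z))
  exact (le_add_of_nonneg_right h2).trans h1

/-- drift, shifted path, lag `0` -/
theorem nmE1_gN (ht : 0 < p.t) (hs : 0 < s) (hr : 1 ≤ r) :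
    (beI p r)⁻¹ * nmE K (cx K x).2.2 (cx K x).1 (EW p s r o K x u x0)
      (c1 K (cS p ez U K v F2 x0)) 0 ≤
      gN 1 0 ι p n ez F1 F2 F3 o K x s r U g u v Q1 Q2 Q3 x0 := by
  have hb : 0 < (beI p r)⁻¹ := inv_pos.2 (Real.rpow_pos_of_pos (div_pos ht (by linarith)) _)
  unfold H419.WFamR.nmE H419.WFamR.En gN
  rw [mul_sum, range_eq_Ico]
  refine sum_le_sum fun k hk => ?_
  have hk1 : min (k + 1) K = k + 1 := by
    have := (mem_Ico.1 hk).2
    omega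
  unfold H419.WFamR.c1
  rw [hk1, mul_sum]
  refine sum_le_sum fun x1 _ => ?_
  rw [mul_sum]
  refine sum_le_sum fun z _ => ?_
  have h1 := raw_le ht hs hr o K x u x0 (k + 0) x1 z (cS p ez U K v F2 x0 (k + 1) x1 z)
  have h2 := mul_nonneg hb.le (H447.dot_self_nonneg (ah (p.lam s r) K (cx K x).2.1
    (KT (p.lam s r) u x1) (o - 2) x0 x1 (k + 0) (ix (k + 0 + 1) z) *ᵥ
      cS p ez U K v F2 x0 (k + 1) x1 z))
  exact (le_add_of_nonneg_left h2).trans h1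

/-- energy of the shifted path at the start -/
theorem nmH1_oN :
    nmH K (cx K x).2.2 (cx K x).1 (beI p r) (TW p s r o K x u x0)
      (c1 K (cS p ez U K v F2 x0)) 0 = oN 0 ι p n ez F1 F2 F3 o K x s r U g u v Q1 Q2 Q3 x0 := by
  have e1 : c1 K (cS p ez U K v F2 x0) 0 = cS p ez U K v F2 x0 1 := by
    show C1 p ez U K v F2 x0 |> fun F => (fun x1 z => F (min (min (0 + 1) K) K) z x1) = _
    rw [min_eq_left (min_le_right _ _)]
    rfl
  unfold H419.WFamR.nmH H419.WFamR.Wn oN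
  rw [e1, Nat.zero_min]
  rfl

/-- energy of the path at the start -/
theorem nmH_zero (a : ℕ) :
    nmH K (cx K x).2.2 (cx K x).1 (beI p r) (TW p s r o K x u x0)
      (cS p ez U K v F2 x0) a = 0 := by
  unfold H419.WFamR.nmH H419.WFamR.Wn
  refine sum_eq_zero fun x1 _ => sum_eq_zero fun z _ => ?_
  rw [cS_zero, zero_dotProduct]

/-- the scalar end -/
theorem end_num {a b c W B G : ℝ} {J : ℕ} (hW : 0 ≤ W) (hB : 0 ≤ B) (hz : 0 ≤ a) (hb : 0 ≤ b)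
    (hc : b ≤ c)
    (h : G ≤ 18 * (120000 * ((J : ℝ) + 1) ^ 3) * (√(a * W * (b * B)) + b * W)) :
    G ≤ 2160000 * ((J : ℝ) + 1) ^ 3 * (√(a * W * (c * B)) + c * W) := by
  refine h.trans ?_
  rw [show 18 * (120000 * ((J : ℝ) + 1) ^ 3) = 2160000 * ((J : ℝ) + 1) ^ 3 by ring]
  gcongr

/-- **The pair at one `x0`, class data.** -/
theorem pt_le (ht : 0 < p.t) (ht1 : p.t ≤ 1) (he0 : 0 < p.e0) (hd1 : p.d ≤ 1)
    (ho : o = 1 ∨ o = -1) (hKn : K ≤ n) (hs : 0 < s) (hr : 1 ≤ r) {P : ℝ} {cP' : ℝ}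
    (hcls : H305.Cls K x s r P U g u v) (q2 : BSl n ez cP' F2 Q2) (hez : 0 < ez) (x0 : ℤ)
    {z : ℝ} {J : ℕ} (hz : gI p s r ≤ z) (hJ : (2 * cCI p s r) ^ 2 ≤ 4 ^ J * z ^ 2) :
    pBC (p.al U K) o K (cx K x) (beI p r) (p.lam s r) u (cb p s r U K u F3 Q3)
        (C1 p ez U K v F2) (tauI p s r) z x0 ≤
      2160000 * ((J : ℝ) + 1) ^ 3 *
        (√(z ^ 2 * fE ι p n ez F1 F2 F3 o K x s r U g u v Q1 Q2 Q3 x0 *
          (tauI p s r ^ 2 * fB ι p n ez F1 F2 F3 o K x s r U g u v Q1 Q2 Q3 x0)) +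
        tauI p s r ^ 2 * fE ι p n ez F1 F2 F3 o K x s r U g u v Q1 Q2 Q3 x0) := by
  have hy : 0 < p.t / r := div_pos ht (by linarith)
  have hy1 : p.t / r ≤ 1 := (div_le_self ht.le hr).trans ht1
  have hbe : 0 < beI p r := Real.rpow_pos_of_pos hy _
  have hbe1 : beI p r ≤ 1 := Real.rpow_le_one hy.le hy1 (by linarith)
  have hl : (0 : ℝ) < p.lam s r := H401.Num.lam_pos (p := p) ht hs hr
  have hth : 0 < p.th s r := H401.Num.th_pos ht hs hr
  have hτ : 0 < tauI p s r := H408.tauI_pos ht hs hr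
  have hg : 0 < gI p s r := mul_pos (Real.rpow_pos_of_pos hy _) hτ
  have hz0 : 0 < z := hg.trans_le hz
  have nb := fun q => bN_nn (p := p) (n := n) (K := K) (ez := ez) (F1 := F1) (F2 := F2) (F3 := F3)
    (Q1 := Q1) (Q2 := Q2) (Q3 := Q3) (x := x) (U := U) (g := g) (u := u) (v := v) (o := o)
    (x0 := x0) ht hs hr q
  have ng := fun j q => gN_nn (p := p) (n := n) (K := K) (ez := ez) (F1 := F1) (F2 := F2)
    (F3 := F3) (Q1 := Q1) (Q2 := Q2) (Q3 := Q3) (x := x) (U := U) (g := g) (u := u) (v := v)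
    (o := o) (x0 := x0) ht hs hr j q
  have no := oN_nn (p := p) (n := n) (K := K) (ez := ez) (F1 := F1) (F2 := F2)
    (F3 := F3) (Q1 := Q1) (Q2 := Q2) (Q3 := Q3) (x := x) (U := U) (g := g) (u := u) (v := v)
    (o := o) (x0 := x0) ht hs hr 0
  have nc := fC_nn (p := p) (n := n) (K := K) (ez := ez) (F1 := F1) (F2 := F2)
    (F3 := F3) (Q1 := Q1) (Q2 := Q2) (Q3 := Q3) (x := x) (U := U) (g := g) (u := u) (v := v)
    (o := o) (x0 := x0) ht hs hr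
  have nwg : 0 ≤ ∑ l ∈ range (K + 1), (3 / 4 : ℝ) ^ l *
      gN 0 l ι p n ez F1 F2 F3 o K x s r U g u v Q1 Q2 Q3 x0 :=
    sum_nonneg fun l _ => mul_nonneg (by positivity) (ng 0 l)
  have nwb : 0 ≤ ∑ l ∈ range (K + 1), (3 / 4 : ℝ) ^ l *
      bN (l + 1) ι p n ez F1 F2 F3 o K x s r U g u v Q1 Q2 Q3 x0 :=
    sum_nonneg fun l _ => mul_nonneg (by positivity) (nb (l + 1))
  have ndB := H652.dB_nonneg (p := p) (s := s) (r := r) (U := U) (K := K) (u := u) (F3 := F3)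
    (Q3 := Q3) x x0
  have npay := H652.payS_nonneg (o := o) (K := K) (M := cx K x) (u := u) (x0 := x0) hbe hl
    (fun k => H652.bS p s r U K u F3 Q3 x0 k)
  have n1 := ng 1 0
  have n2 := nb 0
  have hE0 : 0 ≤ fE ι p n ez F1 F2 F3 o K x s r U g u v Q1 Q2 Q3 x0 := by
    unfold fE
    linarith
  have hB0 : 0 ≤ fB ι p n ez F1 F2 F3 o K x s r U g u v Q1 Q2 Q3 x0 := by
    unfold fB
    linarith
  have hT := H652.wt_Th (fun x1 => tr_T hl K u x1) (cx K x).2.1 (o - 2) x0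
  -- the window
  refine (H329.WinBC.pBC_cls ht hs hr ez U o K x u v F2 F3 Q3 hτ hz0 x0).trans ?_
  rw [← GW_win_cut (S := (cx K x).1) (R := (cx K x).2.2) (be := beI p r) (s := z ^ 2)
    (T := TW p s r o K x u x0) (c := cS p ez U K v F2 x0)]
  refine end_num (b := p.th s r ^ 2) hE0 hB0 (sq_nonneg z) (sq_nonneg _) ?_ ?_
  · show p.th s r ^ 2 ≤ (2 * p.th s r) ^ 2
    nlinarith
  refine H736.fix_BC2 (be := beI p r) (T := TW p s r o K x u x0) (e := EW p s r o K x u x0)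
    (d := DW p s r o K x u x0) (s := z ^ 2) (q := p.th s r ^ 2) (τ := 2) (N := K)
    (b := H652.bS p s r U K u F3 Q3 x0)
    (c := H170.Win.cut K (cx K x).1 (cx K x).2.2 (cS p ez U K v F2 x0))
    (Pb := PbS p s r U K u F3 Q3 x0) (Pc := Pr (cS p ez U K v F2 x0)) (C := cCI p s r ^ 2)
    (R₁ := (cx K x).2.1) (S₁ := (cx K x).1) (T₁ := (cx K x).2.2) (cc := cP o x0)
    hbe hbe1 (by positivity) (sq_nonneg _) (by norm_num) le_rfl hT
    (fun k x1 m => H652.Th_le_two (tr_T hl K u x1) (o - 2) x0 x1 k m)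
    (H652.PbS_off x0) (cut_row pr_not) (H652.bS_capk hth x0) (H652.bS_capk1 hth x0)
    (H652.bS_capN hth x0) ?_ ?_ ?_ (H677.cP_pl ho x0) hE0 hB0 ?_ ?_ ?_ ?_ ?_ ?_ ?_ ?_ ?_ ?_ ?_ ?_ ?_
  · -- capC
    intro k a n' m hka ha
    exact cut_cap (sq_nonneg _) (by omega) ha (by omega) (fun n' m hm hn =>
      cS_SD he0.le ht ht1 hd1 hs hr hez hKn hcls q2 x0 (by omega) (by omega) ha (by omega) hm hn)
      n' m
  · -- capC1
    intro k a n' m hka ha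
    exact cut_cap (sq_nonneg _) (by omega) ha (by omega) (fun n' m hm hn =>
      cS_SD he0.le ht ht1 hd1 hs hr hez hKn hcls q2 x0 (by omega) (by omega) ha (by omega) hm hn)
      n' m
  · -- hJ
    nlinarith [sq_nonneg (cCI p s r)]
  · -- hB1
    exact (H652.bS_hB1 x x0).trans (by unfold fB; linarith)
  · exact (H652.bS_hB2 x x0).trans (by unfold fB; linarith)
  · exact (H652.pay_hB3 hbe hl _).trans (by unfold fB; linarith)
  · exact (H652.pay_hB4 hbe _).trans (by unfold fB; linarith)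
  · -- hC0
    rw [c1_cut, nmH_cut, nmH1_oN (n := n) (F1 := F1) (F3 := F3) (Q1 := Q1) (Q2 := Q2) (Q3 := Q3)
      (g := g)]
    unfold fE
    linarith
  · -- hC1
    rw [c1_cut, nmD_cut]
    refine (nmD1_gN (n := n) (F1 := F1) (F3 := F3) (Q1 := Q1) (Q2 := Q2) (Q3 := Q3)
      (g := g) ht hs hr).trans ?_
    unfold fE
    linarith
  · -- hC2
    rw [c1_cut, nmE_cut]
    refine (nmE1_gN (n := n) (F1 := F1) (F3 := F3) (Q1 := Q1) (Q2 := Q2) (Q3 := Q3)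
      (g := g) ht hs hr).trans ?_
    unfold fE
    linarith
  · -- hC3
    have e1 : ∑ k ∈ Ico 0 K, ∑ x' ∈ iv K (cx K x).1, ∑ z ∈ iv K (cx K x).2.2,
        (if ∃ w, ix (k + 1) w = cP o x0 (k + 1) - ix (k + 1) x' - ix (k + 1) z ∧
          PbS p s r U K u F3 Q3 x0 k w (ix k x') then
          H736.wE (beI p r) (TW p s r o K x u x0) k
            (H170.Win.cut K (cx K x).1 (cx K x).2.2 (cS p ez U K v F2 x0) (k + 1)) x' z else 0) =
        fCRB mB ι p n ez F1 F2 F3 o K x s r U g u v Q1 Q2 Q3 x0 := by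
      unfold H989.CrB.fCRB
      refine sum_congr rfl fun k hk => sum_congr rfl fun x' hx' => sum_congr rfl fun z hz => ?_
      rw [wE_cut (mem_Ico.1 hk).2 hx' hz]
      rfl
    rw [e1]
    unfold fE
    linarith
  · -- hC4
    have e1 : ∑ k ∈ Ico 0 K, Wn K (cx K x).2.2 (cx K x).1 (beI p r) (TW p s r o K x u x0)
        (rs (Pr (cS p ez U K v F2 x0) k) k
          (H170.Win.cut K (cx K x).1 (cx K x).2.2 (cS p ez U K v F2 x0) (k + 1))) k =
        ∑ k ∈ Ico 0 K, Wn K (cx K x).2.2 (cx K x).1 (beI p r) (TW p s r o K x u x0)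
        (rs (Pr (cS p ez U K v F2 x0) k) k (cS p ez U K v F2 x0 (k + 1))) k :=
      sum_congr rfl fun k hk => Wn_rs_cut (mem_Ico.1 hk).2 _ _ _
    rw [e1]
    refine (Wn_bN (p := p) (s := s) (r := r) (ez := ez) (o := o) (K := K) (x := x) (U := U)
      (u := u) (v := v) (F2 := F2) (x0 := x0) ht hs hr pr_ch n F1 F3 g Q1 Q2 Q3).trans ?_
    unfold fE
    linarith
  · -- hW0
    rw [nmH_cut]
    have e1 : wS K (nmH K (cx K x).2.2 (cx K x).1 (beI p r) (TW p s r o K x u x0)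
        (cS p ez U K v F2 x0)) = 0 := by
      unfold H912.wS
      refine sum_eq_zero fun a _ => ?_
      rw [nmH_zero, mul_zero]
    rw [e1]
    exact hE0
  · -- hW1
    rw [nmD_cut]
    refine (H912.wS_mono (Y := fun l => gN 0 l ι p n ez F1 F2 F3 o K x s r U g u v Q1 Q2 Q3 x0)
      fun l => nmD_gN ht hs hr l).trans ?_
    unfold H912.wS fE
    linarith
  · -- hW2
    rw [nmE_cut]
    refine (H912.wS_mono (Y := fun l => gN 0 l ι p n ez F1 F2 F3 o K x s r U g u v Q1 Q2 Q3 x0)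
      fun l => nmE_gN ht hs hr l).trans ?_
    unfold H912.wS fE
    linarith
  · -- hW3
    rw [nmB_cut]
    refine (H912.wS_mono (Y := fun l => bN (l + 1) ι p n ez F1 F2 F3 o K x s r U g u v Q1 Q2 Q3
      x0) fun l => nmB_bN ht hs hr pr_ch l n F1 F3 g Q1 Q2 Q3).trans ?_
    unfold H912.wS fE
    linarith

end pt

/-- **The numbers of the pair `(Bg, Cg)`.** -/
theorem numBC : NumBC 2160000 2 := by
  refine H222.Of.numBC_of sumU_fE sumU_fB ?_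
  intro ι _ _ p n ez F1 F2 F3 o K x s r U g u v Q1 Q2 Q3 ht ht1 he0 he01 hk3 hk31 hd hd1 hc he hcP
    hL ho hKn hs hr hcls q1 q2 q3 hez f1 f2
  have hy : 0 < p.t / r := div_pos ht (by linarith)
  have hbe : 0 < beI p r := Real.rpow_pos_of_pos hy _
  have hl : (0 : ℝ) < p.lam s r := H401.Num.lam_pos (p := p) ht hs hr
  refine ⟨fun x0 => fE_nn ht hs hr, fun x0 => fB_nn ht hs hr, ?_⟩
  intro t _ x0 _ z J hz _ hJ
  exact pt_le ht ht1 he0 hd1 ho hKn hs hr hcls.toCls q2 hez x0 hz hJ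

/-- **The leaf `LBCg`.** -/
theorem lBCg : H408.LBCg := lbc_end (by norm_num) (by norm_num) numBC

end

end Vale.Agent.P141.H150.LbcG
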