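import Vale.Agent.P141.H150.MvE
import Vale.Agent.P141.H38.Pow
import Vale.Agent.P141.H443.Exit

/-!
# P141, line W, end lemma: the numbers of the moving plane kernel of one atom

`A23 … G θ k x y = (uT K q θ (mnA th S1 S2 S3 K k v)).2.2 (x, y) * G k x y` (offset `θ`, gauge `G` at
one point `x0`), events `ev23`: an event of one of the two carriers, or `ex` (exit of the gauge).

* `en23_sum`: root energy plus event energies, summed over all offsets and over `x0 ∈ X0`: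
  at most `16 ^ K n2 ^ 2 (L + D + 192 L / κ ^ 8)`;
* `en23_le`: the energy of `A23` on every square of scale `k ≤ K`;
* `births23`, `pwr23`, `cap23`: the process of `MvA` in numbers, `tau = sig rC n2`;
* `cuL`, `cuD`, `hex_cu`: the hypotheses for a static slot cut by the used cells.
-/

namespace Vale.Agent.P141.H150.Mv

open Finset Vale.Agent.P141.PL Vale.Agent.P141.PL.H317
open Vale.Agent.P141.H736 Vale.Agent.P141.H958
open Vale.Agent.P141.H443 (E2 E2_nonneg sumd sumd_pt cu evx cu_evx Cells ce ci mem_ce ci_bounds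
  up_mono sum_x0_near)
open Vale.Agent.P141.H585 (VC mnA sd23 rC rC_nonneg lvS lvS_anti thC thC_nonneg sum_lvS_le mn_ed23
  num23 uT_eq23 sd23_nonneg hgt_th hgt_nonneg id1 id1_nonneg id1_le)
open Vale.Agent.P141.H38 (evq evs_gen evs_sum card_Th sum_face abs_cs_le)
open Vale.Agent.P141.H911 (Th uT sum_cs23 cs_pow)
open Vale.Agent.P141.H829 (rst ind ind_mem ind_not ind_nonneg ind_le_one abs_rst_le)
open Vale.Agent.P141.PL.H315 (Tri)
open Vale.Agent.P141.PL.H560 (cs cs_of_mem cs_of_not_mem)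

noncomputable section

variable {κ μ th : ℝ} {K k : ℕ} {c p q : Pt} {u v : Tri} {S1 S2 S3 : Finset ℤ}

/-- the gauge of the edge `23` of the main atom -/
def ga23 (K : ℕ) (q : Pt) (th : ℝ) (S1 S2 S3 : Finset ℤ) (v : Tri) (θ : Pt) (k : ℕ) (x y : ℤ) :
    ℝ :=
  (uT K q θ (mnA th S1 S2 S3 K k v)).2.2 (x, y)

/-- the plane kernel: edge `23` times the gauge function -/
def A23 (K : ℕ) (q : Pt) (th : ℝ) (S1 S2 S3 : Finset ℤ) (v : Tri) (G : ℕ → ℤ → ℤ → ℝ) (θ : Pt)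
    (k : ℕ) (x y : ℤ) : ℝ :=
  ga23 K q th S1 S2 S3 v θ k x y * G k x y

/-- the events of the plane kernel -/
def ev23 (K : ℕ) (th : ℝ) (S2 S3 : Finset ℤ) (ex : ℕ → ℤ → ℤ → Prop) (θ : Pt) (k : ℕ) (n m : ℤ) :
    Prop :=
  H585.evt th S2 K θ.2.1 k n ∨ H585.evt th S3 K θ.2.2 k m ∨ ex k n m

/-- off the events the plane kernel does not change -/
theorem hev23 {G : ℕ → ℤ → ℤ → ℝ} {ex : ℕ → ℤ → ℤ → Prop}
    (hex : ∀ k n m, ¬ ex k n m → ∀ x ∈ iv k n, ∀ y ∈ iv k m, G k x y = G (k + 1) x y) (θ : Pt) :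
    ∀ k n m, ¬ ev23 K th S2 S3 ex θ k n m → ∀ x ∈ iv k n, ∀ y ∈ iv k m,
      A23 K q th S1 S2 S3 v G θ k x y = A23 K q th S1 S2 S3 v G θ (k + 1) x y := by
  intro k n m h x hx y hy
  unfold ev23 at h
  rw [not_or, not_or] at h
  unfold A23 ga23
  rw [uT_eq23 q θ h.1 h.2.1 hx hy, hex k n m h.2.2 x hx y hy]

/-! ### The gauge -/

theorem cs_sq_mono {Q : Finset (ℤ × ℤ)} {h : ℤ × ℤ} {f g : ℤ × ℤ → ℝ} (hfg : ∀ r, f r ^ 2 ≤ g r ^ 2)
    (w : ℤ × ℤ) : cs Q h f w ^ 2 ≤ cs Q h g w ^ 2 := by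
  by_cases hw : (w.1 + h.1, w.2 + h.2) ∈ Q
  · rw [cs_of_mem hw, cs_of_mem hw]; exact hfg _
  · rw [cs_of_not_mem hw, cs_of_not_mem hw]

theorem ind_mono {E F : Finset ℤ} (h : E ⊆ F) (x : ℤ) : ind E x ≤ ind F x := by
  by_cases hx : x ∈ E
  · rw [ind_mem hx, ind_mem (h hx)]
  · rw [ind_not hx]; exact ind_nonneg _ _

theorem rst_sq_mono {E F E' F' : Finset ℤ} (h : E ⊆ E') (h' : F ⊆ F') (d : ℤ × ℤ → ℝ)
    (r : ℤ × ℤ) : rst E F d r ^ 2 ≤ rst E' F' d r ^ 2 := by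
  have h1 : ind E r.1 * ind F r.2 ≤ ind E' r.1 * ind F' r.2 :=
    mul_le_mul (ind_mono h _) (ind_mono h' _) (ind_nonneg _ _) (ind_nonneg _ _)
  have h0 : 0 ≤ ind E r.1 * ind F r.2 := mul_nonneg (ind_nonneg _ _) (ind_nonneg _ _)
  have h2 : (ind E r.1 * ind F r.2) ^ 2 ≤ (ind E' r.1 * ind F' r.2) ^ 2 :=
    pow_le_pow_left₀ h0 h1 2
  unfold rst
  rw [mul_pow, mul_pow (ind E' r.1 * ind F' r.2)]
  exact mul_le_mul_of_nonneg_right h2 (sq_nonneg _)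

theorem ga23_mono (θ : Pt) (k : ℕ) (x y : ℤ) :
    ga23 K q th S1 S2 S3 v θ k x y ^ 2 ≤ ga23 K q th S1 S2 S3 v θ (k + 1) x y ^ 2 :=
  cs_sq_mono (rst_sq_mono (lvS_anti (Nat.le_succ k)) (lvS_anti (Nat.le_succ k)) v.2.2) _

theorem rst_sq_le' (E F : Finset ℤ) (d : ℤ × ℤ → ℝ) (r : ℤ × ℤ) : rst E F d r ^ 2 ≤ d r ^ 2 := by
  rw [← sq_abs, ← sq_abs (d r)]
  exact pow_le_pow_left₀ (abs_nonneg _) (abs_rst_le E F d r) 2

theorem ga23_sq_le (θ : Pt) (k : ℕ) (x y : ℤ) :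
    ga23 K q th S1 S2 S3 v θ k x y ^ 2 ≤ (uT K q θ v).2.2 (x, y) ^ 2 :=
  cs_sq_mono (fun r => rst_sq_le' _ _ v.2.2 r) _

/-- the raw edges at one point, summed over the offsets -/
theorem gauge23v (hc : c.1 ≠ 0) (hv : VC κ K q u v S1 S2 S3) (x y : ℤ) :
    ∑ θ ∈ Th c K p q, (uT K q θ v).2.2 (x, y) ^ 2 ≤ 4 ^ K * sd23 K q u ^ 2 := by
  unfold uT
  simp_rw [cs_pow two_ne_zero]
  refine (sum_cs23 hc K p q (fun _ => sq_nonneg _) (x, y)).trans ?_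
  refine (sum_le_sum fun w _ => ?_).trans (le_of_eq (sum_face K _ _ u.2.2))
  rw [← sq_abs, ← sq_abs (u.2.2 w)]
  exact pow_le_pow_left₀ (abs_nonneg _) (hv.le23 w) 2

open Classical in
/-- the event points of the edge `23`, one offset -/
theorem evs23 (hθ : 0 ≤ th) (hv : VC κ K q u v S1 S2 S3) (θ : Pt) (R S : ℤ) :
    ∑ k ∈ range K, ∑ x ∈ iv K R, ∑ y ∈ iv K S,
      (if evq th S2 S3 K θ.2.1 θ.2.2 k (ix k x) (ix k y) then
        ga23 K q th S1 S2 S3 v θ (k + 1) x y ^ 2 else 0) ≤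
      12 * ((rC K q u ^ 2 * sd23 K q u / κ ^ 2) ^ 2 * ((S2.card : ℝ) * S3.card)) := by
  have h := evs_gen (K := K) (E := S2) (E' := S3) (t := θ.2.1) (t' := θ.2.2) hθ hv.hgt23
    (A := fun k x y => ga23 K q th S1 S2 S3 v θ (k + 1) x y)
    (fun _ _ x y => abs_cs_le x y) R S
  refine le_trans (le_of_eq ?_) h
  refine sum_congr rfl fun k _ => sum_congr rfl fun x _ => sum_congr rfl fun y _ => ?_
  split_ifs <;> rfl

/-! ### Root energy and event energies -/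

open Classical in
theorem evE_pt (A : ℕ → ℤ → ℤ → ℝ) (ev : ℕ → ℤ → ℤ → Prop) (K : ℕ) (R S : ℤ) :
    evE A ev K R S = ∑ j ∈ range K, ∑ x ∈ iv K R, ∑ y ∈ iv K S,
      if ev j (ix j x) (ix j y) then A j x y ^ 2 else 0 :=
  sumd_pt ev A K R S

variable {X0 : Finset ℤ} {R S : ℤ} {G : ℤ → ℕ → ℤ → ℤ → ℝ} {ex : ℤ → ℕ → ℤ → ℤ → Prop} {L D : ℝ}

/-- the root energies -/
theorem root23 (hc : c.1 ≠ 0) (hv : VC κ K q u v S1 S2 S3)
    (hL : ∀ x ∈ iv K R, ∀ y ∈ iv K S, ∑ x0 ∈ X0, G x0 K x y ^ 2 ≤ L) :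
    ∑ θ ∈ Th c K p q, ∑ x0 ∈ X0,
      E2 (iv K R) (iv K S) (A23 K q th S1 S2 S3 v (G x0) θ K) ≤
      16 ^ K * sd23 K q u ^ 2 * L := by
  have h1 : ∑ θ ∈ Th c K p q, ∑ x0 ∈ X0,
      E2 (iv K R) (iv K S) (A23 K q th S1 S2 S3 v (G x0) θ K) =
      ∑ x ∈ iv K R, ∑ y ∈ iv K S, (∑ θ ∈ Th c K p q, ga23 K q th S1 S2 S3 v θ K x y ^ 2) *
        ∑ x0 ∈ X0, G x0 K x y ^ 2 := by
    unfold E2 A23
    have e : ∀ θ ∈ Th c K p q, ∑ x0 ∈ X0, ∑ x ∈ iv K R, ∑ y ∈ iv K S,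
        (ga23 K q th S1 S2 S3 v θ K x y * G x0 K x y) ^ 2 =
        ∑ x ∈ iv K R, ∑ y ∈ iv K S, ga23 K q th S1 S2 S3 v θ K x y ^ 2 *
          ∑ x0 ∈ X0, G x0 K x y ^ 2 := by
      intro θ _
      rw [sum_comm]
      refine sum_congr rfl fun x _ => ?_
      rw [sum_comm]
      refine sum_congr rfl fun y _ => ?_
      rw [mul_sum]
      exact sum_congr rfl fun x0 _ => mul_pow _ _ _
    rw [sum_congr rfl e, sum_comm]
    refine sum_congr rfl fun x _ => ?_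
    rw [sum_comm]
    refine sum_congr rfl fun y _ => ?_
    rw [sum_mul]
  rw [h1]
  have h2 : ∀ x ∈ iv K R, ∀ y ∈ iv K S,
      (∑ θ ∈ Th c K p q, ga23 K q th S1 S2 S3 v θ K x y ^ 2) * ∑ x0 ∈ X0, G x0 K x y ^ 2 ≤
      4 ^ K * sd23 K q u ^ 2 * L := by
    intro x hx y hy
    refine mul_le_mul ?_ (hL x hx y hy) (sum_nonneg fun _ _ => sq_nonneg _) (by positivity)
    exact (sum_le_sum fun θ _ => ga23_sq_le θ K x y).trans (gauge23v hc hv x y)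
  refine (sum_le_sum fun x hx => sum_le_sum fun y hy => h2 x hx y hy).trans (le_of_eq ?_)
  rw [sum_const, sum_const, card_iv, card_iv, nsmul_eq_mul, nsmul_eq_mul,
    show (16 : ℝ) = 2 * 2 * 4 by norm_num, mul_pow, mul_pow]
  push_cast
  ring

open Classical in
/-- the event energies -/
theorem evE23 (hc : c.1 ≠ 0) (hc3 : c.2.2 ≠ 0) (hκ : 0 < κ) (hθ : 0 ≤ th)
    (hv : VC κ K q u v S1 S2 S3)
    (hL : ∀ k < K, ∀ x ∈ iv K R, ∀ y ∈ iv K S, ∑ x0 ∈ X0, G x0 k x y ^ 2 ≤ L) (hL0 : 0 ≤ L)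
    (hD : ∀ x ∈ iv K R, ∀ y ∈ iv K S, ∑ x0 ∈ X0, ∑ k ∈ range K,
      (if ex x0 k (ix k x) (ix k y) then G x0 k x y ^ 2 else 0) ≤ D) :
    ∑ θ ∈ Th c K p q, ∑ x0 ∈ X0,
      evE (A23 K q th S1 S2 S3 v (G x0) θ) (ev23 K th S2 S3 (ex x0) θ) K R S ≤
      16 ^ K * sd23 K q u ^ 2 * (D + 192 * L / κ ^ 8) := by
  -- one point
  have hpt : ∀ θ x0 j x y, (if ev23 K th S2 S3 (ex x0) θ j (ix j x) (ix j y) then
      A23 K q th S1 S2 S3 v (G x0) θ j x y ^ 2 else 0) ≤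
      (if evq th S2 S3 K θ.2.1 θ.2.2 j (ix j x) (ix j y) then
        ga23 K q th S1 S2 S3 v θ (j + 1) x y ^ 2 else 0) * G x0 j x y ^ 2 +
      (uT K q θ v).2.2 (x, y) ^ 2 *
        (if ex x0 j (ix j x) (ix j y) then G x0 j x y ^ 2 else 0) := by
    intro θ x0 j x y
    have g0 := sq_nonneg (G x0 j x y)
    have g1 := ga23_mono (K := K) (q := q) (th := th) (S1 := S1) (S2 := S2) (S3 := S3) (v := v)
      θ j x y
    have g2 := ga23_sq_le (K := K) (q := q) (th := th) (S1 := S1) (S2 := S2) (S3 := S3) (v := v)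
      θ j x y
    have g3 := mul_le_mul_of_nonneg_right g1 g0
    have g4 := mul_le_mul_of_nonneg_right g2 g0
    have n1 : 0 ≤ (if evq th S2 S3 K θ.2.1 θ.2.2 j (ix j x) (ix j y) then
        ga23 K q th S1 S2 S3 v θ (j + 1) x y ^ 2 else 0) * G x0 j x y ^ 2 := by
      refine mul_nonneg ?_ g0
      split_ifs
      · exact sq_nonneg _
      · exact le_rfl
    have n2 : 0 ≤ (uT K q θ v).2.2 (x, y) ^ 2 *
        (if ex x0 j (ix j x) (ix j y) then G x0 j x y ^ 2 else 0) := by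
      refine mul_nonneg (sq_nonneg _) ?_
      split_ifs
      · exact g0
      · exact le_rfl
    by_cases h : ev23 K th S2 S3 (ex x0) θ j (ix j x) (ix j y)
    · rw [if_pos h]
      have e : A23 K q th S1 S2 S3 v (G x0) θ j x y ^ 2 =
          ga23 K q th S1 S2 S3 v θ j x y ^ 2 * G x0 j x y ^ 2 := mul_pow _ _ _
      rw [e]
      rcases h with h | h | h
      · have hq : evq th S2 S3 K θ.2.1 θ.2.2 j (ix j x) (ix j y) := Or.inl h
        rw [if_pos hq] at n1 ⊢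
        linarith
      · have hq : evq th S2 S3 K θ.2.1 θ.2.2 j (ix j x) (ix j y) := Or.inr h
        rw [if_pos hq] at n1 ⊢
        linarith
      · rw [if_pos h] at n2 ⊢
        linarith
    · rw [if_neg h]
      linarith
  -- the carriers
  have h1 : ∑ θ ∈ Th c K p q, ∑ j ∈ range K, ∑ x ∈ iv K R, ∑ y ∈ iv K S,
      (if evq th S2 S3 K θ.2.1 θ.2.2 j (ix j x) (ix j y) then
        ga23 K q th S1 S2 S3 v θ (j + 1) x y ^ 2 else 0) ≤
      192 * sd23 K q u ^ 2 * 16 ^ K / κ ^ 8 :=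
    evs_sum hκ (fun θ _ => evs23 hθ hv θ R S) (num23 hκ hv) (card_Th hc3 K p q)
  have h2 : ∑ θ ∈ Th c K p q, ∑ x0 ∈ X0, ∑ j ∈ range K, ∑ x ∈ iv K R, ∑ y ∈ iv K S,
      (if evq th S2 S3 K θ.2.1 θ.2.2 j (ix j x) (ix j y) then
        ga23 K q th S1 S2 S3 v θ (j + 1) x y ^ 2 else 0) * G x0 j x y ^ 2 ≤
      192 * sd23 K q u ^ 2 * 16 ^ K / κ ^ 8 * L := by
    refine le_trans ?_ (mul_le_mul_of_nonneg_right h1 hL0)
    rw [sum_mul]
    refine sum_le_sum fun θ _ => ?_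
    rw [sum_comm, sum_mul]
    refine sum_le_sum fun j hj => ?_
    rw [sum_comm, sum_mul]
    refine sum_le_sum fun x hx => ?_
    rw [sum_comm, sum_mul]
    refine sum_le_sum fun y hy => ?_
    rw [← mul_sum]
    refine mul_le_mul_of_nonneg_left (hL j (mem_range.1 hj) x hx y hy) ?_
    split_ifs
    · exact sq_nonneg _
    · exact le_rfl
  -- the exits
  have h3 : ∑ θ ∈ Th c K p q, ∑ x0 ∈ X0, ∑ j ∈ range K, ∑ x ∈ iv K R, ∑ y ∈ iv K S,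
      (uT K q θ v).2.2 (x, y) ^ 2 *
        (if ex x0 j (ix j x) (ix j y) then G x0 j x y ^ 2 else 0) ≤
      16 ^ K * sd23 K q u ^ 2 * D := by
    have e1 : ∑ θ ∈ Th c K p q, ∑ x0 ∈ X0, ∑ j ∈ range K, ∑ x ∈ iv K R, ∑ y ∈ iv K S,
        (uT K q θ v).2.2 (x, y) ^ 2 *
          (if ex x0 j (ix j x) (ix j y) then G x0 j x y ^ 2 else 0) =
        ∑ x ∈ iv K R, ∑ y ∈ iv K S, (∑ θ ∈ Th c K p q, (uT K q θ v).2.2 (x, y) ^ 2) *
          ∑ x0 ∈ X0, ∑ j ∈ range K,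
            (if ex x0 j (ix j x) (ix j y) then G x0 j x y ^ 2 else 0) := by
      have e : ∀ θ ∈ Th c K p q, ∑ x0 ∈ X0, ∑ j ∈ range K, ∑ x ∈ iv K R, ∑ y ∈ iv K S,
          (uT K q θ v).2.2 (x, y) ^ 2 *
            (if ex x0 j (ix j x) (ix j y) then G x0 j x y ^ 2 else 0) =
          ∑ x ∈ iv K R, ∑ y ∈ iv K S, (uT K q θ v).2.2 (x, y) ^ 2 *
            ∑ x0 ∈ X0, ∑ j ∈ range K,
              (if ex x0 j (ix j x) (ix j y) then G x0 j x y ^ 2 else 0) := by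
        intro θ _
        have e2 : ∀ x0 ∈ X0, ∑ j ∈ range K, ∑ x ∈ iv K R, ∑ y ∈ iv K S,
            (uT K q θ v).2.2 (x, y) ^ 2 *
              (if ex x0 j (ix j x) (ix j y) then G x0 j x y ^ 2 else 0) =
            ∑ x ∈ iv K R, ∑ y ∈ iv K S, (uT K q θ v).2.2 (x, y) ^ 2 * ∑ j ∈ range K,
              (if ex x0 j (ix j x) (ix j y) then G x0 j x y ^ 2 else 0) := by
          intro x0 _
          rw [sum_comm]
          refine sum_congr rfl fun x _ => ?_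
          rw [sum_comm]
          refine sum_congr rfl fun y _ => ?_
          rw [mul_sum]
        rw [sum_congr rfl e2, sum_comm]
        refine sum_congr rfl fun x _ => ?_
        rw [sum_comm]
        refine sum_congr rfl fun y _ => ?_
        rw [mul_sum]
      rw [sum_congr rfl e, sum_comm]
      refine sum_congr rfl fun x _ => ?_
      rw [sum_comm]
      refine sum_congr rfl fun y _ => ?_
      rw [sum_mul]
    rw [e1]
    have e2 : ∀ x ∈ iv K R, ∀ y ∈ iv K S, (∑ θ ∈ Th c K p q, (uT K q θ v).2.2 (x, y) ^ 2) *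
          ∑ x0 ∈ X0, ∑ j ∈ range K,
            (if ex x0 j (ix j x) (ix j y) then G x0 j x y ^ 2 else 0) ≤
        4 ^ K * sd23 K q u ^ 2 * D := by
      intro x hx y hy
      refine mul_le_mul (gauge23v hc hv x y) (hD x hx y hy) ?_ (by positivity)
      refine sum_nonneg fun _ _ => sum_nonneg fun _ _ => ?_
      split_ifs
      · exact sq_nonneg _
      · exact le_rfl
    refine (sum_le_sum fun x hx => sum_le_sum fun y hy => e2 x hx y hy).trans (le_of_eq ?_)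
    rw [sum_const, sum_const, card_iv, card_iv, nsmul_eq_mul, nsmul_eq_mul,
      show (16 : ℝ) = 2 * 2 * 4 by norm_num, mul_pow, mul_pow]
    push_cast
    ring
  have h4 : ∑ θ ∈ Th c K p q, ∑ x0 ∈ X0,
      evE (A23 K q th S1 S2 S3 v (G x0) θ) (ev23 K th S2 S3 (ex x0) θ) K R S ≤
      (∑ θ ∈ Th c K p q, ∑ x0 ∈ X0, ∑ j ∈ range K, ∑ x ∈ iv K R, ∑ y ∈ iv K S,
        (if evq th S2 S3 K θ.2.1 θ.2.2 j (ix j x) (ix j y) then
          ga23 K q th S1 S2 S3 v θ (j + 1) x y ^ 2 else 0) * G x0 j x y ^ 2) +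
      ∑ θ ∈ Th c K p q, ∑ x0 ∈ X0, ∑ j ∈ range K, ∑ x ∈ iv K R, ∑ y ∈ iv K S,
        (uT K q θ v).2.2 (x, y) ^ 2 *
          (if ex x0 j (ix j x) (ix j y) then G x0 j x y ^ 2 else 0) := by
    rw [← sum_add_distrib]
    refine sum_le_sum fun θ _ => ?_
    rw [← sum_add_distrib]
    refine sum_le_sum fun x0 _ => ?_
    rw [evE_pt, ← sum_add_distrib]
    refine sum_le_sum fun j _ => ?_
    rw [← sum_add_distrib]
    refine sum_le_sum fun x _ => ?_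
    rw [← sum_add_distrib]
    exact sum_le_sum fun y _ => hpt θ x0 j x y
  refine h4.trans ((add_le_add h2 h3).trans (le_of_eq ?_))
  ring

/-- the number of the plane kernels of one atom -/
def M23 (κ : ℝ) (K : ℕ) (q : Pt) (u : Tri) (L D : ℝ) : ℝ :=
  16 ^ K * sd23 K q u ^ 2 * (L + D + 192 * L / κ ^ 8)

open Classical in
/-- **Root energy plus event energies of the plane kernels of one atom.** -/
theorem en23_sum (hc : c.1 ≠ 0) (hc3 : c.2.2 ≠ 0) (hκ : 0 < κ) (hθ : 0 ≤ th)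
    (hv : VC κ K q u v S1 S2 S3)
    (hL : ∀ k ≤ K, ∀ x ∈ iv K R, ∀ y ∈ iv K S, ∑ x0 ∈ X0, G x0 k x y ^ 2 ≤ L) (hL0 : 0 ≤ L)
    (hD : ∀ x ∈ iv K R, ∀ y ∈ iv K S, ∑ x0 ∈ X0, ∑ k ∈ range K,
      (if ex x0 k (ix k x) (ix k y) then G x0 k x y ^ 2 else 0) ≤ D) :
    ∑ θ ∈ Th c K p q, ∑ x0 ∈ X0,
      (E2 (iv K R) (iv K S) (A23 K q th S1 S2 S3 v (G x0) θ K) +
        evE (A23 K q th S1 S2 S3 v (G x0) θ) (ev23 K th S2 S3 (ex x0) θ) K R S) ≤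
      M23 κ K q u L D := by
  have h1 := root23 (p := p) (th := th) hc hv (hL K le_rfl)
  have h2 := evE23 (p := p) hc hc3 hκ hθ hv (fun k hk => hL k hk.le) hL0 hD
  have e : ∑ θ ∈ Th c K p q, ∑ x0 ∈ X0,
      (E2 (iv K R) (iv K S) (A23 K q th S1 S2 S3 v (G x0) θ K) +
        evE (A23 K q th S1 S2 S3 v (G x0) θ) (ev23 K th S2 S3 (ex x0) θ) K R S) =
      (∑ θ ∈ Th c K p q, ∑ x0 ∈ X0,
        E2 (iv K R) (iv K S) (A23 K q th S1 S2 S3 v (G x0) θ K)) +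
      ∑ θ ∈ Th c K p q, ∑ x0 ∈ X0,
        evE (A23 K q th S1 S2 S3 v (G x0) θ) (ev23 K th S2 S3 (ex x0) θ) K R S := by
    rw [← sum_add_distrib]
    exact sum_congr rfl fun θ _ => sum_add_distrib
  rw [e]
  refine (add_le_add h1 h2).trans (le_of_eq ?_)
  unfold M23
  ring

/-! ### The energy on every square -/

/-- the line energies of the edge times a gauge function -/
theorem en23_le (hμ : 0 ≤ μ) (hv : VC κ K q u v S1 S2 S3) (hk : k ≤ K) {Λ : ℝ} (hΛ : 0 ≤ Λ)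
    {H : ℕ → ℤ → ℤ → ℝ} {n m : ℤ} (θ : Pt)
    (hG : ∀ x ∈ iv k n, ∑ y ∈ iv k m, H k x y ^ 2 ≤ Λ * 2 ^ k) :
    E2 (iv k n) (iv k m) (A23 K q (thC μ K q u) S1 S2 S3 v H θ k) ≤
      2 * (μ * rC K q u ^ 2 * sd23 K q u ^ 2 / κ ^ 4) * Λ * 4 ^ k := by
  set h := rC K q u ^ 2 * sd23 K q u / κ ^ 2 with hh
  set T := thC μ K q u with hT
  have hT0 : 0 ≤ T := thC_nonneg hμ K q u
  have hh0 : 0 ≤ h := hgt_nonneg κ K q u (sd23_nonneg K q u)
  have h1 : ∀ x y, ga23 K q T S1 S2 S3 v θ k x y ^ 2 ≤ h ^ 2 * id1 (lvS T S2 K k) (x + θ.2.1) := by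
    intro x y
    have a1 : |ga23 K q T S1 S2 S3 v θ k x y| ≤ h * (id1 (lvS T S2 K k) (x + θ.2.1) *
        id1 (lvS T S3 K k) (y + θ.2.2)) :=
      (abs_cs_le x y).trans (mn_ed23 hv T k (x + θ.2.1) (y + θ.2.2))
    have i0 := id1_nonneg (lvS T S2 K k) (x + θ.2.1)
    have i1 := id1_le (lvS T S2 K k) (x + θ.2.1)
    have j0 := id1_nonneg (lvS T S3 K k) (y + θ.2.2)
    have j1 := id1_le (lvS T S3 K k) (y + θ.2.2)
    have a2 : |ga23 K q T S1 S2 S3 v θ k x y| ≤ h * id1 (lvS T S2 K k) (x + θ.2.1) := by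
      refine a1.trans (mul_le_mul_of_nonneg_left ?_ hh0)
      exact mul_le_of_le_one_right i0 j1
    rw [← sq_abs]
    refine (pow_le_pow_left₀ (abs_nonneg _) a2 2).trans ?_
    rw [mul_pow]
    refine mul_le_mul_of_nonneg_left ?_ (sq_nonneg h)
    rw [sq]
    exact mul_le_of_le_one_right i0 i1
  have h2 : E2 (iv k n) (iv k m) (A23 K q T S1 S2 S3 v H θ k) ≤
      ∑ x ∈ iv k n, h ^ 2 * id1 (lvS T S2 K k) (x + θ.2.1) * (Λ * 2 ^ k) := by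
    unfold E2
    refine sum_le_sum fun x hx => ?_
    have e : ∀ y ∈ iv k m, A23 K q T S1 S2 S3 v H θ k x y ^ 2 ≤
        h ^ 2 * id1 (lvS T S2 K k) (x + θ.2.1) * H k x y ^ 2 := by
      intro y _
      have e1 : A23 K q T S1 S2 S3 v H θ k x y ^ 2 =
          ga23 K q T S1 S2 S3 v θ k x y ^ 2 * H k x y ^ 2 := mul_pow _ _ _
      rw [e1]
      exact mul_le_mul_of_nonneg_right (h1 x y) (sq_nonneg _)
    refine (sum_le_sum e).trans ?_
    rw [← mul_sum]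
    exact mul_le_mul_of_nonneg_left (hG x hx)
      (mul_nonneg (sq_nonneg h) (id1_nonneg _ _))
  have h3 : ∑ x ∈ iv k n, id1 (lvS T S2 K k) (x + θ.2.1) ≤ 2 * T * 2 ^ k := by
    have h4 := sum_lvS_le hT0 (E := S2) (L := K) (k := k) (j := k) le_rfl hk (2 ^ k * n + θ.2.1)
    refine le_trans (le_of_eq ?_) h4
    unfold iv
    have e : Ico (2 ^ k * n + θ.2.1) (2 ^ k * n + θ.2.1 + 2 ^ k) =
        (Ico (2 ^ k * n) (2 ^ k * n + 2 ^ k)).image fun x => x + θ.2.1 := by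
      rw [image_add_right_Ico]
      congr 1
      ring
    rw [e, sum_image fun a _ b _ hab => add_right_cancel hab]
  rw [← hgt_th, ← hh, ← hT]
  refine h2.trans ?_
  rw [← sum_mul, ← mul_sum]
  have h5 := mul_le_mul_of_nonneg_left h3 (sq_nonneg h)
  have h6 := mul_le_mul_of_nonneg_right h5 (by positivity : (0 : ℝ) ≤ Λ * 2 ^ k)
  refine h6.trans (le_of_eq ?_)
  rw [show (4 : ℝ) = 2 * 2 by norm_num, mul_pow]
  ring

/-! ### The gauge functions of one root square -/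

open Classical in
/-- the gauge functions `G x0` of the points `x0 ∈ X0` over the root square `(K; R, S)`, exits
`ex x0`: line energies `Λ 2 ^ k`, sum over `x0` at most `L`, sum over the exits at most `D` -/
structure Gau (K : ℕ) (R S : ℤ) (X0 : Finset ℤ) (G : ℤ → ℕ → ℤ → ℤ → ℝ)
    (ex : ℤ → ℕ → ℤ → ℤ → Prop) (Λ L D : ℝ) : Prop where
  L0 : 0 ≤ L
  hL : ∀ k ≤ K, ∀ x ∈ iv K R, ∀ y ∈ iv K S, ∑ x0 ∈ X0, G x0 k x y ^ 2 ≤ L
  hD : ∀ x ∈ iv K R, ∀ y ∈ iv K S, ∑ x0 ∈ X0, ∑ k ∈ range K,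
    (if ex x0 k (ix k x) (ix k y) then G x0 k x y ^ 2 else 0) ≤ D
  hex : ∀ x0 ∈ X0, ∀ k n m, ¬ ex x0 k n m → ∀ x ∈ iv k n, ∀ y ∈ iv k m,
    G x0 k x y = G x0 (k + 1) x y
  hΛ : ∀ x0 ∈ X0, ∀ k ≤ K, ∀ x m, ∑ y ∈ iv k m, G x0 k x y ^ 2 ≤ Λ * 2 ^ k

/-- the level: `sig rC n2` -/
def tau23 (sig : ℝ) (K : ℕ) (q : Pt) (u : Tri) : ℝ := sig * rC K q u * sd23 K q u

/-- the price of one component -/
def c23 (μ κ Λ sig : ℝ) (K : ℕ) (q : Pt) (u : Tri) : ℝ :=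
  μ * Λ / (κ ^ 4 * sig ^ 4 * rC K q u ^ 2 * sd23 K q u ^ 2)

theorem tau23_pos {sig : ℝ} (hs : 0 < sig) (hr : 0 < rC K q u) (hd : 0 < sd23 K q u) :
    0 < tau23 sig K q u := by
  unfold tau23; positivity

theorem c23_pos {Λ sig : ℝ} (hμ : 0 < μ) (hκ : 0 < κ) (hΛ : 0 < Λ) (hs : 0 < sig)
    (hr : 0 < rC K q u) (hd : 0 < sd23 K q u) : 0 < c23 μ κ Λ sig K q u := by
  unfold c23; positivity

theorem c23_nonneg {Λ sig : ℝ} (hμ : 0 ≤ μ) (hΛ : 0 ≤ Λ) : 0 ≤ c23 μ κ Λ sig K q u := by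
  unfold c23; positivity

theorem c23_tau {Λ sig : ℝ} (hκ : 0 < κ) (hs : 0 < sig) (hr : 0 < rC K q u)
    (hd : 0 < sd23 K q u) : c23 μ κ Λ sig K q u * tau23 sig K q u ^ 4 =
      μ * rC K q u ^ 2 * sd23 K q u ^ 2 / κ ^ 4 * Λ := by
  unfold c23 tau23
  field_simp

/-- if the ratio or the norm vanishes, the edge vanishes -/
theorem ga23_zero (hv : VC κ K q u v S1 S2 S3) (h : rC K q u * sd23 K q u = 0) (θ : Pt) (k : ℕ)
    (x y : ℤ) : ga23 K q th S1 S2 S3 v θ k x y = 0 := by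
  have h1 : rC K q u ^ 2 * sd23 K q u / κ ^ 2 = 0 := by
    rw [sq, mul_assoc, h, mul_zero, zero_div]
  have h2 : |ga23 K q th S1 S2 S3 v θ k x y| ≤ rC K q u ^ 2 * sd23 K q u / κ ^ 2 *
      (id1 (lvS th S2 K k) (x + θ.2.1) * id1 (lvS th S3 K k) (y + θ.2.2)) :=
    (abs_cs_le x y).trans (mn_ed23 hv th k (x + θ.2.1) (y + θ.2.2))
  rw [h1, zero_mul] at h2
  exact abs_nonpos_iff.1 h2

variable {Λ sig : ℝ}

theorem Gau.sum (g : Gau K R S X0 G ex Λ L D) (hc : c.1 ≠ 0) (hc3 : c.2.2 ≠ 0) (hκ : 0 < κ)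
    (hθ : 0 ≤ th) (hv : VC κ K q u v S1 S2 S3) :
    ∑ θ ∈ Th c K p q, ∑ x0 ∈ X0,
      (E2 (iv K R) (iv K S) (A23 K q th S1 S2 S3 v (G x0) θ K) +
        evE (A23 K q th S1 S2 S3 v (G x0) θ) (ev23 K th S2 S3 (ex x0) θ) K R S) ≤
      M23 κ K q u L D :=
  en23_sum hc hc3 hκ hθ hv g.hL g.L0 g.hD

theorem Gau.hev (g : Gau K R S X0 G ex Λ L D) {x0 : ℤ} (h0 : x0 ∈ X0) (θ : Pt) :
    ∀ k n m, ¬ ev23 K th S2 S3 (ex x0) θ k n m → ∀ x ∈ iv k n, ∀ y ∈ iv k m,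
      A23 K q th S1 S2 S3 v (G x0) θ k x y = A23 K q th S1 S2 S3 v (G x0) θ (k + 1) x y :=
  hev23 (g.hex x0 h0) θ

theorem Gau.en (g : Gau K R S X0 G ex Λ L D) (hμ : 0 ≤ μ) (hΛ : 0 ≤ Λ)
    (hv : VC κ K q u v S1 S2 S3) {x0 : ℤ} (h0 : x0 ∈ X0) (θ : Pt) (hk : k ≤ K) (n m : ℤ) :
    E2 (iv k n) (iv k m) (A23 K q (thC μ K q u) S1 S2 S3 v (G x0) θ k) ≤
      2 * (μ * rC K q u ^ 2 * sd23 K q u ^ 2 / κ ^ 4) * Λ * 4 ^ k :=
  en23_le hμ hv hk hΛ θ fun x _ => g.hΛ x0 h0 k hk x m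

/-- **The births of the plane kernels of one atom.** -/
theorem births23 (g : Gau K R S X0 G ex Λ L D) (hc : c.1 ≠ 0) (hc3 : c.2.2 ≠ 0) (hκ : 0 < κ)
    (hθ : 0 ≤ th) (hv : VC κ K q u v S1 S2 S3) {cp τ : ℝ} (hcp : 0 ≤ cp) (hτ : 0 < τ) :
    ∑ θ ∈ Th c K p q, ∑ x0 ∈ X0,
      bT (A23 K q th S1 S2 S3 v (G x0) θ) cp (τ ^ 2 / 4) (τ ^ 2 / 4) (fun _ _ _ => True)
        (ev23 K th S2 S3 (ex x0) θ) K R S ≤ 12 / τ ^ 2 * M23 κ K q u L D := by
  have h4 : 0 < τ ^ 2 / 4 := by positivity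
  refine le_trans ?_ (mul_le_mul_of_nonneg_left (g.sum (p := p) (th := th) hc hc3 hκ hθ hv)
    (by positivity : 0 ≤ 12 / τ ^ 2))
  rw [mul_sum]
  refine sum_le_sum fun θ _ => ?_
  rw [mul_sum]
  refine sum_le_sum fun x0 h0 => ?_
  refine (bT_le hcp h4 h4 (fun _ _ _ _ => trivial) (g.hev h0 θ) R S).trans (le_of_eq ?_)
  have e : 1 / (τ ^ 2 / 4) + 2 / (τ ^ 2 / 4) = 12 / τ ^ 2 := by
    field_simp
    norm_num
  rw [e]

/-- **The power of the residual paths of one atom.** -/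
theorem pwr23 (g : Gau K R S X0 G ex Λ L D) (hc : c.1 ≠ 0) (hc3 : c.2.2 ≠ 0) (hκ : 0 < κ)
    (hμ : 0 ≤ μ) (hΛ : 0 ≤ Λ) (hs : 0 < sig) (hr : 0 < rC K q u) (hd : 0 < sd23 K q u)
    (hv : VC κ K q u v S1 S2 S3) {cp : ℝ} (hcp : 0 ≤ cp) :
    ∑ θ ∈ Th c K p q, ∑ x0 ∈ X0,
      pwr K R S
        (QH (A23 K q (thC μ K q u) S1 S2 S3 v (G x0) θ) cp (tau23 sig K q u ^ 2 / 4)
          (tau23 sig K q u ^ 2 / 4) (fun _ _ _ => True) (ev23 K (thC μ K q u) S2 S3 (ex x0) θ) K)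
        (BH (A23 K q (thC μ K q u) S1 S2 S3 v (G x0) θ) cp (tau23 sig K q u ^ 2 / 4)
          (tau23 sig K q u ^ 2 / 4) (fun _ _ _ => True)
          (ev23 K (thC μ K q u) S2 S3 (ex x0) θ) K) ≤
      (4 + 24 * (μ * Λ) / (κ ^ 4 * sig ^ 2)) * M23 κ K q u L D := by
  have hτ := tau23_pos (K := K) (q := q) (u := u) hs hr hd
  set τ := tau23 sig K q u with hτe
  have h4 : 0 < τ ^ 2 / 4 := by positivity
  have hp : 0 ≤ 4 + 24 * (μ * Λ) / (κ ^ 4 * sig ^ 2) := by positivity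
  refine le_trans ?_ (mul_le_mul_of_nonneg_left
    (g.sum (p := p) hc hc3 hκ (thC_nonneg hμ K q u) hv) hp)
  rw [mul_sum]
  refine sum_le_sum fun θ _ => ?_
  rw [mul_sum]
  refine sum_le_sum fun x0 h0 => ?_
  have hΛ' : 0 ≤ 2 * (μ * rC K q u ^ 2 * sd23 K q u ^ 2 / κ ^ 4) * Λ := by positivity
  refine (pwr_E' (A := A23 K q (thC μ K q u) S1 S2 S3 v (G x0) θ) hcp h4 h4
    (fun _ _ _ => trivial) (g.hev h0 θ) hΛ'
    (fun k hk n m => g.en hμ hΛ hv h0 θ hk.le n m) R S).trans (le_of_eq ?_)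
  congr 1
  rw [hτe]
  unfold tau23
  field_simp
  ring

/-- **The cap of the residual.** -/
theorem capR23 (g : Gau K R S X0 G ex Λ L D) (hκ : 0 < κ) (hμ : 0 < μ) (hΛ : 0 < Λ)
    (hs : 0 < sig) (hr : 0 < rC K q u) (hd : 0 < sd23 K q u)
    (hv : VC κ K q u v S1 S2 S3) {x0 : ℤ} (h0 : x0 ∈ X0) (θ : Pt) (hk : k ≤ K) (n m : ℤ) :
    Cap k n m (2 * tau23 sig K q u)
      (RsH (A23 K q (thC μ K q u) S1 S2 S3 v (G x0) θ) (c23 μ κ Λ sig K q u)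
        (tau23 sig K q u ^ 2 / 4) (tau23 sig K q u ^ 2 / 4) (fun _ _ _ => True)
        (ev23 K (thC μ K q u) S2 S3 (ex x0) θ) K k) := by
  have hτ := tau23_pos (K := K) (q := q) (u := u) hs hr hd
  have hc' := c23_pos (K := K) (q := q) (u := u) hμ hκ hΛ hs hr hd
  have e1 := c23_tau (μ := μ) (Λ := Λ) (K := K) (q := q) (u := u) hκ hs hr hd
  set τ := tau23 sig K q u
  have h4 : 0 < τ ^ 2 / 4 := by positivity
  have s1 : √(τ ^ 2 / 4) = τ / 2 := by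
    rw [show τ ^ 2 / 4 = (τ / 2) ^ 2 by ring]
    exact Real.sqrt_sq (by positivity)
  have s2 : √(2 * (τ ^ 2 / 4)) ≤ 2 * τ := by
    rw [show (2 * τ) = √((2 * τ) ^ 2) from (Real.sqrt_sq (by positivity)).symm]
    exact Real.sqrt_le_sqrt (by nlinarith [sq_nonneg τ])
  refine cap_RsH hc' h4 h4.le hk trivial (s := 5 / 4 * τ) (by positivity) ?_ s2 ?_
  · rw [s1]; linarith
  · refine (g.en hμ.le hΛ.le hv h0 θ hk n m).trans ?_
    have e2 : 2 * (μ * rC K q u ^ 2 * sd23 K q u ^ 2 / κ ^ 4) * Λ * 4 ^ k =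
        2 * (c23 μ κ Λ sig K q u * τ ^ 4) * 4 ^ k := by rw [e1]; ring
    rw [e2]
    refine mul_le_mul_of_nonneg_right ?_ (by positivity)
    have h5 : 0 ≤ c23 μ κ Λ sig K q u * τ ^ 4 := by positivity
    have e3 : c23 μ κ Λ sig K q u * (5 / 4 * τ) ^ 4 =
        625 / 256 * (c23 μ κ Λ sig K q u * τ ^ 4) := by ring
    rw [e3]
    linarith

theorem cap23 (g : Gau K R S X0 G ex Λ L D) (hκ : 0 < κ) (hμ : 0 < μ) (hΛ : 0 < Λ)
    (hs : 0 < sig) (hr : 0 < rC K q u) (hd : 0 < sd23 K q u)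
    (hv : VC κ K q u v S1 S2 S3) {x0 : ℤ} (h0 : x0 ∈ X0) (θ : Pt) (hk : k ∈ Icc 1 K) (n m : ℤ) :
    Cap k n m (2 * tau23 sig K q u)
      (BH (A23 K q (thC μ K q u) S1 S2 S3 v (G x0) θ) (c23 μ κ Λ sig K q u)
        (tau23 sig K q u ^ 2 / 4) (tau23 sig K q u ^ 2 / 4) (fun _ _ _ => True)
        (ev23 K (thC μ K q u) S2 S3 (ex x0) θ) K k) := by
  rw [mem_Icc] at hk
  rw [BH_pos (by omega)]
  exact capR23 g hκ hμ hΛ hs hr hd hv h0 θ hk.2 n m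

/-- the residual is a path -/
theorem path23 (g : Gau K R S X0 G ex Λ L D) {x0 : ℤ} (h0 : x0 ∈ X0) (θ : Pt) (cp ξ η : ℝ) :
    Path K R S
      (QH (A23 K q th S1 S2 S3 v (G x0) θ) cp ξ η (fun _ _ _ => True)
        (ev23 K th S2 S3 (ex x0) θ) K)
      (BH (A23 K q th S1 S2 S3 v (G x0) θ) cp ξ η (fun _ _ _ => True)
        (ev23 K th S2 S3 (ex x0) θ) K) :=
  path_H (g.hev h0 θ) R S

/-! ### The static slot cut by the used cells -/

section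

variable {c0 : ℕ} {s : ℤ} {ud : ℕ → ℤ → Prop} {N : ℕ} {F : ℤ → ℝ} {C : ℝ}
  {s0 q0 q2 q3 r0 : ℤ}

/-- the static slot at `x0`, cut by the used cells -/
def gcu (ud : ℕ → ℤ → Prop) (F : ℤ → ℝ) (s0 q0 q2 q3 x0 : ℤ) (k : ℕ) (x y : ℤ) : ℝ :=
  cu ud F k (s0 + q0 * x0 + q2 * x + q3 * y)

/-- its exits -/
def excu (N : ℕ) (ud : ℕ → ℤ → Prop) (s0 q0 q2 q3 x0 : ℤ) (k : ℕ) (n m : ℤ) : Prop :=
  N ≤ k ∨ evx ud (s0 + q0 * x0) q2 q3 k n m

theorem hex_cu (hup : ∀ k < N, ∀ y, ud k y → ud (k + 1) y) (x0 : ℤ) (k : ℕ) (n m : ℤ)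
    (h : ¬ excu N ud s0 q0 q2 q3 x0 k n m) : ∀ x ∈ iv k n, ∀ y ∈ iv k m,
      gcu ud F s0 q0 q2 q3 x0 k x y = gcu ud F s0 q0 q2 q3 x0 (k + 1) x y := by
  intro x hx y hy
  unfold excu at h
  rw [not_or, not_le] at h
  exact cu_evx hup h.1 h.2 hx hy

theorem cu_sq_mono (hup : ∀ k < N, ∀ y, ud k y → ud (k + 1) y) {a b : ℕ} (hab : a ≤ b)
    (hb : b ≤ N) (y : ℤ) : cu ud F a y ^ 2 ≤ cu ud F b y ^ 2 := by
  classical
  unfold cu
  by_cases h : ud a y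
  · rw [if_pos h, if_pos (up_mono hup hab hb h)]
  · rw [if_neg h, zero_pow two_ne_zero]; exact sq_nonneg _

/-- energy of the cut slot on a line of length `2 ^ k` -/
theorem cu_line (H : Cells c0 s ud N F C) (hC : 0 ≤ C) {a b : ℤ} (hb0 : b ≠ 0)
    (hb : |b| ≤ 2 ^ c0) {X : Finset ℤ} {r : ℤ} (hX : X ⊆ iv k r) :
    ∑ x ∈ X, cu ud F k (a + b * x) ^ 2 ≤ 2 * C * 2 ^ (k + c0) := by
  classical
  have h2 : (0 : ℤ) < 2 ^ k := by positivity
  have h2c : (0 : ℤ) < 2 ^ (k + c0) := by positivity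
  have hlen : |b| * 2 ^ k ≤ 2 ^ (k + c0) := by
    rw [pow_add, mul_comm ((2 : ℤ) ^ k)]
    exact mul_le_mul_of_nonneg_right hb h2.le
  obtain ⟨w, hw⟩ : ∃ w : ℤ, ∀ x ∈ X, w ≤ a + b * x ∧ a + b * x < w + 2 ^ (k + c0) := by
    rcases lt_or_gt_of_ne hb0 with h | h
    · rw [abs_of_neg h] at hlen
      refine ⟨a + b * (2 ^ k * r + 2 ^ k) + 1, fun x hx => ?_⟩
      have h1 := hX hx
      unfold iv at h1
      rw [mem_Ico] at h1
      constructor <;> nlinarith [h1.1, h1.2]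
    · rw [abs_of_pos h] at hlen
      refine ⟨a + b * (2 ^ k * r), fun x hx => ?_⟩
      have h1 := hX hx
      unfold iv at h1
      rw [mem_Ico] at h1
      constructor <;> nlinarith [h1.1, h1.2]
  have hinj : Set.InjOn (fun x => a + b * x) X := by
    intro x _ y _ h
    have h' : b * x = b * y := by
      have : a + b * x = a + b * y := h
      linarith
    exact mul_left_cancel₀ hb0 h'
  have hsub : X.image (fun x => a + b * x) ⊆
      ce c0 s k (ci c0 s k w) ∪ ce c0 s k (ci c0 s k w + 1) := by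
    intro z hz
    obtain ⟨x, hx, rfl⟩ := mem_image.1 hz
    have h1 := hw x hx
    have b1 := ci_bounds c0 s k w
    unfold ce
    rw [mem_union, mem_Ico, mem_Ico]
    by_cases h3 : a + b * x < 2 ^ (k + c0) * ci c0 s k w - s + 2 ^ (k + c0)
    · left; constructor <;> linarith [h1.1, h1.2, b1.1, b1.2]
    · right
      have e : (2 : ℤ) ^ (k + c0) * (ci c0 s k w + 1) = 2 ^ (k + c0) * ci c0 s k w +
          2 ^ (k + c0) := by ring
      rw [e]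
      constructor <;> linarith [h1.1, h1.2, b1.1, b1.2]
  rw [← sum_image (f := fun z => cu ud F k z ^ 2) hinj]
  refine (sum_le_sum_of_subset_of_nonneg hsub fun _ _ _ => sq_nonneg _).trans ?_
  have h5 := H.cell hC k (ci c0 s k w)
  have h6 := H.cell hC k (ci c0 s k w + 1)
  have h7 : ∑ z ∈ ce c0 s k (ci c0 s k w) ∪ ce c0 s k (ci c0 s k w + 1), cu ud F k z ^ 2 ≤
      ∑ z ∈ ce c0 s k (ci c0 s k w), cu ud F k z ^ 2 +
        ∑ z ∈ ce c0 s k (ci c0 s k w + 1), cu ud F k z ^ 2 := by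
    rw [← sum_union_inter]
    have : 0 ≤ ∑ z ∈ ce c0 s k (ci c0 s k w) ∩ ce c0 s k (ci c0 s k w + 1),
        cu ud F k z ^ 2 := sum_nonneg fun _ _ => sq_nonneg _
    linarith
  linarith

/-- **The cut static slot satisfies the hypotheses.** -/
theorem gau_cu (H : Cells c0 s ud N F C) (hC : 0 ≤ C) (hK : K ≤ N) (h0 : q0 ≠ 0) (h3 : q3 ≠ 0)
    (b0 : |q0| ≤ 2 ^ c0) (b23 : |q2| + |q3| ≤ 2 ^ c0) (hX : X0 ⊆ iv K r0) (R S : ℤ) :
    Gau K R S X0 (gcu ud F s0 q0 q2 q3) (excu N ud s0 q0 q2 q3) (2 * C * 2 ^ c0)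
      (2 * C * 2 ^ (K + c0)) (12 * C * 2 ^ (K + c0)) where
  L0 := by positivity
  hL := by
    intro k hk x _ y _
    have h1 : ∀ x0 ∈ X0, gcu ud F s0 q0 q2 q3 x0 k x y ^ 2 ≤
        cu ud F K ((s0 + q2 * x + q3 * y) + q0 * x0) ^ 2 := by
      intro x0 _
      have e : s0 + q0 * x0 + q2 * x + q3 * y = (s0 + q2 * x + q3 * y) + q0 * x0 := by ring
      unfold gcu
      rw [e]
      exact cu_sq_mono H.up hk hK _
    exact (sum_le_sum h1).trans (cu_line H hC h0 b0 hX)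
  hD := by
    classical
    intro x _ y _
    refine le_trans (sum_le_sum fun x0 _ => sum_le_sum fun k hk => ?_)
      (sum_x0_near (s0 := s0) H hC hK h0 b0 b23 r0 hX x y)
    have hk' := mem_range.1 hk
    have h1 : gcu ud F s0 q0 q2 q3 x0 k x y ^ 2 ≤
        cu ud F (k + 1) (s0 + q0 * x0 + q2 * x + q3 * y) ^ 2 :=
      cu_sq_mono H.up (Nat.le_succ k) (by omega) _
    by_cases h : excu N ud s0 q0 q2 q3 x0 k (ix k x) (ix k y)
    · rw [if_pos h]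
      have h' : evx ud (s0 + q0 * x0) q2 q3 k (ix k x) (ix k y) := by
        rcases h with h | h
        · exact absurd h (by omega)
        · exact h
      rw [if_pos h']
      exact h1
    · rw [if_neg h]
      split_ifs
      · exact sq_nonneg _
      · exact le_rfl
  hex := fun x0 _ k n m h => hex_cu H.up x0 k n m h
  hΛ := by
    intro x0 _ k hk x m
    have h1 := cu_line (k := k) (a := s0 + q0 * x0 + q2 * x) (b := q3) H hC h3
      (le_trans (by linarith [abs_nonneg q2]) b23) (X := iv k m) (r := m) (subset_refl _)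
    refine h1.trans (le_of_eq ?_)
    rw [pow_add]; ring

/-- the number of one atom for the cut static slot, cells of length `2 ^ (k + 7)` -/
theorem M23_cu (hκ : 0 < κ) (hκ1 : κ ≤ 1) (hC : 0 ≤ C) :
    M23 κ K q u (2 * C * 2 ^ (K + 7)) (12 * C * 2 ^ (K + 7)) ≤
      50944 * C * 32 ^ K * sd23 K q u ^ 2 / κ ^ 8 := by
  have h8 : κ ^ 8 ≤ 1 := pow_le_one₀ hκ.le hκ1
  have h8' : 0 < κ ^ 8 := by positivity
  have e1 : M23 κ K q u (2 * C * 2 ^ (K + 7)) (12 * C * 2 ^ (K + 7)) =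
      C * 32 ^ K * sd23 K q u ^ 2 * (1792 + 49152 / κ ^ 8) := by
    unfold M23
    rw [show (32 : ℝ) = 16 * 2 by norm_num, mul_pow, pow_add]
    ring
  have e2 : 50944 * C * 32 ^ K * sd23 K q u ^ 2 / κ ^ 8 =
      C * 32 ^ K * sd23 K q u ^ 2 * (50944 / κ ^ 8) := by ring
  rw [e1, e2]
  refine mul_le_mul_of_nonneg_left ?_ (by positivity)
  rw [le_div_iff₀ h8', add_mul, div_mul_cancel₀ _ h8'.ne']
  linarith

end

end

end Vale.Agent.P141.H150.Mv
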