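import Vale.Agent.P141.H150.MvB

/-!
# P141, line W, end lemma: the residual path, moving kernel
-/

namespace Vale.Agent.P141.H150.Mv

open Finset Vale.Agent.P141.PL Vale.Agent.P141.PL.H317
open Vale.Agent.P141.H736 Vale.Agent.P141.H958 Vale.Agent.P141.H443

noncomputable section

variable {A : ℕ → ℤ → ℤ → ℝ} {c ξ η : ℝ} {us ev : ℕ → ℤ → ℤ → Prop} {K : ℕ}

open Classical in
/-- the area of the stops strictly below the square `(k; n, m)` -/
def sA (A : ℕ → ℤ → ℤ → ℝ) (c ξ η : ℝ) (us ev : ℕ → ℤ → ℤ → Prop) (K k : ℕ) (n m : ℤ) : ℝ :=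
  sumd (fun j a b => if st A c ξ η us ev K (j + 1) (a / 2) (b / 2) ≠ none ∧
    st A c ξ η us ev K j a b = none then (4 : ℝ) ^ j else 0) k n m

open Classical in
theorem sA_succ (k : ℕ) (n m : ℤ) : sA A c ξ η us ev K (k + 1) n m = ch4 n m fun a b =>
    (if st A c ξ η us ev K (k + 1) (a / 2) (b / 2) ≠ none ∧ st A c ξ η us ev K k a b = none then
      (4 : ℝ) ^ k else 0) + sA A c ξ η us ev K k a b :=
  sumd_succ _ k n m

theorem bA_nonneg (k : ℕ) : ∀ n m : ℤ, 0 ≤ bA A c ξ η us ev K k n m := by
  classical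
  induction k with
  | zero => intro n m; exact le_rfl
  | succ k ih =>
    intro n m
    rw [bA_succ]
    have h : ∀ a b : ℤ, 0 ≤ (if st A c ξ η us ev K k a b = some k then (4 : ℝ) ^ k else 0) +
        bA A c ξ η us ev K k a b := by
      intro a b
      have := ih a b
      split_ifs <;> positivity
    unfold ch4
    exact add_nonneg (add_nonneg (add_nonneg (h _ _) (h _ _)) (h _ _)) (h _ _)

theorem sA_nonneg (k : ℕ) : ∀ n m : ℤ, 0 ≤ sA A c ξ η us ev K k n m := by
  classical
  induction k with
  | zero => intro n m; exact le_rfl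
  | succ k ih =>
    intro n m
    rw [sA_succ]
    have h : ∀ a b : ℤ, 0 ≤ (if st A c ξ η us ev K (k + 1) (a / 2) (b / 2) ≠ none ∧
        st A c ξ η us ev K k a b = none then (4 : ℝ) ^ k else 0) + sA A c ξ η us ev K k a b := by
      intro a b
      have := ih a b
      split_ifs <;> positivity
    unfold ch4
    exact add_nonneg (add_nonneg (add_nonneg (h _ _) (h _ _)) (h _ _)) (h _ _)

open Classical in
/-- **The stops are paid by the births.** -/
theorem stops_le (k : ℕ) (hk : k ≤ K) : ∀ n m : ℤ, sA A c ξ η us ev K k n m ≤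
    (if st A c ξ η us ev K k n m = none then 0 else (4 : ℝ) ^ k) + bA A c ξ η us ev K k n m := by
  induction k with
  | zero =>
    intro n m
    have h1 : sA A c ξ η us ev K 0 n m = 0 := rfl
    rw [h1, bA_zero]
    split_ifs <;> norm_num
  | succ k ih =>
    intro n m
    have ih' := ih (by omega)
    rw [sA_succ, bA_succ]
    have e : (if st A c ξ η us ev K (k + 1) n m = none then 0 else (4 : ℝ) ^ (k + 1)) =
        ch4 n m fun a b => if st A c ξ η us ev K (k + 1) n m = none then 0 else (4 : ℝ) ^ k := by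
      unfold ch4
      split_ifs
      · ring
      · rw [pow_succ]; ring
    have e2 : (ch4 n m fun a b => if st A c ξ η us ev K (k + 1) n m = none then 0 else (4 : ℝ) ^ k) +
        ch4 n m (fun a b => (if st A c ξ η us ev K k a b = some k then (4 : ℝ) ^ k else 0) +
          bA A c ξ η us ev K k a b) = ch4 n m fun a b =>
        (if st A c ξ η us ev K (k + 1) n m = none then 0 else (4 : ℝ) ^ k) +
          ((if st A c ξ η us ev K k a b = some k then (4 : ℝ) ^ k else 0) +
            bA A c ξ η us ev K k a b) := by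
      unfold ch4; ring
    rw [e, e2]
    refine ch4_mono fun a b ha hb => ?_
    have h1 := ih' a b
    have h4 : (0 : ℝ) < 4 ^ k := by positivity
    rw [ha, hb]
    by_cases hc : st A c ξ η us ev K k a b = none
    · rw [if_pos hc] at h1
      have h2 : ¬ (st A c ξ η us ev K k a b = some k) := by rw [hc]; simp
      rw [if_neg h2]
      by_cases hp : st A c ξ η us ev K (k + 1) n m = none
      · rw [if_pos hp, if_neg (fun h => h.1 hp)]
        linarith
      · rw [if_neg hp, if_pos ⟨hp, hc⟩]
        linarith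
    · rw [if_neg hc] at h1
      rw [if_neg (fun h => hc h.2)]
      by_cases hp : st A c ξ η us ev K (k + 1) n m = none
      · have hb' : st A c ξ η us ev K k a b = some k := by
          rcases hs : st A c ξ η us ev K k a b with _ | r
          · exact absurd hs hc
          · by_cases hr : r = k
            · rw [hr]
            · have h3 := (st_inherit (by omega : k < K) hs hr).1
              rw [ha, hb, hp] at h3
              exact absurd h3 (by simp)
        rw [if_pos hp, if_pos hb']
        linarith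
      · rw [if_neg hp]
        have : (0 : ℝ) ≤ if st A c ξ η us ev K k a b = some k then (4 : ℝ) ^ k else 0 := by
          split_ifs <;> positivity
        linarith

/-- **the residual path** -/
def BH (A : ℕ → ℤ → ℤ → ℝ) (c ξ η : ℝ) (us ev : ℕ → ℤ → ℤ → Prop) (K k : ℕ) : ℤ → ℤ → ℝ :=
  if k = 0 then fun _ _ => 0 else RsH A c ξ η us ev K k

/-- the changed squares of the residual path -/
def QH (A : ℕ → ℤ → ℤ → ℝ) (c ξ η : ℝ) (us ev : ℕ → ℤ → ℤ → Prop) (K k : ℕ) (n m : ℤ) : Prop :=
  k = 0 ∨ ev k n m ∨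
    st A c ξ η us ev K k n m ≠ st A c ξ η us ev K (k + 1) (n / 2) (m / 2)

theorem BH_zero : BH A c ξ η us ev K 0 = 0 := by
  funext x y
  simp [BH]

theorem BH_pos {k : ℕ} (hk : k ≠ 0) : BH A c ξ η us ev K k = RsH A c ξ η us ev K k := if_neg hk

theorem path_H (hev : ∀ k n m, ¬ ev k n m → ∀ x ∈ iv k n, ∀ y ∈ iv k m, A k x y = A (k + 1) x y)
    (R S : ℤ) : Path K R S (QH A c ξ η us ev K) (BH A c ξ η us ev K) := by
  intro k hk n _ m _ hq x hx y hy
  have h1 : k ≠ 0 := fun h => hq (Or.inl h)
  have he : ¬ ev k n m := fun h => hq (Or.inr (Or.inl h))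
  have h2 : st A c ξ η us ev K k n m = st A c ξ η us ev K (k + 1) (n / 2) (m / 2) := by
    by_contra h
    exact hq (Or.inr (Or.inr h))
  rw [BH_pos h1, BH_pos (Nat.succ_ne_zero k), RsH_step hev he h2 hx hy]

theorem cap_H (hc : 0 < c) (hξ : 0 < ξ) (hη : 0 ≤ η) {k : ℕ} (hk : k ∈ Icc 1 K) {n m : ℤ}
    (hu : us k n m) {s T : ℝ} (hs : 0 ≤ s) (hS : s + √ξ ≤ T) (hS' : √(2 * η) ≤ T)
    (hA : E2 (iv k n) (iv k m) (A k) ≤ c * s ^ 4 * 4 ^ k) :
    Cap k n m T (BH A c ξ η us ev K k) := by
  rw [mem_Icc] at hk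
  rw [BH_pos (by omega)]
  exact cap_RsH hc hξ hη hk.2 hu hs hS hS' hA

theorem E2_child_le (B : ℤ → ℤ → ℝ) (k : ℕ) (a b : ℤ) :
    E2 (iv k a) (iv k b) B ≤ E2 (iv (k + 1) (a / 2)) (iv (k + 1) (b / 2)) B := by
  unfold E2
  have h1 : iv k a ⊆ iv (k + 1) (a / 2) := fun x hx => iv_sub_child rfl hx
  have h2 : iv k b ⊆ iv (k + 1) (b / 2) := fun x hx => iv_sub_child rfl hx
  refine (sum_le_sum fun x _ => sum_le_sum_of_subset_of_nonneg h2 fun _ _ _ => sq_nonneg _).trans ?_
  exact sum_le_sum_of_subset_of_nonneg h1 fun _ _ _ => sum_nonneg fun _ _ => sq_nonneg _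

/-- the energy of the residual at a square -/
theorem E2_RsH_none {k : ℕ} {n m : ℤ} (h : st A c ξ η us ev K k n m = none) :
    E2 (iv k n) (iv k m) (RsH A c ξ η us ev K k) = E2 (iv k n) (iv k m) (A k) :=
  E2_congr fun _ hx _ hy => RsH_none hx hy h

theorem E2_RsH_birth (hc : 0 ≤ c) {k : ℕ} {n m : ℤ} (h : st A c ξ η us ev K k n m = some k) :
    E2 (iv k n) (iv k m) (RsH A c ξ η us ev K k) ≤ E2 (iv k n) (iv k m) (A k) := by
  refine le_trans (le_of_eq ?_) (E2_Um_le hc k n m)
  exact E2_congr fun x hx y hy => by rw [RsH_some hx hy h, Ug_eq (A k) c hx hy]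

open Classical in
theorem sumd_H (hc : 0 ≤ c) {Λ : ℝ} (hΛ : 0 ≤ Λ)
    (hev : ∀ k n m, ¬ ev k n m → ∀ x ∈ iv k n, ∀ y ∈ iv k m, A k x y = A (k + 1) x y)
    (hA : ∀ k n m, us k n m → E2 (iv k n) (iv k m) (A k) ≤ Λ * 4 ^ k) (k : ℕ) (hk : k ≤ K) :
    ∀ n m : ℤ, sumd (fun j a b => if QH A c ξ η us ev K j a b then
      E2 (iv j a) (iv j b) (BH A c ξ η us ev K (j + 1)) else 0) k n m ≤
      E2 (iv k n) (iv k m) (RsH A c ξ η us ev K k) + (evE A ev k n m +
        4 * Λ * (bA A c ξ η us ev K k n m + sA A c ξ η us ev K k n m)) := by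
  induction k with
  | zero =>
    intro n m
    rw [sumd_zero]
    have h1 : sA A c ξ η us ev K 0 n m = 0 := rfl
    rw [bA_zero, evE_zero, h1, add_zero, mul_zero, add_zero, add_zero]
    exact E2_nonneg _ _ _
  | succ k ih =>
    intro n m
    have ih' := ih (by omega)
    have hkK : k < K := by omega
    rw [sumd_succ, bA_succ, sA_succ, evE_succ, E2_children]
    set fb : ℤ → ℤ → ℝ := fun a b =>
      (if st A c ξ η us ev K k a b = some k then (4 : ℝ) ^ k else 0) +
        bA A c ξ η us ev K k a b with hfb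
    set fs : ℤ → ℤ → ℝ := fun a b =>
      (if st A c ξ η us ev K (k + 1) (a / 2) (b / 2) ≠ none ∧
        st A c ξ η us ev K k a b = none then (4 : ℝ) ^ k else 0) +
        sA A c ξ η us ev K k a b with hfs
    set fe : ℤ → ℤ → ℝ := fun a b =>
      (if ev k a b then E2 (iv k a) (iv k b) (A k) else 0) + evE A ev k a b with hfe
    have e : (ch4 n m fun a b => E2 (iv k a) (iv k b) (RsH A c ξ η us ev K (k + 1))) +
        (ch4 n m fe + 4 * Λ * (ch4 n m fb + ch4 n m fs)) = ch4 n m fun a b =>
        E2 (iv k a) (iv k b) (RsH A c ξ η us ev K (k + 1)) +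
          (fe a b + 4 * Λ * (fb a b + fs a b)) := by
      unfold ch4; ring
    rw [e]
    refine ch4_mono fun a b ha hb => ?_
    have hB : BH A c ξ η us ev K (k + 1) = RsH A c ξ η us ev K (k + 1) :=
      BH_pos (Nat.succ_ne_zero k)
    rw [hB]
    have h4 : (0 : ℝ) < 4 ^ k := by positivity
    have b0 := bA_nonneg (A := A) (c := c) (ξ := ξ) (η := η) (us := us) (ev := ev) (K := K) k a b
    have s0 := sA_nonneg (A := A) (c := c) (ξ := ξ) (η := η) (us := us) (ev := ev) (K := K) k a b
    have e0 := evE_nonneg (A := A) (ev := ev) k a b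
    have ib : (0 : ℝ) ≤ if st A c ξ η us ev K k a b = some k then (4 : ℝ) ^ k else 0 := by
      split_ifs <;> positivity
    have is : (0 : ℝ) ≤ if st A c ξ η us ev K (k + 1) (a / 2) (b / 2) ≠ none ∧
        st A c ξ η us ev K k a b = none then (4 : ℝ) ^ k else 0 := by
      split_ifs <;> positivity
    have ie : (0 : ℝ) ≤ if ev k a b then E2 (iv k a) (iv k b) (A k) else 0 := by
      split_ifs
      · exact E2_nonneg _ _ _
      · exact le_rfl
    have efb : fb a b = (if st A c ξ η us ev K k a b = some k then (4 : ℝ) ^ k else 0) +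
        bA A c ξ η us ev K k a b := rfl
    have efs : fs a b = (if st A c ξ η us ev K (k + 1) (a / 2) (b / 2) ≠ none ∧
        st A c ξ η us ev K k a b = none then (4 : ℝ) ^ k else 0) +
        sA A c ξ η us ev K k a b := rfl
    have efe : fe a b = (if ev k a b then E2 (iv k a) (iv k b) (A k) else 0) +
        evE A ev k a b := rfl
    have hbs : bA A c ξ η us ev K k a b + sA A c ξ η us ev K k a b ≤ fb a b + fs a b := by
      rw [efb, efs]; linarith
    have hbs4 := mul_le_mul_of_nonneg_left hbs (by positivity : 0 ≤ 4 * Λ)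
    by_cases hk0 : k = 0
    · subst hk0
      have hQ : QH A c ξ η us ev K 0 a b := Or.inl rfl
      rw [if_pos hQ, sumd_zero, add_zero]
      have h5 : 0 ≤ 4 * Λ * (bA A c ξ η us ev K 0 a b + sA A c ξ η us ev K 0 a b) :=
        mul_nonneg (by positivity) (add_nonneg b0 s0)
      have h6 : 0 ≤ fe a b := by rw [efe]; linarith
      linarith
    · have h1 := ih' a b
      by_cases he : ev k a b
      · have hQ : QH A c ξ η us ev K k a b := Or.inr (Or.inl he)
        rw [if_pos hQ]
        -- the new residual at an event square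
        have h5 : E2 (iv k a) (iv k b) (RsH A c ξ η us ev K k) ≤
            E2 (iv k a) (iv k b) (A k) := by
          rcases Option.eq_none_or_eq_some (st A c ξ η us ev K k a b) with hs | ⟨r, hs⟩
          · rw [E2_RsH_none hs]
          · have hr : r = k := by
              by_contra hr
              exact (st_inherit hkK hs hr).2 he
            rw [hr] at hs
            exact E2_RsH_birth hc hs
        have h6 : fe a b = E2 (iv k a) (iv k b) (A k) + evE A ev k a b := by
          rw [efe, if_pos he]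
        linarith
      · by_cases hE : st A c ξ η us ev K k a b = st A c ξ η us ev K (k + 1) (a / 2) (b / 2)
        · have hQ : ¬ QH A c ξ η us ev K k a b := fun h => h.elim hk0 fun h' =>
            h'.elim he fun h'' => h'' hE
          have h5 : E2 (iv k a) (iv k b) (RsH A c ξ η us ev K (k + 1)) =
              E2 (iv k a) (iv k b) (RsH A c ξ η us ev K k) :=
            E2_congr fun x hx y hy => (RsH_step hev he hE hx hy).symm
          rw [if_neg hQ, h5, zero_add]
          have h6 : evE A ev k a b ≤ fe a b := by rw [efe]; linarith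
          linarith
        · have hQ : QH A c ξ η us ev K k a b := Or.inr (Or.inr hE)
          rw [if_pos hQ]
          have h6 : evE A ev k a b ≤ fe a b := by rw [efe]; linarith
          -- the energy of the new residual and the indicator
          have h5 : E2 (iv k a) (iv k b) (RsH A c ξ η us ev K k) ≤ 4 * Λ * 4 ^ k ∧
              (4 : ℝ) ^ k + (bA A c ξ η us ev K k a b + sA A c ξ η us ev K k a b) ≤
                fb a b + fs a b := by
            rcases Option.eq_none_or_eq_some (st A c ξ η us ev K k a b) with hs | ⟨r, hs⟩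
            · have hp : st A c ξ η us ev K (k + 1) (a / 2) (b / 2) ≠ none :=
                fun h => hE (by rw [hs, h])
              refine ⟨?_, ?_⟩
              · rw [E2_RsH_none hs, E2_congr (V := A k) (W := A (k + 1)) (hev k a b he)]
                have h6 := alive_energy (A := A) (c := c) (ξ := ξ) (η := η) (us := us) (ev := ev)
                  (by omega : k + 1 ≤ K) hp
                refine (E2_child_le (A (k + 1)) k a b).trans
                  ((hA _ _ _ h6.1).trans (le_of_eq ?_))
                rw [pow_succ]; ring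
              · have i1 : (if st A c ξ η us ev K (k + 1) (a / 2) (b / 2) ≠ none ∧
                    st A c ξ η us ev K k a b = none then (4 : ℝ) ^ k else 0) = 4 ^ k :=
                  if_pos ⟨hp, hs⟩
                rw [efb, efs, i1]
                linarith
            · have hr : r = k := by
                by_contra hr
                exact hE (by rw [hs, (st_inherit hkK hs hr).1])
              rw [hr] at hs
              refine ⟨?_, ?_⟩
              · have h6 := alive_energy (A := A) (c := c) (ξ := ξ) (η := η) (us := us) (ev := ev)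
                  (by omega : k ≤ K) (by rw [hs]; simp : st A c ξ η us ev K k a b ≠ none)
                refine (E2_RsH_birth hc hs).trans ((hA _ _ _ h6.1).trans ?_)
                nlinarith [mul_nonneg hΛ h4.le]
              · have i1 : (if st A c ξ η us ev K k a b = some k then (4 : ℝ) ^ k else 0) =
                    4 ^ k := if_pos hs
                rw [efb, efs, i1]
                linarith
          have h7 := mul_le_mul_of_nonneg_left h5.2 (by positivity : 0 ≤ 4 * Λ)
          linarith [h5.1]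

/-- **The power of the residual path.** -/
theorem pwr_H (hc : 0 ≤ c) (hξ : 0 < ξ) (hη : 0 < η)
    (hus : ∀ k n m, us k n m → us (k + 1) (n / 2) (m / 2))
    (hev : ∀ k n m, ¬ ev k n m → ∀ x ∈ iv k n, ∀ y ∈ iv k m, A k x y = A (k + 1) x y)
    {Λ : ℝ} (hΛ : 0 ≤ Λ)
    (hA : ∀ k n m, us k n m → E2 (iv k n) (iv k m) (A k) ≤ Λ * 4 ^ k) {R S : ℤ} (hu : us K R S) :
    pwr K R S (QH A c ξ η us ev K) (BH A c ξ η us ev K) ≤
      Λ * (5 + 8 * Λ * (1 / η + 2 / ξ)) * 4 ^ K +
        (1 + 8 * Λ * (1 / η + 2 / ξ)) * evE A ev K R S := by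
  classical
  have h1 := sumd_H (A := A) (c := c) (ξ := ξ) (η := η) (us := us) (ev := ev) hc hΛ hev hA
    K le_rfl R S
  have h2 : pwr K R S (QH A c ξ η us ev K) (BH A c ξ η us ev K) =
      sumd (fun j a b => if QH A c ξ η us ev K j a b then
      E2 (iv j a) (iv j b) (BH A c ξ η us ev K (j + 1)) else 0) K R S := by
    unfold pwr sumd sqQ
    refine sum_congr rfl fun k _ => ?_
    rw [sum_comm]
    refine sum_congr rfl fun a _ => sum_congr rfl fun b _ => ?_
    rw [sqb_eq_E2]
  rw [h2]
  refine h1.trans ?_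
  have hE := hA K R S hu
  have h3 : E2 (iv K R) (iv K S) (RsH A c ξ η us ev K K) ≤ Λ * 4 ^ K := by
    rcases Option.eq_none_or_eq_some (st A c ξ η us ev K K R S) with hs | ⟨r, hs⟩
    · rw [E2_RsH_none hs]; exact hE
    · have hb := st_bounds le_rfl R S hs
      have hr : r = K := by omega
      rw [hr] at hs
      exact (E2_RsH_birth hc hs).trans hE
  have h4 := births_le (A := A) (c := c) (K := K) hc hξ hη hus hev R S
  have h5 := stops_le (A := A) (c := c) (ξ := ξ) (η := η) (us := us) (ev := ev) K le_rfl R S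
  have hC : (0 : ℝ) ≤ 1 / η + 2 / ξ := by positivity
  have h6 := mul_le_mul_of_nonneg_left hE hC
  have h7 : bA A c ξ η us ev K K R S ≤
      (1 / η + 2 / ξ) * (Λ * 4 ^ K) + (1 / η + 2 / ξ) * evE A ev K R S := by
    have : (0 : ℝ) ≤ if st A c ξ η us ev K K R S = some K then (4 : ℝ) ^ K else 0 := by
      split_ifs <;> positivity
    linarith
  have h8 : sA A c ξ η us ev K K R S ≤ 4 ^ K + bA A c ξ η us ev K K R S := by
    refine h5.trans (add_le_add ?_ le_rfl)
    split_ifs
    · positivity
    · exact le_rfl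
  have h9 : bA A c ξ η us ev K K R S + sA A c ξ η us ev K K R S ≤
      4 ^ K + 2 * ((1 / η + 2 / ξ) * (Λ * 4 ^ K) + (1 / η + 2 / ξ) * evE A ev K R S) := by
    linarith
  have h10 := mul_le_mul_of_nonneg_left h9 (by positivity : 0 ≤ 4 * Λ)
  have e : Λ * (5 + 8 * Λ * (1 / η + 2 / ξ)) * 4 ^ K +
        (1 + 8 * Λ * (1 / η + 2 / ξ)) * evE A ev K R S = Λ * 4 ^ K + (evE A ev K R S +
      4 * Λ * (4 ^ K + 2 * ((1 / η + 2 / ξ) * (Λ * 4 ^ K) +
        (1 / η + 2 / ξ) * evE A ev K R S))) := by ring
  rw [e]
  linarith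

end

end Vale.Agent.P141.H150.Mv
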