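import Vale.Agent.P141.H150.Mv23
import Vale.Agent.P141.H865.Ker
import Vale.Agent.P141.H540.Lift

/-!
# P141, line W, end lemma: the numbers of the plane kernel in the letters of `H865.Ker`

* `kA_eq23`, `evO_eq23`: `kA B G θ = A23 …`, `evO B ex θ = ev23 …`;
* `hNE_of`: root energy plus event energies of one birth, the hypothesis `hNE` of `rpart_num`;
* `hNE_cu`: the same for the static slot cut by the used cells, the gauge in the form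
  `cu ud F k (ln (q0 * x0) q2 q3 x y)`;
* `births_of`, `births_cu`: the births.
-/

namespace Vale.Agent.P141.H150.Mv

open Finset Vale.Agent.P141.PL Vale.Agent.P141.PL.H317
open Vale.Agent.P141.H443 (E2 E2_nonneg cu evx xc Cells)
open Vale.Agent.P141.H585 (VC sd23 rC thC thC_nonneg)
open Vale.Agent.P141.H911 (Th)
open Vale.Agent.P141.H865 (Bth kA evO)
open Vale.Agent.P141.H540 (ln)
open Vale.Agent.P141.PL.H315 (Tri)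

noncomputable section

theorem kA_eq23 (B : Bth) (G : ℕ → ℤ → ℤ → ℝ) (θ : Pt) :
    kA B G θ = A23 B.K B.q B.th B.S1 B.S2 B.S3 B.v G θ := rfl

theorem evO_eq23 (B : Bth) (ex : ℕ → ℤ → ℤ → Prop) (θ : Pt) :
    evO B ex θ = ev23 B.K B.th B.S2 B.S3 ex θ := rfl

variable {κ : ℝ} {c : Pt} {u : Tri} {B : Bth} {X0 : Finset ℤ} {R S : ℤ}
  {G : ℤ → ℕ → ℤ → ℤ → ℝ} {ex : ℤ → ℕ → ℤ → ℤ → Prop} {Λ nL nD : ℝ}

/-- **Root energy plus event energies of one birth.** -/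
theorem hNE_of (g : Gau B.K R S X0 G ex Λ (nL * 2 ^ B.K) (nD * 2 ^ B.K)) (hc : c.1 ≠ 0)
    (hc3 : c.2.2 ≠ 0) (hκ : 0 < κ) (hth : 0 ≤ B.th) (hv : VC κ B.K B.q u B.v B.S1 B.S2 B.S3)
    (p : Pt) :
    ∑ θ ∈ Th c B.K p B.q, ∑ x0 ∈ X0,
      (E2 (iv B.K R) (iv B.K S) (kA B (G x0) θ B.K) +
        evE (kA B (G x0) θ) (evO B (ex x0) θ) B.K R S) ≤
      (nL + nD + 192 * nL / κ ^ 8) * (32 ^ B.K * sd23 B.K B.q u ^ 2) := by
  refine (g.sum (p := p) hc hc3 hκ hth hv).trans (le_of_eq ?_)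
  unfold M23
  rw [show (32 : ℝ) = 16 * 2 by norm_num, mul_pow]
  ring

/-- **The births of one birth atom**, all offsets, all `x0`. -/
theorem births_of (g : Gau B.K R S X0 G ex Λ (nL * 2 ^ B.K) (nD * 2 ^ B.K)) (hc : c.1 ≠ 0)
    (hc3 : c.2.2 ≠ 0) (hκ : 0 < κ) (hth : 0 ≤ B.th) (hv : VC κ B.K B.q u B.v B.S1 B.S2 B.S3)
    (hcp : 0 ≤ B.cp) {τ : ℝ} (hτ : 0 < τ) (hxi : B.xi = τ ^ 2 / 4) (het : B.et = τ ^ 2 / 4)
    (p : Pt) :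
    ∑ θ ∈ Th c B.K p B.q, ∑ x0 ∈ X0,
      bT (kA B (G x0) θ) B.cp B.xi B.et (fun _ _ _ => True) (evO B (ex x0) θ) B.K R S ≤
      12 / τ ^ 2 * ((nL + nD + 192 * nL / κ ^ 8) * (32 ^ B.K * sd23 B.K B.q u ^ 2)) := by
  rw [hxi, het]
  refine (births23 (p := p) g hc hc3 hκ hth hv hcp hτ).trans (le_of_eq ?_)
  unfold M23
  rw [show (32 : ℝ) = 16 * 2 by norm_num, mul_pow]
  ring

section

variable {s : ℤ} {ud : ℕ → ℤ → Prop} {N : ℕ} {F : ℤ → ℝ} {C : ℝ} {q0 q2 q3 r0 : ℤ}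

/-- the cut static slot in the letters of the lines -/
theorem gau_ln {K c0 : ℕ} (H : Cells c0 s ud N F C) (hC : 0 ≤ C) (hK : K ≤ N) (h0 : q0 ≠ 0)
    (h3 : q3 ≠ 0) (b0 : |q0| ≤ 2 ^ c0) (b23 : |q2| + |q3| ≤ 2 ^ c0) (hX : X0 ⊆ iv K r0)
    (R S : ℤ) :
    Gau K R S X0 (fun x0 k x y => cu ud F k (ln (q0 * x0) q2 q3 x y))
      (fun x0 k n m => N ≤ k ∨ ∃ x ∈ iv k n, ∃ y ∈ iv k m, xc ud k (ln (q0 * x0) q2 q3 x y))
      (2 * C * 2 ^ c0) (2 * C * 2 ^ c0 * 2 ^ K) (12 * C * 2 ^ c0 * 2 ^ K) := by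
  have h := gau_cu (s0 := 0) H hC hK h0 h3 b0 b23 hX R S
  have e1 : gcu ud F 0 q0 q2 q3 = fun x0 k x y => cu ud F k (ln (q0 * x0) q2 q3 x y) := by
    funext x0 k x y
    unfold gcu ln
    rw [zero_add]
  have e2 : excu N ud 0 q0 q2 q3 = fun x0 k n m =>
      N ≤ k ∨ ∃ x ∈ iv k n, ∃ y ∈ iv k m, xc ud k (ln (q0 * x0) q2 q3 x y) := by
    funext x0 k n m
    unfold excu evx ln
    rw [zero_add]
  rw [e1, e2] at h
  have e3 : 2 * C * 2 ^ (K + c0) = 2 * C * 2 ^ c0 * 2 ^ K := by rw [pow_add]; ring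
  have e4 : 12 * C * 2 ^ (K + c0) = 12 * C * 2 ^ c0 * 2 ^ K := by rw [pow_add]; ring
  rw [e3, e4] at h
  exact h

/-- the number of a birth for the cut static slot -/
def nE (κ C : ℝ) : ℝ := 50944 * C / κ ^ 8

theorem nE_nonneg {C : ℝ} (hC : 0 ≤ C) : 0 ≤ nE κ C := by unfold nE; positivity

theorem nE_ge (hκ : 0 < κ) (hκ1 : κ ≤ 1) (hC : 0 ≤ C) :
    2 * C * 2 ^ 7 + 12 * C * 2 ^ 7 + 192 * (2 * C * 2 ^ 7) / κ ^ 8 ≤ nE κ C := by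
  have h8 : κ ^ 8 ≤ 1 := pow_le_one₀ hκ.le hκ1
  have h8' : 0 < κ ^ 8 := by positivity
  unfold nE
  rw [le_div_iff₀ h8', add_mul, div_mul_cancel₀ _ h8'.ne']
  nlinarith

/-- **Root energy plus event energies of one birth**, cut static slot, cells of `2 ^ (k + 7)`. -/
theorem hNE_cu (H : Cells 7 s ud N F C) (hC : 0 ≤ C) (hK : B.K ≤ N) (h0 : q0 ≠ 0)
    (h3 : q3 ≠ 0) (b0 : |q0| ≤ 2 ^ 7) (b23 : |q2| + |q3| ≤ 2 ^ 7) (hX : X0 ⊆ iv B.K r0)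
    (hc : c.1 ≠ 0) (hc3 : c.2.2 ≠ 0) (hκ : 0 < κ) (hκ1 : κ ≤ 1) (hth : 0 ≤ B.th)
    (hv : VC κ B.K B.q u B.v B.S1 B.S2 B.S3) (p : Pt) (R S : ℤ) :
    ∑ θ ∈ Th c B.K p B.q, ∑ x0 ∈ X0,
      (E2 (iv B.K R) (iv B.K S)
          (kA B (fun k x y => cu ud F k (ln (q0 * x0) q2 q3 x y)) θ B.K) +
        evE (kA B (fun k x y => cu ud F k (ln (q0 * x0) q2 q3 x y)) θ)
          (evO B (fun k n m => N ≤ k ∨ ∃ x ∈ iv k n, ∃ y ∈ iv k m,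
            xc ud k (ln (q0 * x0) q2 q3 x y)) θ) B.K R S) ≤
      nE κ C * (32 ^ B.K * sd23 B.K B.q u ^ 2) := by
  refine (hNE_of (gau_ln H hC hK h0 h3 b0 b23 hX R S) hc hc3 hκ hth hv p).trans ?_
  exact mul_le_mul_of_nonneg_right (nE_ge hκ hκ1 hC) (by positivity)

/-- **The births of one birth atom**, cut static slot. -/
theorem births_cu (H : Cells 7 s ud N F C) (hC : 0 ≤ C) (hK : B.K ≤ N) (h0 : q0 ≠ 0)
    (h3 : q3 ≠ 0) (b0 : |q0| ≤ 2 ^ 7) (b23 : |q2| + |q3| ≤ 2 ^ 7) (hX : X0 ⊆ iv B.K r0)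
    (hc : c.1 ≠ 0) (hc3 : c.2.2 ≠ 0) (hκ : 0 < κ) (hκ1 : κ ≤ 1) (hth : 0 ≤ B.th)
    (hv : VC κ B.K B.q u B.v B.S1 B.S2 B.S3) (hcp : 0 ≤ B.cp) {τ : ℝ} (hτ : 0 < τ)
    (hxi : B.xi = τ ^ 2 / 4) (het : B.et = τ ^ 2 / 4) (p : Pt) (R S : ℤ) :
    ∑ θ ∈ Th c B.K p B.q, ∑ x0 ∈ X0,
      bT (kA B (fun k x y => cu ud F k (ln (q0 * x0) q2 q3 x y)) θ) B.cp B.xi B.et
        (fun _ _ _ => True)
        (evO B (fun k n m => N ≤ k ∨ ∃ x ∈ iv k n, ∃ y ∈ iv k m,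
          xc ud k (ln (q0 * x0) q2 q3 x y)) θ) B.K R S ≤
      12 / τ ^ 2 * (nE κ C * (32 ^ B.K * sd23 B.K B.q u ^ 2)) := by
  refine (births_of (gau_ln H hC hK h0 h3 b0 b23 hX R S) hc hc3 hκ hth hv hcp hτ hxi het
    p).trans ?_
  refine mul_le_mul_of_nonneg_left ?_ (by positivity)
  exact mul_le_mul_of_nonneg_right (nE_ge hκ hκ1 hC) (by positivity)

end

end

end Vale.Agent.P141.H150.Mv
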