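import Vale.Agent.P141.H443.Frame

/-!
# P141, line W, end lemma: the plane process with an energy level, moving kernel

The kernel `A k` may change at the event squares `ev k n m` (`A k = A (k + 1)` on the other
squares of scale `k`).  State of a square: `none` (nothing is alive, the residual is `A k`) or
`some r` (the frames of the ancestor of scale `r`, for the kernel `A r`, are alive).  At an event
square the state is taken fresh.
-/

namespace Vale.Agent.P141.H150.Mv

open Finset Vale.Agent.P141.PL Vale.Agent.P141.PL.H317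
open Vale.Agent.P141.H736 Vale.Agent.P141.H958 Vale.Agent.P141.H443

noncomputable section

open Classical in
/-- the state of a square when the state of the parent is `p` -/
def stp (A : ℕ → ℤ → ℤ → ℝ) (c ξ η : ℝ) (us ev : ℕ → ℤ → ℤ → Prop) (k : ℕ) (n m : ℤ)
    (p : Option ℕ) : Option ℕ :=
  if us k n m ∧ η * 4 ^ k ≤ E2 (iv k n) (iv k m) (A k) then
    Option.elim (if ev k n m then none else p)
      (if 2 * η * 4 ^ k ≤ E2 (iv k n) (iv k m) (A k) then some k else none)
      fun r => if ξ * 4 ^ k ≤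
          E2 (iv k n) (iv k m) (fun x y => Um (A k) c k n m x y - Ug (A r) c r x y)
        then some k else some r
  else none

/-- the states after `j` steps -/
def sts (A : ℕ → ℤ → ℤ → ℝ) (c ξ η : ℝ) (us ev : ℕ → ℤ → ℤ → Prop) (K : ℕ) (j : ℕ) :
    ℤ → ℤ → Option ℕ :=
  Nat.rec (fun n m => stp A c ξ η us ev K n m none)
    (fun i p n m => stp A c ξ η us ev (K - (i + 1)) n m (p (n / 2) (m / 2))) j

/-- **The state** of the square `(k; n, m)`, `k ≤ K`. -/
def st (A : ℕ → ℤ → ℤ → ℝ) (c ξ η : ℝ) (us ev : ℕ → ℤ → ℤ → Prop) (K k : ℕ) (n m : ℤ) :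
    Option ℕ :=
  sts A c ξ η us ev K (K - k) n m

variable {A : ℕ → ℤ → ℤ → ℝ} {c ξ η : ℝ} {us ev : ℕ → ℤ → ℤ → Prop} {K : ℕ}

theorem st_top (n m : ℤ) : st A c ξ η us ev K K n m = stp A c ξ η us ev K n m none := by
  unfold st
  rw [Nat.sub_self]
  rfl

theorem st_step {k : ℕ} (hk : k < K) (n m : ℤ) :
    st A c ξ η us ev K k n m =
      stp A c ξ η us ev k n m (st A c ξ η us ev K (k + 1) (n / 2) (m / 2)) := by
  unfold st
  have h1 : K - k = (K - (k + 1)) + 1 := by omega
  have h2 : K - ((K - (k + 1)) + 1) = k := by omega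
  rw [h1]
  show stp A c ξ η us ev (K - ((K - (k + 1)) + 1)) n m _ = _
  rw [h2]
  rfl

/-- the four cases of one step -/
theorem stp_cases (k : ℕ) (n m : ℤ) (p : Option ℕ) :
    (stp A c ξ η us ev k n m p = none ∧
      ¬ (us k n m ∧ η * 4 ^ k ≤ E2 (iv k n) (iv k m) (A k))) ∨
    (stp A c ξ η us ev k n m p = none ∧ (p = none ∨ ev k n m) ∧ us k n m ∧
      E2 (iv k n) (iv k m) (A k) < 2 * η * 4 ^ k) ∨
    (stp A c ξ η us ev k n m p = some k ∧ us k n m ∧ η * 4 ^ k ≤ E2 (iv k n) (iv k m) (A k) ∧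
      (((p = none ∨ ev k n m) ∧ 2 * η * 4 ^ k ≤ E2 (iv k n) (iv k m) (A k)) ∨
        ∃ r, p = some r ∧ ¬ ev k n m ∧ ξ * 4 ^ k ≤
          E2 (iv k n) (iv k m) (fun x y => Um (A k) c k n m x y - Ug (A r) c r x y))) ∨
    (∃ r, stp A c ξ η us ev k n m p = some r ∧ p = some r ∧ ¬ ev k n m ∧ us k n m ∧
      η * 4 ^ k ≤ E2 (iv k n) (iv k m) (A k) ∧
      E2 (iv k n) (iv k m) (fun x y => Um (A k) c k n m x y - Ug (A r) c r x y) < ξ * 4 ^ k) := by
  unfold stp
  by_cases h : us k n m ∧ η * 4 ^ k ≤ E2 (iv k n) (iv k m) (A k)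
  · rw [if_pos h]
    by_cases he : ev k n m
    · rw [if_pos he, Option.elim_none]
      by_cases h2 : 2 * η * 4 ^ k ≤ E2 (iv k n) (iv k m) (A k)
      · rw [if_pos h2]
        exact Or.inr (Or.inr (Or.inl ⟨rfl, h.1, h.2, Or.inl ⟨Or.inr he, h2⟩⟩))
      · rw [if_neg h2]
        exact Or.inr (Or.inl ⟨rfl, Or.inr he, h.1, not_le.1 h2⟩)
    · rw [if_neg he]
      cases p with
      | none =>
        rw [Option.elim_none]
        by_cases h2 : 2 * η * 4 ^ k ≤ E2 (iv k n) (iv k m) (A k)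
        · rw [if_pos h2]
          exact Or.inr (Or.inr (Or.inl ⟨rfl, h.1, h.2, Or.inl ⟨Or.inl rfl, h2⟩⟩))
        · rw [if_neg h2]
          exact Or.inr (Or.inl ⟨rfl, Or.inl rfl, h.1, not_le.1 h2⟩)
      | some r =>
        rw [Option.elim_some]
        by_cases h2 : ξ * 4 ^ k ≤
            E2 (iv k n) (iv k m) (fun x y => Um (A k) c k n m x y - Ug (A r) c r x y)
        · rw [if_pos h2]
          exact Or.inr (Or.inr (Or.inl ⟨rfl, h.1, h.2, Or.inr ⟨r, rfl, he, h2⟩⟩))
        · rw [if_neg h2]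
          exact Or.inr (Or.inr (Or.inr ⟨r, rfl, rfl, he, h.1, h.2, not_le.1 h2⟩))
  · rw [if_neg h]
    exact Or.inl ⟨rfl, h⟩

/-- every state is a step -/
theorem st_eq_stp {k : ℕ} (hk : k ≤ K) (n m : ℤ) :
    ∃ p, st A c ξ η us ev K k n m = stp A c ξ η us ev k n m p := by
  rcases hk.eq_or_lt with rfl | h
  · exact ⟨none, st_top n m⟩
  · exact ⟨_, st_step h n m⟩

theorem st_bounds {k : ℕ} (hk : k ≤ K) (n m : ℤ) {r : ℕ}
    (h : st A c ξ η us ev K k n m = some r) : k ≤ r ∧ r ≤ K := by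
  have key : ∀ d k, k + d = K → ∀ n m r, st A c ξ η us ev K k n m = some r → k ≤ r ∧ r ≤ K := by
    intro d
    induction d with
    | zero =>
      intro k hk n m r h
      have : k = K := by omega
      subst this
      rw [st_top] at h
      rcases stp_cases (A := A) (c := c) (ξ := ξ) (η := η) (us := us) (ev := ev) k n m none with
        h1 | h1 | h1 | ⟨r', h1⟩
      · rw [h1.1] at h; exact absurd h (by simp)
      · rw [h1.1] at h; exact absurd h (by simp)
      · rw [h1.1] at h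
        simp only [Option.some.injEq] at h
        omega
      · exact absurd h1.2.1 (by simp)
    | succ d ih =>
      intro k hk n m r h
      have hlt : k < K := by omega
      rw [st_step hlt] at h
      rcases stp_cases (A := A) (c := c) (ξ := ξ) (η := η) (us := us) (ev := ev) k n m
        (st A c ξ η us ev K (k + 1) (n / 2) (m / 2)) with h1 | h1 | h1 | ⟨r', h1⟩
      · rw [h1.1] at h; exact absurd h (by simp)
      · rw [h1.1] at h; exact absurd h (by simp)
      · rw [h1.1] at h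
        simp only [Option.some.injEq] at h
        omega
      · rw [h1.1] at h
        simp only [Option.some.injEq] at h
        subst h
        have := ih (k + 1) (by omega) _ _ _ h1.2.1
        omega
  exact key (K - k) k (by omega) n m r h

/-- **An alive square is used and has a large current energy.** -/
theorem alive_energy {k : ℕ} (hk : k ≤ K) {n m : ℤ} (h : st A c ξ η us ev K k n m ≠ none) :
    us k n m ∧ η * 4 ^ k ≤ E2 (iv k n) (iv k m) (A k) := by
  obtain ⟨p, hp⟩ := st_eq_stp (A := A) (c := c) (ξ := ξ) (η := η) (us := us) (ev := ev) hk n m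
  rw [hp] at h
  rcases stp_cases (A := A) (c := c) (ξ := ξ) (η := η) (us := us) (ev := ev) k n m p with
    h1 | h1 | h1 | ⟨r, h1⟩
  · exact absurd h1.1 h
  · exact absurd h1.1 h
  · exact ⟨h1.2.1, h1.2.2.1⟩
  · exact ⟨h1.2.2.2.1, h1.2.2.2.2.1⟩

/-- a used square which is not alive has a small energy -/
theorem dead_energy {k : ℕ} (hk : k ≤ K) {n m : ℤ} (hη : 0 ≤ η) (hu : us k n m)
    (h : st A c ξ η us ev K k n m = none) : E2 (iv k n) (iv k m) (A k) ≤ 2 * η * 4 ^ k := by
  have h4 : 0 ≤ η * 4 ^ k := by positivity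
  obtain ⟨p, hp⟩ := st_eq_stp (A := A) (c := c) (ξ := ξ) (η := η) (us := us) (ev := ev) hk n m
  rw [hp] at h
  rcases stp_cases (A := A) (c := c) (ξ := ξ) (η := η) (us := us) (ev := ev) k n m p with
    h1 | h1 | h1 | ⟨r, h1⟩
  · have h2 : E2 (iv k n) (iv k m) (A k) < η * 4 ^ k := by
      by_contra h'
      exact h1.2 ⟨hu, not_lt.1 h'⟩
    linarith
  · exact h1.2.2.2.le
  · rw [h1.1] at h; exact absurd h (by simp)
  · rw [h1.1] at h; exact absurd h (by simp)

/-- a state `some r` with `r` not the scale of the square is inherited, there is no event -/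
theorem st_inherit {k : ℕ} (hk : k < K) {n m : ℤ} {r : ℕ}
    (h : st A c ξ η us ev K k n m = some r) (hr : r ≠ k) :
    st A c ξ η us ev K (k + 1) (n / 2) (m / 2) = some r ∧ ¬ ev k n m := by
  rw [st_step hk] at h
  rcases stp_cases (A := A) (c := c) (ξ := ξ) (η := η) (us := us) (ev := ev) k n m
    (st A c ξ η us ev K (k + 1) (n / 2) (m / 2)) with h1 | h1 | h1 | ⟨r', h1⟩
  · rw [h1.1] at h; exact absurd h (by simp)
  · rw [h1.1] at h; exact absurd h (by simp)
  · rw [h1.1] at h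
    simp only [Option.some.injEq] at h
    exact absurd h.symm hr
  · rw [h1.1] at h
    rw [h1.2.1, h]
    exact ⟨rfl, h1.2.2.1⟩

/-- the reference is close to the minimiser -/
theorem close_H (hξ : 0 < ξ) {k : ℕ} (hk : k ≤ K) {n m : ℤ} {r : ℕ}
    (h : st A c ξ η us ev K k n m = some r) :
    E2 (iv k n) (iv k m) (fun x y => Um (A k) c k n m x y - Ug (A r) c r x y) ≤ ξ * 4 ^ k := by
  have self : E2 (iv k n) (iv k m) (fun x y => Um (A k) c k n m x y - Ug (A k) c k x y) ≤
      ξ * 4 ^ k := by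
    have : E2 (iv k n) (iv k m) (fun x y => Um (A k) c k n m x y - Ug (A k) c k x y) = 0 := by
      unfold E2
      refine sum_eq_zero fun x hx => sum_eq_zero fun y hy => ?_
      show (Um (A k) c k n m x y - Ug (A k) c k x y) ^ 2 = 0
      rw [Ug_eq (A k) c hx hy]; ring
    rw [this]; positivity
  obtain ⟨p, hp⟩ := st_eq_stp (A := A) (c := c) (ξ := ξ) (η := η) (us := us) (ev := ev) hk n m
  rw [hp] at h
  rcases stp_cases (A := A) (c := c) (ξ := ξ) (η := η) (us := us) (ev := ev) k n m p with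
    h1 | h1 | h1 | ⟨r', h1⟩
  · rw [h1.1] at h; exact absurd h (by simp)
  · rw [h1.1] at h; exact absurd h (by simp)
  · rw [h1.1] at h
    simp only [Option.some.injEq] at h
    rw [← h]; exact self
  · rw [h1.1] at h
    simp only [Option.some.injEq] at h
    rw [← h]; exact h1.2.2.2.2.2.le

theorem ix_half {k : ℕ} {n x : ℤ} (hx : x ∈ iv k n) : ix (k + 1) x = n / 2 := by
  rw [← ix_ix k 1, mem_iv.1 hx]
  unfold ix; norm_num

theorem mem_half {k : ℕ} {n x : ℤ} (hx : x ∈ iv k n) : x ∈ iv (k + 1) (n / 2) :=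
  mem_iv.2 (ix_half hx)

/-- the kernel has not moved since the birth of the reference -/
theorem same_kernel (hev : ∀ k n m, ¬ ev k n m → ∀ x ∈ iv k n, ∀ y ∈ iv k m,
    A k x y = A (k + 1) x y) {k : ℕ} (hk : k ≤ K) {n m : ℤ} {r : ℕ}
    (h : st A c ξ η us ev K k n m = some r) {x y : ℤ} (hx : x ∈ iv k n) (hy : y ∈ iv k m) :
    A k x y = A r x y := by
  have key : ∀ d k, k + d = K → ∀ n m, st A c ξ η us ev K k n m = some r →
      x ∈ iv k n → y ∈ iv k m → A k x y = A r x y := by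
    intro d
    induction d with
    | zero =>
      intro k hk n m h _ _
      have hb := st_bounds (by omega : k ≤ K) n m h
      have : r = k := by omega
      rw [this]
    | succ d ih =>
      intro k hk n m h hx hy
      by_cases hr : r = k
      · rw [hr]
      · have h1 := st_inherit (by omega : k < K) h hr
        rw [hev k n m h1.2 x hx y hy]
        exact ih (k + 1) (by omega) _ _ h1.1 (mem_half hx) (mem_half hy)
  exact key (K - k) k (by omega) n m h hx hy

/-! ### The residual -/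

/-- the residual at scale `k` -/
def RsH (A : ℕ → ℤ → ℤ → ℝ) (c ξ η : ℝ) (us ev : ℕ → ℤ → ℤ → Prop) (K k : ℕ) (x y : ℤ) : ℝ :=
  Option.elim (st A c ξ η us ev K k (ix k x) (ix k y)) (A k x y) fun r => Ug (A r) c r x y

theorem RsH_none {k : ℕ} {n m x y : ℤ} (hx : x ∈ iv k n) (hy : y ∈ iv k m)
    (h : st A c ξ η us ev K k n m = none) : RsH A c ξ η us ev K k x y = A k x y := by
  unfold RsH
  rw [mem_iv.1 hx, mem_iv.1 hy, h]
  rfl

theorem RsH_some {k : ℕ} {n m x y : ℤ} (hx : x ∈ iv k n) (hy : y ∈ iv k m) {r : ℕ}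
    (h : st A c ξ η us ev K k n m = some r) :
    RsH A c ξ η us ev K k x y = Ug (A r) c r x y := by
  unfold RsH
  rw [mem_iv.1 hx, mem_iv.1 hy, h]
  rfl

/-- nothing changes where there is no event and the state is the one of the parent -/
theorem RsH_step (hev : ∀ k n m, ¬ ev k n m → ∀ x ∈ iv k n, ∀ y ∈ iv k m,
    A k x y = A (k + 1) x y) {k : ℕ} {n m : ℤ} (he : ¬ ev k n m)
    (h : st A c ξ η us ev K k n m = st A c ξ η us ev K (k + 1) (n / 2) (m / 2)) {x y : ℤ}
    (hx : x ∈ iv k n) (hy : y ∈ iv k m) :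
    RsH A c ξ η us ev K k x y = RsH A c ξ η us ev K (k + 1) x y := by
  rcases Option.eq_none_or_eq_some (st A c ξ η us ev K k n m) with hs | ⟨r, hs⟩
  · rw [RsH_none hx hy hs, RsH_none (mem_half hx) (mem_half hy) (h.symm.trans hs)]
    exact hev k n m he x hx y hy
  · rw [RsH_some hx hy hs, RsH_some (mem_half hx) (mem_half hy) (h.symm.trans hs)]

theorem cap_mono' {k : ℕ} {n m : ℤ} {a S : ℝ} {V : ℤ → ℤ → ℝ} (ha : 0 ≤ a) (haS : a ≤ S)
    (hV : Cap k n m a V) : Cap k n m S V := by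
  intro u v
  have h1 := hV u v
  have h2 : (a * 2 ^ k) ^ 2 ≤ (S * 2 ^ k) ^ 2 :=
    pow_le_pow_left₀ (by positivity) (mul_le_mul_of_nonneg_right haS (by positivity)) 2
  refine h1.trans ?_
  have h3 : 0 ≤ ∑ x ∈ iv k n, u x ^ 2 := sum_nonneg fun _ _ => sq_nonneg _
  have h4 : 0 ≤ ∑ y ∈ iv k m, v y ^ 2 := sum_nonneg fun _ _ => sq_nonneg _
  exact mul_le_mul_of_nonneg_right (mul_le_mul_of_nonneg_right h2 h3) h4

/-- **The cap of the residual.** -/
theorem cap_RsH (hc : 0 < c) (hξ : 0 < ξ) (hη : 0 ≤ η) {k : ℕ} (hk : k ≤ K) {n m : ℤ}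
    (hu : us k n m) {s S : ℝ} (hs : 0 ≤ s) (hS : s + √ξ ≤ S) (hS' : √(2 * η) ≤ S)
    (hA : E2 (iv k n) (iv k m) (A k) ≤ c * s ^ 4 * 4 ^ k) :
    Cap k n m S (RsH A c ξ η us ev K k) := by
  rcases Option.eq_none_or_eq_some (st A c ξ η us ev K k n m) with h | ⟨r, h⟩
  · refine cap_mono' (Real.sqrt_nonneg _) hS' ?_
    refine cap_of_E2 ?_
    rw [Real.sq_sqrt (by positivity)]
    refine le_trans (le_of_eq ?_) (dead_energy hk hη hu h)
    exact E2_congr fun x hx y hy => RsH_none hx hy h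
  · refine cap_mono' (add_nonneg hs (Real.sqrt_nonneg _)) hS ?_
    have h1 := cap_Um hc hA
    have h2 : Cap k n m (√ξ) fun x y => Ug (A r) c r x y - Um (A k) c k n m x y := by
      refine cap_of_E2 ?_
      rw [Real.sq_sqrt hξ.le]
      refine le_trans (le_of_eq ?_) (close_H (A := A) (c := c) hξ hk h)
      unfold E2
      exact sum_congr rfl fun x _ => sum_congr rfl fun y _ => by ring
    refine cap_congr (fun x hx y hy => ?_) (cap_add' hs (Real.sqrt_nonneg ξ) h1 h2)
    rw [RsH_some hx hy h]; ring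

/-! ### The active components -/

/-- **the active components** of the square `(k; n, m)`; the functions of `i` are
`comA (A i.1) c i`, `comB (A i.1) c i` -/
def actH (A : ℕ → ℤ → ℤ → ℝ) (c ξ η : ℝ) (us ev : ℕ → ℤ → ℤ → Prop) (K k : ℕ) (n m : ℤ) :
    Finset (ℕ × ℤ × ℤ) :=
  Option.elim (st A c ξ η us ev K k n m) ∅ fun r => cset r (ix (r - k) n) (ix (r - k) m)

theorem actH_none {k : ℕ} {n m : ℤ} (h : st A c ξ η us ev K k n m = none) :
    actH A c ξ η us ev K k n m = ∅ := by
  unfold actH; rw [h]; rfl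

theorem actH_some {k : ℕ} {n m : ℤ} {r : ℕ} (h : st A c ξ η us ev K k n m = some r) :
    actH A c ξ η us ev K k n m = cset r (ix (r - k) n) (ix (r - k) m) := by
  unfold actH; rw [h]; rfl

/-- the scale of a component is the scale of its birth square -/
theorem actH_scale {k : ℕ} {n m : ℤ} {i : ℕ × ℤ × ℤ} (hi : i ∈ actH A c ξ η us ev K k n m) :
    st A c ξ η us ev K k n m = some i.1 := by
  rcases Option.eq_none_or_eq_some (st A c ξ η us ev K k n m) with h | ⟨r, h⟩
  · rw [actH_none h] at hi; exact absurd hi (notMem_empty _)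
  · have h' := h
    rw [actH_some h, mem_cset] at hi
    rw [h', hi.1]

/-- **The alive matrix is the sum of the active components.** -/
theorem aliveH_eq (hc : 0 ≤ c) (hev : ∀ k n m, ¬ ev k n m → ∀ x ∈ iv k n, ∀ y ∈ iv k m,
    A k x y = A (k + 1) x y) {k : ℕ} (hk : k ≤ K) {n m x y : ℤ} (hx : x ∈ iv k n)
    (hy : y ∈ iv k m) :
    A k x y - RsH A c ξ η us ev K k x y =
      ∑ i ∈ actH A c ξ η us ev K k n m, comA (A i.1) c i x * comB (A i.1) c i y := by
  rcases Option.eq_none_or_eq_some (st A c ξ η us ev K k n m) with h | ⟨r, h⟩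
  · rw [actH_none h, sum_empty, RsH_none hx hy h, sub_self]
  · have hb := st_bounds hk n m h
    have ex := ix_ref hb.1 hx
    have ey := ix_ref hb.1 hy
    have hx' : x ∈ iv r (ix (r - k) n) := mem_iv.2 ex
    have hy' : y ∈ iv r (ix (r - k) m) := mem_iv.2 ey
    rw [RsH_some hx hy h, Ug_eq (A r) c hx' hy', same_kernel hev hk h hx hy,
      frame_eq hc (A r) hx' hy', actH_some h, sum_cset]
    refine sum_congr rfl fun x' hx'' => ?_
    rw [comA_of_mem hx' hx'', comB_of_mem hy' hx'']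

theorem ix_succ_shift {r k : ℕ} (h : k < r) (n : ℤ) : ix (r - k) n = ix (r - (k + 1)) (n / 2) := by
  have h2 : r - k = 1 + (r - (k + 1)) := by omega
  rw [h2, ← ix_ix 1 (r - (k + 1)) n]
  have h3 : ix 1 n = n / 2 := by unfold ix; norm_num
  rw [h3]

/-- **Upwards closed until the birth.** -/
theorem actH_up {k : ℕ} (hk : k < K) {n m : ℤ} {i : ℕ × ℤ × ℤ}
    (hi : i ∈ actH A c ξ η us ev K k n m) (h : k < i.1) :
    i ∈ actH A c ξ η us ev K (k + 1) (n / 2) (m / 2) := by
  have h1 := actH_scale hi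
  have h2 := (st_inherit hk h1 (by omega)).1
  rw [actH_some h1] at hi
  rw [actH_some h2, ← ix_succ_shift h, ← ix_succ_shift h]
  exact hi

/-- the active set changes only where the state changes -/
theorem actH_inherit {k : ℕ} {n m : ℤ} {r : ℕ} (h : st A c ξ η us ev K k n m = some r)
    (hr : k < r) (h' : st A c ξ η us ev K (k + 1) (n / 2) (m / 2) = some r) :
    actH A c ξ η us ev K k n m = actH A c ξ η us ev K (k + 1) (n / 2) (m / 2) := by
  rw [actH_some h, actH_some h', ← ix_succ_shift hr, ← ix_succ_shift hr]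

/-! ### The masses: rows and columns of the kernel of the reference square -/

/-- **Mass of the first functions** of the active components. -/
theorem massA (hc : 0 ≤ c) {k : ℕ} (hk : k ≤ K) {n m : ℤ} {r : ℕ}
    (h : st A c ξ η us ev K k n m = some r) {J : Finset ℤ} (hJ : J ⊆ iv k n)
    {g : ℤ → ℝ} (hg : ∀ x ∈ J, 0 ≤ g x) :
    ∑ i ∈ actH A c ξ η us ev K k n m, ∑ x ∈ J, g x * comA (A i.1) c i x ^ 2 ≤
      c / 2 * ∑ x ∈ J, g x * ((2 ^ r : ℝ)⁻¹ * ∑ y ∈ iv r (ix (r - k) m), A r x y ^ 2) := by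
  have hb := st_bounds hk n m h
  rw [actH_some h, sum_cset, sum_comm, mul_sum]
  refine sum_le_sum fun x hx => ?_
  have hx' : x ∈ iv r (ix (r - k) n) := mem_iv.2 (ix_ref hb.1 (hJ hx))
  have h1 := fa_row hc (A r) (m := ix (r - k) m) hx'
  have h2 : ∑ x' ∈ iv r (ix (r - k) n), g x * comA (A r) c (r, x', ix (r - k) m) x ^ 2 =
      g x * ∑ x' ∈ iv r (ix (r - k) n), fa (A r) c r (ix (r - k) n) (ix (r - k) m) x' x ^ 2 := by
    rw [mul_sum]
    exact sum_congr rfl fun x' hx'' => by rw [comA_of_mem hx' hx'']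
  rw [h2]
  refine (mul_le_mul_of_nonneg_left h1 (hg x hx)).trans (le_of_eq ?_)
  ring

/-- **Mass of the second functions** of the active components. -/
theorem massB (hc : 0 ≤ c) {k : ℕ} (hk : k ≤ K) {n m : ℤ} {r : ℕ}
    (h : st A c ξ η us ev K k n m = some r) {J : Finset ℤ} (hJ : J ⊆ iv k m)
    {g : ℤ → ℝ} (hg : ∀ y ∈ J, 0 ≤ g y) :
    ∑ i ∈ actH A c ξ η us ev K k n m, ∑ y ∈ J, g y * comB (A i.1) c i y ^ 2 ≤
      ∑ y ∈ J, g y * ((2 ^ r : ℝ)⁻¹ * ∑ x ∈ iv r (ix (r - k) n), A r x y ^ 2) := by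
  have hb := st_bounds hk n m h
  rw [actH_some h, sum_cset, sum_comm]
  refine sum_le_sum fun y hy => ?_
  have hy' : y ∈ iv r (ix (r - k) m) := mem_iv.2 (ix_ref hb.1 (hJ hy))
  have h1 := fb_col hc (A r) (n := ix (r - k) n) hy'
  have h2 : ∑ x' ∈ iv r (ix (r - k) n), g y * comB (A r) c (r, x', ix (r - k) m) y ^ 2 =
      g y * ∑ x' ∈ iv r (ix (r - k) n), fb (A r) c r (ix (r - k) n) (ix (r - k) m) x' y ^ 2 := by
    rw [mul_sum]
    exact sum_congr rfl fun x' hx'' => by rw [comB_of_mem hy' hx'']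
  rw [h2]
  exact mul_le_mul_of_nonneg_left h1 (hg y hy)

end

end Vale.Agent.P141.H150.Mv
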