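import Vale.Agent.P141.H150.MvP

/-!
# P141, line W, end lemma: the power of the residual path in the energy form

Every square is used.  `pwr ≤ (1 + (Λ + η) (1 / η + 2 / ξ)) (E2 (root, A K) + evE)`, where `Λ 4 ^ k`
bounds the energy of `A k` on a square; no term `Λ 4 ^ K`.
-/

namespace Vale.Agent.P141.H150.Mv

open Finset Vale.Agent.P141.PL Vale.Agent.P141.PL.H317
open Vale.Agent.P141.H736 Vale.Agent.P141.H958 Vale.Agent.P141.H443

noncomputable section

variable {A : ℕ → ℤ → ℤ → ℝ} {c ξ η : ℝ} {us ev : ℕ → ℤ → ℤ → Prop} {K : ℕ}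

open Classical in
/-- the area of all births, the root included -/
def bT (A : ℕ → ℤ → ℤ → ℝ) (c ξ η : ℝ) (us ev : ℕ → ℤ → ℤ → Prop) (K : ℕ) (n m : ℤ) : ℝ :=
  (if st A c ξ η us ev K K n m = some K then (4 : ℝ) ^ K else 0) + bA A c ξ η us ev K K n m

theorem bA_le_bT (n m : ℤ) : bA A c ξ η us ev K K n m ≤ bT A c ξ η us ev K n m := by
  classical
  unfold bT
  have : (0 : ℝ) ≤ if st A c ξ η us ev K K n m = some K then (4 : ℝ) ^ K else 0 := by
    split_ifs <;> positivity
  linarith

theorem bT_nonneg (n m : ℤ) : 0 ≤ bT A c ξ η us ev K n m :=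
  (bA_nonneg K n m).trans (bA_le_bT n m)

theorem bT_le (hc : 0 ≤ c) (hξ : 0 < ξ) (hη : 0 < η)
    (hus : ∀ k n m, us k n m → us (k + 1) (n / 2) (m / 2))
    (hev : ∀ k n m, ¬ ev k n m → ∀ x ∈ iv k n, ∀ y ∈ iv k m, A k x y = A (k + 1) x y)
    (n m : ℤ) : bT A c ξ η us ev K n m ≤
      (1 / η + 2 / ξ) * (E2 (iv K n) (iv K m) (A K) + evE A ev K n m) :=
  births_le hc hξ hη hus hev n m

/-- **The area of the stops is at most the area of the births.** -/
theorem stops_le' (n m : ℤ) : sA A c ξ η us ev K K n m ≤ bT A c ξ η us ev K n m := by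
  classical
  have h := stops_le (A := A) (c := c) (ξ := ξ) (η := η) (us := us) (ev := ev) K le_rfl n m
  unfold bT
  rcases Option.eq_none_or_eq_some (st A c ξ η us ev K K n m) with hs | ⟨r, hs⟩
  · rw [if_pos hs] at h
    have : (0 : ℝ) ≤ if st A c ξ η us ev K K n m = some K then (4 : ℝ) ^ K else 0 := by
      split_ifs <;> positivity
    linarith
  · have hb := st_bounds le_rfl n m hs
    have hr : r = K := by omega
    rw [hr] at hs
    have h1 : ¬ (st A c ξ η us ev K K n m = none) := by rw [hs]; simp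
    rw [if_neg h1] at h
    rw [if_pos hs]
    exact h

/-- a stop without an event: the energy is below the level -/
theorem stop_energy {k : ℕ} (hk : k < K) {n m : ℤ} (hu : us k n m) (he : ¬ ev k n m)
    (hp : st A c ξ η us ev K (k + 1) (n / 2) (m / 2) ≠ none)
    (hs : st A c ξ η us ev K k n m = none) : E2 (iv k n) (iv k m) (A k) ≤ η * 4 ^ k := by
  rw [st_step hk] at hs
  rcases stp_cases (A := A) (c := c) (ξ := ξ) (η := η) (us := us) (ev := ev) k n m
    (st A c ξ η us ev K (k + 1) (n / 2) (m / 2)) with h1 | h1 | h1 | ⟨r', h1⟩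
  · by_contra h'
    exact h1.2 ⟨hu, (not_le.1 h').le⟩
  · rcases h1.2.1 with h | h
    · exact absurd h hp
    · exact absurd h he
  · rw [h1.1] at hs; exact absurd hs (by simp)
  · rw [h1.1] at hs; exact absurd hs (by simp)

open Classical in
theorem sumd_E (hc : 0 ≤ c) {Λ : ℝ} (hΛ : 0 ≤ Λ) (hη : 0 ≤ η) (hu : ∀ k n m, us k n m)
    (hev : ∀ k n m, ¬ ev k n m → ∀ x ∈ iv k n, ∀ y ∈ iv k m, A k x y = A (k + 1) x y)
    (hA : ∀ k < K, ∀ n m, E2 (iv k n) (iv k m) (A k) ≤ Λ * 4 ^ k) (k : ℕ) (hk : k ≤ K) :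
    ∀ n m : ℤ, sumd (fun j a b => if QH A c ξ η us ev K j a b then
      E2 (iv j a) (iv j b) (BH A c ξ η us ev K (j + 1)) else 0) k n m ≤
      E2 (iv k n) (iv k m) (RsH A c ξ η us ev K k) + (evE A ev k n m +
        (Λ * bA A c ξ η us ev K k n m + η * sA A c ξ η us ev K k n m)) := by
  induction k with
  | zero =>
    intro n m
    rw [sumd_zero]
    have h1 : sA A c ξ η us ev K 0 n m = 0 := rfl
    rw [bA_zero, evE_zero, h1, mul_zero, mul_zero, add_zero, add_zero, add_zero]
    exact E2_nonneg _ _ _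
  | succ k ih =>
    intro n m
    have ih' := ih (by omega)
    have hkK : k < K := by omega
    rw [sumd_succ, bA_succ, sA_succ, evE_succ, E2_children]
    set fb : ℤ → ℤ → ℝ := fun a b =>
      (if st A c ξ η us ev K k a b = some k then (4 : ℝ) ^ k else 0) +
        bA A c ξ η us ev K k a b with hfb
    set fs : ℤ → ℤ → ℝ := fun a b =>
      (if st A c ξ η us ev K (k + 1) (a / 2) (b / 2) ≠ none ∧
        st A c ξ η us ev K k a b = none then (4 : ℝ) ^ k else 0) +
        sA A c ξ η us ev K k a b with hfs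
    set fe : ℤ → ℤ → ℝ := fun a b =>
      (if ev k a b then E2 (iv k a) (iv k b) (A k) else 0) + evE A ev k a b with hfe
    have e : (ch4 n m fun a b => E2 (iv k a) (iv k b) (RsH A c ξ η us ev K (k + 1))) +
        (ch4 n m fe + (Λ * ch4 n m fb + η * ch4 n m fs)) = ch4 n m fun a b =>
        E2 (iv k a) (iv k b) (RsH A c ξ η us ev K (k + 1)) +
          (fe a b + (Λ * fb a b + η * fs a b)) := by
      unfold ch4; ring
    rw [e]
    refine ch4_mono fun a b ha hb => ?_
    have hB : BH A c ξ η us ev K (k + 1) = RsH A c ξ η us ev K (k + 1) :=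
      BH_pos (Nat.succ_ne_zero k)
    rw [hB]
    have h4 : (0 : ℝ) < 4 ^ k := by positivity
    have b0 := bA_nonneg (A := A) (c := c) (ξ := ξ) (η := η) (us := us) (ev := ev) (K := K) k a b
    have s0 := sA_nonneg (A := A) (c := c) (ξ := ξ) (η := η) (us := us) (ev := ev) (K := K) k a b
    have e0 := evE_nonneg (A := A) (ev := ev) k a b
    have ib : (0 : ℝ) ≤ if st A c ξ η us ev K k a b = some k then (4 : ℝ) ^ k else 0 := by
      split_ifs <;> positivity
    have is : (0 : ℝ) ≤ if st A c ξ η us ev K (k + 1) (a / 2) (b / 2) ≠ none ∧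
        st A c ξ η us ev K k a b = none then (4 : ℝ) ^ k else 0 := by
      split_ifs <;> positivity
    have ie : (0 : ℝ) ≤ if ev k a b then E2 (iv k a) (iv k b) (A k) else 0 := by
      split_ifs
      · exact E2_nonneg _ _ _
      · exact le_rfl
    have efb : fb a b = (if st A c ξ η us ev K k a b = some k then (4 : ℝ) ^ k else 0) +
        bA A c ξ η us ev K k a b := rfl
    have efs : fs a b = (if st A c ξ η us ev K (k + 1) (a / 2) (b / 2) ≠ none ∧
        st A c ξ η us ev K k a b = none then (4 : ℝ) ^ k else 0) +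
        sA A c ξ η us ev K k a b := rfl
    have efe : fe a b = (if ev k a b then E2 (iv k a) (iv k b) (A k) else 0) +
        evE A ev k a b := rfl
    have lb : bA A c ξ η us ev K k a b ≤ fb a b := by rw [efb]; linarith
    have ls : sA A c ξ η us ev K k a b ≤ fs a b := by rw [efs]; linarith
    have le : evE A ev k a b ≤ fe a b := by rw [efe]; linarith
    have lb' := mul_le_mul_of_nonneg_left lb hΛ
    have ls' := mul_le_mul_of_nonneg_left ls hη
    by_cases hk0 : k = 0
    · subst hk0
      have hQ : QH A c ξ η us ev K 0 a b := Or.inl rfl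
      rw [if_pos hQ, sumd_zero, add_zero]
      have h5 : 0 ≤ Λ * fb a b := mul_nonneg hΛ (b0.trans lb)
      have h6 : 0 ≤ η * fs a b := mul_nonneg hη (s0.trans ls)
      have h7 : 0 ≤ fe a b := e0.trans le
      linarith
    · have h1 := ih' a b
      by_cases he : ev k a b
      · have hQ : QH A c ξ η us ev K k a b := Or.inr (Or.inl he)
        rw [if_pos hQ]
        have h5 : E2 (iv k a) (iv k b) (RsH A c ξ η us ev K k) ≤
            E2 (iv k a) (iv k b) (A k) := by
          rcases Option.eq_none_or_eq_some (st A c ξ η us ev K k a b) with hs | ⟨r, hs⟩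
          · rw [E2_RsH_none hs]
          · have hr : r = k := by
              by_contra hr
              exact (st_inherit hkK hs hr).2 he
            rw [hr] at hs
            exact E2_RsH_birth hc hs
        have h6 : fe a b = E2 (iv k a) (iv k b) (A k) + evE A ev k a b := by
          rw [efe, if_pos he]
        linarith
      · by_cases hE : st A c ξ η us ev K k a b = st A c ξ η us ev K (k + 1) (a / 2) (b / 2)
        · have hQ : ¬ QH A c ξ η us ev K k a b := fun h => h.elim hk0 fun h' =>
            h'.elim he fun h'' => h'' hE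
          have h5 : E2 (iv k a) (iv k b) (RsH A c ξ η us ev K (k + 1)) =
              E2 (iv k a) (iv k b) (RsH A c ξ η us ev K k) :=
            E2_congr fun x hx y hy => (RsH_step hev he hE hx hy).symm
          rw [if_neg hQ, h5, zero_add]
          linarith
        · have hQ : QH A c ξ η us ev K k a b := Or.inr (Or.inr hE)
          rw [if_pos hQ]
          rcases Option.eq_none_or_eq_some (st A c ξ η us ev K k a b) with hs | ⟨r, hs⟩
          · have hp : st A c ξ η us ev K (k + 1) (a / 2) (b / 2) ≠ none :=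
              fun h => hE (by rw [hs, h])
            have h5 : E2 (iv k a) (iv k b) (RsH A c ξ η us ev K k) ≤ η * 4 ^ k := by
              rw [E2_RsH_none hs]
              exact stop_energy hkK (hu k a b) he hp hs
            have i1 : (if st A c ξ η us ev K (k + 1) (a / 2) (b / 2) ≠ none ∧
                st A c ξ η us ev K k a b = none then (4 : ℝ) ^ k else 0) = 4 ^ k :=
              if_pos ⟨hp, hs⟩
            have h6 : fs a b = 4 ^ k + sA A c ξ η us ev K k a b := by rw [efs, i1]
            have h7 : η * fs a b = η * 4 ^ k + η * sA A c ξ η us ev K k a b := by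
              rw [h6]; ring
            linarith
          · have hr : r = k := by
              by_contra hr
              exact hE (by rw [hs, (st_inherit hkK hs hr).1])
            rw [hr] at hs
            have h5 : E2 (iv k a) (iv k b) (RsH A c ξ η us ev K k) ≤ Λ * 4 ^ k :=
              (E2_RsH_birth hc hs).trans (hA k hkK a b)
            have i1 : (if st A c ξ η us ev K k a b = some k then (4 : ℝ) ^ k else 0) =
                4 ^ k := if_pos hs
            have h6 : fb a b = 4 ^ k + bA A c ξ η us ev K k a b := by rw [efb, i1]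
            have h7 : Λ * fb a b = Λ * 4 ^ k + Λ * bA A c ξ η us ev K k a b := by
              rw [h6]; ring
            linarith

/-- **The power of the residual path, energy form.** -/
theorem pwr_E (hc : 0 ≤ c) (hη : 0 ≤ η) (hu : ∀ k n m, us k n m)
    (hev : ∀ k n m, ¬ ev k n m → ∀ x ∈ iv k n, ∀ y ∈ iv k m, A k x y = A (k + 1) x y)
    {Λ : ℝ} (hΛ : 0 ≤ Λ) (hA : ∀ k < K, ∀ n m, E2 (iv k n) (iv k m) (A k) ≤ Λ * 4 ^ k) (R S : ℤ) :
    pwr K R S (QH A c ξ η us ev K) (BH A c ξ η us ev K) ≤
      E2 (iv K R) (iv K S) (A K) + evE A ev K R S + (Λ + η) * bT A c ξ η us ev K R S := by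
  classical
  have h1 := sumd_E (A := A) (c := c) (ξ := ξ) (η := η) (us := us) (ev := ev) hc hΛ hη hu hev hA
    K le_rfl R S
  have h2 : pwr K R S (QH A c ξ η us ev K) (BH A c ξ η us ev K) =
      sumd (fun j a b => if QH A c ξ η us ev K j a b then
      E2 (iv j a) (iv j b) (BH A c ξ η us ev K (j + 1)) else 0) K R S := by
    unfold pwr sumd sqQ
    refine sum_congr rfl fun k _ => ?_
    rw [sum_comm]
    refine sum_congr rfl fun a _ => sum_congr rfl fun b _ => ?_
    rw [sqb_eq_E2]
  rw [h2]
  refine h1.trans ?_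
  have h3 : E2 (iv K R) (iv K S) (RsH A c ξ η us ev K K) ≤ E2 (iv K R) (iv K S) (A K) := by
    rcases Option.eq_none_or_eq_some (st A c ξ η us ev K K R S) with hs | ⟨r, hs⟩
    · rw [E2_RsH_none hs]
    · have hb := st_bounds le_rfl R S hs
      have hr : r = K := by omega
      rw [hr] at hs
      exact E2_RsH_birth hc hs
  have h4 := mul_le_mul_of_nonneg_left
    (bA_le_bT (A := A) (c := c) (ξ := ξ) (η := η) (us := us) (ev := ev) (K := K) R S) hΛ
  have h5 := mul_le_mul_of_nonneg_left
    (stops_le' (A := A) (c := c) (ξ := ξ) (η := η) (us := us) (ev := ev) (K := K) R S) hη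
  have e : (Λ + η) * bT A c ξ η us ev K R S = Λ * bT A c ξ η us ev K R S +
      η * bT A c ξ η us ev K R S := by ring
  rw [e]
  linarith

/-- **The power of the residual path**, the births inserted. -/
theorem pwr_E' (hc : 0 ≤ c) (hξ : 0 < ξ) (hη : 0 < η) (hu : ∀ k n m, us k n m)
    (hev : ∀ k n m, ¬ ev k n m → ∀ x ∈ iv k n, ∀ y ∈ iv k m, A k x y = A (k + 1) x y)
    {Λ : ℝ} (hΛ : 0 ≤ Λ) (hA : ∀ k < K, ∀ n m, E2 (iv k n) (iv k m) (A k) ≤ Λ * 4 ^ k) (R S : ℤ) :
    pwr K R S (QH A c ξ η us ev K) (BH A c ξ η us ev K) ≤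
      (1 + (Λ + η) * (1 / η + 2 / ξ)) * (E2 (iv K R) (iv K S) (A K) + evE A ev K R S) := by
  have h1 := pwr_E (A := A) (c := c) (ξ := ξ) (η := η) (us := us) (ev := ev) (K := K) hc hη.le hu
    hev hΛ hA R S
  have h2 := bT_le (A := A) (c := c) (K := K) hc hξ hη (fun k n m _ => hu _ _ _) hev R S
    (us := us)
  have h3 := mul_le_mul_of_nonneg_left h2 (by positivity : 0 ≤ Λ + η)
  have e : (1 + (Λ + η) * (1 / η + 2 / ξ)) * (E2 (iv K R) (iv K S) (A K) + evE A ev K R S) =
      E2 (iv K R) (iv K S) (A K) + evE A ev K R S + (Λ + η) * ((1 / η + 2 / ξ) *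
        (E2 (iv K R) (iv K S) (A K) + evE A ev K R S)) := by ring
  rw [e]
  linarith

end

end Vale.Agent.P141.H150.Mv
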