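import Vale.Agent.P141.H652.ThetaW
import Vale.Agent.P141.H822.LabLP
import Vale.Agent.P141.PL.H317.CostIx

/-!
# P141, line (A): the mass of the change of the increasing slot, weights in `x₀`

`Θ k j = Th l K M (Kq x1) c x0 x1 k j` at exact `x₀`; weights `ρ` with bounded averages over the
cells of `x₀`.

* `vk_Th` : the size of the change of `Θ` at a node is at most the sum over the unit vectors of the
  half differences plus the trace of the loss;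
* `wI_row` : one `x₁`, one point `x₃`; `wI_num` : summed.
-/

namespace Vale.Agent.P141.H150.WI

open Finset Matrix
open Vale.Agent.P141.PL (Pt iv ix mem_iv)
open Vale.Agent.P141.H652 (Th eb ah Th_mean eb_psd)
open Vale.Agent.P141.H420 (Tr)
open Vale.Agent.P141.H822 (vk)

set_option linter.unusedSectionVars false

noncomputable section

open scoped Classical

variable {ι : Type*} [Fintype ι] [DecidableEq ι] {l : ℝ}

/-- the unit vector -/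
def un (a : ι) : ι → ℝ := Pi.single a 1

theorem form_un (A : Matrix ι ι ℝ) (a : ι) : un a ⬝ᵥ A *ᵥ un a = A a a := by
  unfold un
  rw [mulVec_single_one, single_one_dotProduct]
  rfl

theorem tr_un (A : Matrix ι ι ℝ) : ∑ a, un a ⬝ᵥ A *ᵥ un a = A.trace := by
  unfold Matrix.trace
  exact sum_congr rfl fun a _ => by rw [form_un]; rfl

theorem tr_sq (A : Matrix ι ι ℝ) :
    (A * Aᵀ).trace = ∑ a, (A *ᵥ un a) ⬝ᵥ (A *ᵥ un a) := by
  rw [trace_mul_comm]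
  unfold Matrix.trace
  refine sum_congr rfl fun a _ => ?_
  unfold un
  rw [mulVec_single_one, diag_apply, mul_apply]
  rfl

/-- the trace of the square of a nonnegative matrix -/
theorem sqrt_tr_le {E : Matrix ι ι ℝ} (hE : E.PosSemidef) : √((E * Eᵀ).trace) ≤ E.trace := by
  have ht : Eᵀ = E := hE.isHermitian
  rw [ht, Real.sqrt_le_left hE.trace_nonneg, pow_two]
  exact H433.trace_mul_le_mul hE hE

section row

variable {K : ℕ} {M : ℤ} {Kr Gr : ℕ → ℤ → Matrix ι ι ℝ}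

/-- **The size of the change of the slot at a node.** -/
theorem vk_Th (hT : Tr l K Gr Kr) (c x0 x1 : ℤ) (k : ℕ) (x j : ℤ) :
    vk (fun k _ j => Th l K M Kr c x0 x1 k j) k x j ≤
      (∑ a, (ah l K M Kr c x0 x1 k j *ᵥ un a) ⬝ᵥ (ah l K M Kr c x0 x1 k j *ᵥ un a)) +
        ∑ a, un a ⬝ᵥ eb l K M Kr c x0 x1 (k + 1) j *ᵥ un a := by
  unfold vk
  refine add_le_add (le_of_eq ?_) ?_
  · rw [← tr_sq]
    rfl
  · rw [tr_un, Th_mean, sub_sub_cancel]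
    exact sqrt_tr_le (eb_psd hT _ _ _ _ _)

/-- **One `x₁`, one point `x₃`**: all scales, all `x₀`. -/
theorem wI_row (hT : Tr l K Gr Kr) {ρ : ℕ → ℤ → ℝ} {lam : ℝ} (hl : 0 ≤ lam)
    (h0 : ∀ k x, 0 ≤ ρ k x) (hr : ∀ k < K, ∀ q, ∑ x ∈ iv (k + 1) q, ρ (k + 1) x ≤ lam * 2 ^ (k + 1))
    (X : Finset ℤ) (c x1 x3 : ℤ) :
    ∑ k ∈ range K, ∑ x ∈ X, ρ (k + 1) x *
      vk (fun k _ j => Th l K M Kr c x x1 k j) k x1 (ix (k + 1) x3) ≤
    lam * (2 ^ K * (8194 * (l⁻¹ * (Gr K M).trace))) := by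
  have hW : ∀ k ∈ Icc 1 K, ∀ j, ∑ x ∈ iv k j, ρ k x ≤ lam * 2 ^ k := by
    intro k hk j
    obtain ⟨i, rfl⟩ : ∃ i, k = i + 1 := ⟨k - 1, by have := (mem_Icc.1 hk).1; omega⟩
    exact hr i (by have := (mem_Icc.1 hk).2; omega) j
  have h1 : ∀ a : ι, ∑ k ∈ range K, ∑ x ∈ X, ρ (k + 1) x *
      ((ah l K M Kr c x x1 k (ix (k + 1) x3) *ᵥ un a) ⬝ᵥ
        (ah l K M Kr c x x1 k (ix (k + 1) x3) *ᵥ un a)) ≤
      lam * (2 ^ K * (8192 * l⁻¹ * (un a ⬝ᵥ Gr K M *ᵥ un a))) :=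
    fun a => H652.half_allW hT (un a) hl h0 hW X c x1 x3
  have h2 : ∀ a : ι, ∑ k ∈ range K, ∑ x ∈ X, ρ (k + 1) x *
      (un a ⬝ᵥ eb l K M Kr c x x1 (k + 1) (ix (k + 1) x3) *ᵥ un a) ≤
      lam * (2 ^ K * (2 * l⁻¹ * (un a ⬝ᵥ Gr K M *ᵥ un a))) := by
    intro a
    have h := H652.eb_allW (M := M) hT (un a) hl h0 hW X c x1 x3
    rw [← H652.sum_range_Icc (fun k => ∑ x ∈ X, ρ k x *
      (un a ⬝ᵥ eb l K M Kr c x x1 k (ix k x3) *ᵥ un a))] at h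
    exact h
  have h3 : ∑ k ∈ range K, ∑ x ∈ X, ρ (k + 1) x *
      vk (fun k _ j => Th l K M Kr c x x1 k j) k x1 (ix (k + 1) x3) ≤
      ∑ a, ((∑ k ∈ range K, ∑ x ∈ X, ρ (k + 1) x *
        ((ah l K M Kr c x x1 k (ix (k + 1) x3) *ᵥ un a) ⬝ᵥ
          (ah l K M Kr c x x1 k (ix (k + 1) x3) *ᵥ un a))) +
        ∑ k ∈ range K, ∑ x ∈ X, ρ (k + 1) x *
          (un a ⬝ᵥ eb l K M Kr c x x1 (k + 1) (ix (k + 1) x3) *ᵥ un a)) := by
    rw [sum_add_distrib, sum_comm (s := univ), sum_comm (s := univ), ← sum_add_distrib]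
    refine sum_le_sum fun k _ => ?_
    rw [sum_comm (s := univ), sum_comm (s := univ), ← sum_add_distrib]
    refine sum_le_sum fun x _ => ?_
    rw [← mul_sum, ← mul_sum, ← mul_add]
    exact mul_le_mul_of_nonneg_left (vk_Th hT c x x1 k x1 _) (h0 _ _)
  refine h3.trans ((sum_le_sum fun a _ => add_le_add (h1 a) (h2 a)).trans (le_of_eq ?_))
  rw [← tr_un (Gr K M)]
  simp only [mul_sum]
  exact sum_congr rfl fun a _ => by ring

end row

/-- **The mass of the change of the increasing slot**, weights with bounded averages over the cells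
of `x₀`. -/
theorem wI_num {K : ℕ} {M S T : ℤ} {G Kq : ℤ → ℕ → ℤ → Matrix ι ι ℝ}
    (hT : ∀ x1 ∈ iv K S, Tr l K (G x1) (Kq x1)) {lam : ℝ} (hl : 0 ≤ lam)
    {ρ : ℕ → ℤ → ℤ → ℤ → ℝ} (h0 : ∀ k x0 x1 j, 0 ≤ ρ k x0 x1 j)
    (hr : ∀ k < K, ∀ q, ∀ x1 ∈ iv K S, ∀ j ∈ iv (K - (k + 1)) T,
      ∑ x0 ∈ iv (k + 1) q, ρ k x0 x1 j ≤ lam * 2 ^ (k + 1))
    (X : Finset ℤ) (c : ℤ) :
    ∑ x0 ∈ X, ∑ x1 ∈ iv K S, ∑ k ∈ range K, 2 ^ (k + 1) * ∑ j ∈ iv (K - (k + 1)) T,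
      ρ k x0 x1 j * vk (fun k x1 j => Th l K M (Kq x1) c x0 x1 k j) k x1 j ≤
    lam * (4 ^ K * (8194 * (l⁻¹ * ∑ x1 ∈ iv K S, (G x1 K M).trace))) := by
  rw [sum_comm]
  have h1 : ∀ x1 ∈ iv K S, ∑ x0 ∈ X, ∑ k ∈ range K, 2 ^ (k + 1) * ∑ j ∈ iv (K - (k + 1)) T,
      ρ k x0 x1 j * vk (fun k x1 j => Th l K M (Kq x1) c x0 x1 k j) k x1 j ≤
      lam * (4 ^ K * (8194 * (l⁻¹ * (G x1 K M).trace))) := by
    intro x1 h1
    set ρ' : ℤ → ℕ → ℤ → ℝ := fun x3 k x => if 1 ≤ k ∧ k ≤ K then ρ (k - 1) x x1 (ix k x3) else 0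
      with hρ'
    have n0 : ∀ x3 k x, 0 ≤ ρ' x3 k x := by
      intro x3 k x
      rw [hρ']
      dsimp only
      split_ifs
      · exact h0 _ _ _ _
      · exact le_rfl
    have e1 : ∀ k < K, ∀ x3 x, ρ' x3 (k + 1) x = ρ k x x1 (ix (k + 1) x3) := by
      intro k hk x3 x
      rw [hρ']
      dsimp only
      rw [if_pos ⟨by omega, by omega⟩, Nat.add_sub_cancel]
    have e2 : ∀ x0, ∑ k ∈ range K, 2 ^ (k + 1) * ∑ j ∈ iv (K - (k + 1)) T,
        ρ k x0 x1 j * vk (fun k x1 j => Th l K M (Kq x1) c x0 x1 k j) k x1 j =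
        ∑ x3 ∈ iv K T, ∑ k ∈ range K, ρ' x3 (k + 1) x0 *
          vk (fun k _ j => Th l K M (Kq x1) c x0 x1 k j) k x1 (ix (k + 1) x3) := by
      intro x0
      rw [sum_comm]
      refine sum_congr rfl fun k hk => ?_
      have hk' := mem_range.1 hk
      rw [← PL.H317.sum_iv_ix (by omega : k + 1 ≤ K) T
        (fun j => ρ k x0 x1 j * vk (fun k x1 j => Th l K M (Kq x1) c x0 x1 k j) k x1 j)]
      exact sum_congr rfl fun x3 _ => by rw [e1 k hk']; rfl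
    rw [sum_congr rfl fun x0 _ => e2 x0, sum_comm]
    have h2 : ∀ x3 ∈ iv K T, ∑ x0 ∈ X, ∑ k ∈ range K, ρ' x3 (k + 1) x0 *
        vk (fun k _ j => Th l K M (Kq x1) c x0 x1 k j) k x1 (ix (k + 1) x3) ≤
        lam * (2 ^ K * (8194 * (l⁻¹ * (G x1 K M).trace))) := by
      intro x3 h3
      rw [sum_comm]
      refine wI_row (hT x1 h1) hl (n0 x3) (fun k hk q => ?_) X c x1 x3
      rw [sum_congr rfl fun x _ => e1 k hk x3 x]
      refine hr k hk q x1 h1 _ ?_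
      rw [mem_iv] at h3 ⊢
      rw [← h3, PL.ix_ix, Nat.add_sub_cancel' (by omega : k + 1 ≤ K)]
    refine (sum_le_sum h2).trans (le_of_eq ?_)
    rw [sum_const, PL.card_iv, nsmul_eq_mul, show (4 : ℝ) ^ K = 2 ^ K * 2 ^ K by
      rw [← mul_pow]; norm_num]
    push_cast
    ring
  refine (sum_le_sum h1).trans (le_of_eq ?_)
  rw [mul_sum, mul_sum, mul_sum, mul_sum]

/-- half of a multiplier -/
theorem vk_half (V : ℕ → ℤ → ℤ → Matrix ι ι ℝ) (k : ℕ) (x j : ℤ) :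
    vk (fun k x j => (1 / 2 : ℝ) • V k x j) k x j ≤ vk V k x j := by
  unfold vk
  have e1 : (1 / 2 : ℝ) • ((1 / 2 : ℝ) • V k x (2 * j) - (1 / 2 : ℝ) • V k x (2 * j + 1)) =
      (1 / 2 : ℝ) • ((1 / 2 : ℝ) • (V k x (2 * j) - V k x (2 * j + 1))) := by module
  have e2 : (1 / 2 : ℝ) • V (k + 1) x j -
      (1 / 2 : ℝ) • ((1 / 2 : ℝ) • V k x (2 * j) + (1 / 2 : ℝ) • V k x (2 * j + 1)) =
      (1 / 2 : ℝ) • (V (k + 1) x j - (1 / 2 : ℝ) • (V k x (2 * j) + V k x (2 * j + 1))) := by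
    module
  rw [e1, e2]
  generalize (1 / 2 : ℝ) • (V k x (2 * j) - V k x (2 * j + 1)) = A
  generalize V (k + 1) x j - (1 / 2 : ℝ) • (V k x (2 * j) + V k x (2 * j + 1)) = D
  have hA : 0 ≤ (A * Aᵀ).trace := by
    rw [tr_sq]
    exact sum_nonneg fun a _ => H922.dot_self_nonneg _
  have hD : 0 ≤ (D * Dᵀ).trace := by
    rw [tr_sq]
    exact sum_nonneg fun a _ => H922.dot_self_nonneg _
  have e3 : ∀ B : Matrix ι ι ℝ, (((1 / 2 : ℝ) • B) * ((1 / 2 : ℝ) • B)ᵀ).trace =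
      (1 / 4) * (B * Bᵀ).trace := by
    intro B
    rw [transpose_smul, Matrix.smul_mul, Matrix.mul_smul, smul_smul, trace_smul, smul_eq_mul]
    norm_num
  rw [e3, e3]
  exact add_le_add (by linarith) (Real.sqrt_le_sqrt (by linarith))

end

end Vale.Agent.P141.H150.WI
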