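import Vale.Agent.P141.H150.WI
import Vale.Agent.P141.H433.LoW

/-!
# P141, line (A): the two sums `wf`, `wh` of `lo_pathW`, summed over `x₀`

The multiplier may depend on the exact `x₀`.

* `rr` : the weight of the change at the cell `j`: row traces of both functions;
* `wfh_eq` : the two sums at one `x₀` are the sum of `rr * vd`;
* `rr_rows` : averages of `rr` over the cells of `x₀`;
* `wI_sum` : the number for the slot `Th / 2` of the increasing part.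
-/

namespace Vale.Agent.P141.H150.WI

open Finset Matrix
open Vale.Agent.P075 (Ix)
open Vale.Agent.P141.PL (Pt iv ix mem_iv)
open Vale.Agent.P141.H103 (GW)
open Vale.Agent.P141.H652 (Th eb ah)
open Vale.Agent.P141.H420 (Tr)
open Vale.Agent.P141.H822 (vk emb)
open Vale.Agent.P141.H433 (rt wf wh vd vd_nonneg rt_nonneg rt_mean)

set_option linter.unusedSectionVars false

noncomputable section

open scoped Classical

variable {L N : ℕ} {R S T : ℤ}

/-- the weight of the change of the multiplier at the cell `j` -/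
def rr (L N : ℕ) (R : ℤ) (c : ℕ → ℤ) (F H : ℕ → ℤ → ℤ → ℝ) (k : ℕ) (x j : ℤ) : ℝ :=
  (if c (k + 1) - ix (k + 1) x - j ∈ iv (N - (k + 1)) R then
      rt L (F (L + (k + 1))) (k + 1) (c (k + 1) - ix (k + 1) x - j) x else 0) +
    rt L (H (L + (k + 1))) (k + 1) j x +
    ∑ r ∈ range (N - (k + 1) + 1), (3 / 4 : ℝ) ^ r *
      (rt L (H (L + (k + 1))) (k + 1) j x + rt L (H (L + (k + 1))) (k + 1 + r) (ix r j) x)

theorem rr_nonneg (c : ℕ → ℤ) (F H : ℕ → ℤ → ℤ → ℝ) (k : ℕ) (x j : ℤ) :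
    0 ≤ rr L N R c F H k x j := by
  unfold rr
  refine add_nonneg (add_nonneg ?_ (rt_nonneg ..)) (sum_nonneg fun r _ =>
    mul_nonneg (by positivity) (add_nonneg (rt_nonneg ..) (rt_nonneg ..)))
  split_ifs
  · exact rt_nonneg ..
  · exact le_rfl

/-- the plane sum of `wf`, in terms of the cells of the moving slot -/
theorem GW_wf {k : ℕ} (hk : k < N) (c : ℤ) (U : ℕ → ℤ → ℤ → Matrix (Ix L) (Ix L) ℝ)
    (F H : ℤ → ℤ → ℝ) :
    GW N R S T (k + 1) c (wf U F H k) ≤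
      2 ^ (k + 1) * ∑ x ∈ iv N S, ∑ j ∈ iv (N - (k + 1)) T,
        ((if c - ix (k + 1) x - j ∈ iv (N - (k + 1)) R then
          rt L F (k + 1) (c - ix (k + 1) x - j) x else 0) + rt L H (k + 1) j x) * vd U k x j := by
  have h1 : ∀ m : ℤ, (∑ n ∈ iv (N - (k + 1)) R, if c - m - n ∈ iv (N - (k + 1)) T then
      wf U F H k n (c - m - n) m else 0) =
      ∑ j ∈ iv (N - (k + 1)) T, if c - m - j ∈ iv (N - (k + 1)) R then
        wf U F H k (c - m - j) j m else 0 := by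
    intro m
    rw [← sum_filter, ← sum_filter]
    refine sum_nbij' (fun n => c - m - n) (fun j => c - m - j) ?_ ?_ ?_ ?_ ?_
    · intro n hn
      rw [mem_filter] at hn ⊢
      exact ⟨hn.2, by rw [sub_sub_cancel]; exact hn.1⟩
    · intro j hj
      rw [mem_filter] at hj ⊢
      exact ⟨hj.2, by rw [sub_sub_cancel]; exact hj.1⟩
    · intro n _
      exact sub_sub_cancel _ _
    · intro n _
      exact sub_sub_cancel _ _
    · intro n _
      rw [sub_sub_cancel]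
  have h2 : ∀ (m j : ℤ), (if c - m - j ∈ iv (N - (k + 1)) R then
      wf U F H k (c - m - j) j m else 0) ≤ ((2 : ℝ) ^ (k + 1))⁻¹ * ∑ x ∈ iv (k + 1) m,
        ((if c - ix (k + 1) x - j ∈ iv (N - (k + 1)) R then
          rt L F (k + 1) (c - ix (k + 1) x - j) x else 0) + rt L H (k + 1) j x) * vd U k x j := by
    intro m j
    have h3 : ∀ x ∈ iv (k + 1) m, ix (k + 1) x = m := fun x hx => mem_iv.1 hx
    split_ifs with h
    · unfold wf
      refine mul_le_mul_of_nonneg_left (le_of_eq (sum_congr rfl fun x hx => ?_)) (by positivity)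
      rw [h3 x hx, if_pos h]
    · refine mul_nonneg (by positivity) (sum_nonneg fun x hx => mul_nonneg (add_nonneg ?_
        (rt_nonneg ..)) (vd_nonneg ..))
      split_ifs
      · exact rt_nonneg ..
      · exact le_rfl
  unfold GW
  have h4 : ∀ m ∈ iv (N - (k + 1)) S, (∑ n ∈ iv (N - (k + 1)) R,
      if c - m - n ∈ iv (N - (k + 1)) T then wf U F H k n (c - m - n) m else 0) ≤
      ((2 : ℝ) ^ (k + 1))⁻¹ * ∑ x ∈ iv (k + 1) m, ∑ j ∈ iv (N - (k + 1)) T,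
        ((if c - ix (k + 1) x - j ∈ iv (N - (k + 1)) R then
          rt L F (k + 1) (c - ix (k + 1) x - j) x else 0) + rt L H (k + 1) j x) * vd U k x j := by
    intro m _
    rw [h1 m, sum_comm, mul_sum]
    exact sum_le_sum fun j _ => h2 m j
  refine (mul_le_mul_of_nonneg_left (sum_le_sum h4) (by positivity)).trans (le_of_eq ?_)
  rw [← mul_sum, PL.H978.sum_iv_iv (by omega : k + 1 ≤ N) S (fun x => ∑ j ∈ iv (N - (k + 1)) T,
        ((if c - ix (k + 1) x - j ∈ iv (N - (k + 1)) R then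
          rt L F (k + 1) (c - ix (k + 1) x - j) x else 0) + rt L H (k + 1) j x) * vd U k x j),
    ← mul_assoc]
  congr 1
  have e : (4 : ℝ) ^ (k + 1) = 2 ^ (k + 1) * 2 ^ (k + 1) := by rw [← mul_pow]; norm_num
  rw [e, mul_assoc, mul_inv_cancel₀ (by positivity), mul_one]

/-- **The two sums at one `x₀`.** -/
theorem wfh_le (c : ℕ → ℤ) (U : ℕ → ℤ → ℤ → Matrix (Ix L) (Ix L) ℝ) (F H : ℕ → ℤ → ℤ → ℝ) :
    ∑ k ∈ range N, GW N R S T (k + 1) (c (k + 1))
        (wf U (F (L + (k + 1))) (H (L + (k + 1))) k) +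
      ∑ k ∈ range N, wh U (H (L + (k + 1))) N S T k ≤
    ∑ x ∈ iv N S, ∑ k ∈ range N, 2 ^ (k + 1) * ∑ j ∈ iv (N - (k + 1)) T,
      rr L N R c F H k x j * vd U k x j := by
  rw [sum_comm, ← sum_add_distrib]
  refine sum_le_sum fun k hk => ?_
  have hk' := mem_range.1 hk
  refine (add_le_add (GW_wf hk' (c (k + 1)) U (F (L + (k + 1))) (H (L + (k + 1))))
    le_rfl).trans (le_of_eq ?_)
  unfold wh
  have h1 : ∀ r : ℕ, (3 / 4 : ℝ) ^ r * (2 ^ (k + 1) * ∑ x ∈ iv N S,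
      ∑ j ∈ iv (N - (k + 1)) T, (rt L (H (L + (k + 1))) (k + 1) j x +
        rt L (H (L + (k + 1))) (k + 1 + r) (ix r j) x) * vd U k x j) =
      2 ^ (k + 1) * ∑ x ∈ iv N S, ∑ j ∈ iv (N - (k + 1)) T, ((3 / 4 : ℝ) ^ r *
        (rt L (H (L + (k + 1))) (k + 1) j x +
        rt L (H (L + (k + 1))) (k + 1 + r) (ix r j) x)) * vd U k x j := by
    intro r
    rw [← mul_assoc, mul_comm ((3 / 4 : ℝ) ^ r), mul_assoc, mul_sum]
    congr 1
    refine sum_congr rfl fun x _ => ?_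
    rw [mul_sum]
    exact sum_congr rfl fun j _ => by ring
  rw [sum_congr rfl fun r _ => h1 r, ← mul_sum, ← mul_add,
    sum_comm (s := range (N - (k + 1) + 1)), ← sum_add_distrib, mul_sum]
  refine sum_congr rfl fun x _ => ?_
  congr 1
  rw [sum_comm (s := range (N - (k + 1) + 1)), ← sum_add_distrib]
  refine sum_congr rfl fun j _ => ?_
  unfold rr
  rw [← sum_mul]
  ring

/-- **The averages of the weight over the cells of `x₀`.** -/
theorem rr_rows {c : ℤ → ℕ → ℤ} {F H : ℤ → ℕ → ℤ → ℤ → ℝ} {lam : ℝ} (hl : 0 ≤ lam) {k : ℕ}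
    (hk : k < N) (hcx : ∀ i j, ix (k + 1) i = ix (k + 1) j → c i (k + 1) = c j (k + 1)) (q x : ℤ)
    (hF : ∀ n ∈ iv (N - (k + 1)) R, ∑ x0 ∈ iv (k + 1) q, rt L (F x0 (L + (k + 1))) (k + 1) n x ≤
      lam * 2 ^ (k + 1))
    (hH : ∀ n ∈ iv (N - (k + 1)) T, ∑ x0 ∈ iv (k + 1) q, rt L (H x0 (L + (k + 1))) (k + 1) n x ≤
      lam * 2 ^ (k + 1)) {j : ℤ} (hj : j ∈ iv (N - (k + 1)) T) :
    ∑ x0 ∈ iv (k + 1) q, rr L N R (c x0) (F x0) (H x0) k x j ≤ 10 * lam * 2 ^ (k + 1) := by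
  have hX : 0 ≤ lam * 2 ^ (k + 1) := by positivity
  unfold rr
  rw [sum_add_distrib, sum_add_distrib, sum_comm]
  have h1 : ∑ x0 ∈ iv (k + 1) q, (if c x0 (k + 1) - ix (k + 1) x - j ∈ iv (N - (k + 1)) R then
      rt L (F x0 (L + (k + 1))) (k + 1) (c x0 (k + 1) - ix (k + 1) x - j) x else 0) ≤
      lam * 2 ^ (k + 1) := by
    rcases (iv (k + 1) q).eq_empty_or_nonempty with he | ⟨y, hy⟩
    · rw [he, sum_empty]
      exact hX
    · have hc : ∀ x0 ∈ iv (k + 1) q, c x0 (k + 1) = c y (k + 1) := fun x0 h0 =>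
        hcx x0 y (by rw [mem_iv.1 h0, mem_iv.1 hy])
      by_cases h : c y (k + 1) - ix (k + 1) x - j ∈ iv (N - (k + 1)) R
      · refine (le_of_eq (sum_congr rfl fun x0 h0 => ?_)).trans (hF _ h)
        rw [hc x0 h0, if_pos h]
      · refine (le_of_eq (sum_eq_zero fun x0 h0 => ?_)).trans hX
        rw [hc x0 h0, if_neg h]
  have h3 : ∀ r ∈ range (N - (k + 1) + 1), ∑ x0 ∈ iv (k + 1) q, (3 / 4 : ℝ) ^ r *
      (rt L (H x0 (L + (k + 1))) (k + 1) j x + rt L (H x0 (L + (k + 1))) (k + 1 + r) (ix r j) x) ≤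
      (3 / 4 : ℝ) ^ r * (2 * (lam * 2 ^ (k + 1))) := by
    intro r hr
    have hr' : r ≤ N - (k + 1) := by have := mem_range.1 hr; omega
    rw [← mul_sum, sum_add_distrib]
    refine mul_le_mul_of_nonneg_left ?_ (by positivity)
    have h4 : ∑ x0 ∈ iv (k + 1) q, rt L (H x0 (L + (k + 1))) (k + 1 + r) (ix r j) x ≤
        lam * 2 ^ (k + 1) := by
      have h5 : ∀ x0, rt L (H x0 (L + (k + 1))) (k + 1 + r) (ix r j) x =
          ((2 : ℝ) ^ r)⁻¹ * ∑ i ∈ iv r (ix r j), rt L (H x0 (L + (k + 1))) (k + 1) i x :=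
        fun x0 => (rt_mean ..).symm
      rw [sum_congr rfl fun x0 _ => h5 x0, ← mul_sum, sum_comm]
      have h6 : ∀ i ∈ iv r (ix r j), ∑ x0 ∈ iv (k + 1) q, rt L (H x0 (L + (k + 1))) (k + 1) i x ≤
          lam * 2 ^ (k + 1) := by
        intro i hi
        refine hH i ?_
        have h7 : ix (N - (k + 1)) i = ix (N - (k + 1)) j := by
          have e : N - (k + 1) = r + (N - (k + 1) - r) := by omega
          rw [e, ← PL.ix_ix, ← PL.ix_ix, mem_iv.1 hi]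
        rw [mem_iv] at hj ⊢
        rw [h7, hj]
      refine (mul_le_mul_of_nonneg_left (sum_le_sum h6) (by positivity)).trans (le_of_eq ?_)
      rw [sum_const, PL.card_iv, nsmul_eq_mul]
      push_cast
      rw [← mul_assoc, inv_mul_cancel₀ (by positivity), one_mul]
    have h8 := hH j hj
    linarith
  have h9 : ∑ r ∈ range (N - (k + 1) + 1), (3 / 4 : ℝ) ^ r ≤ 4 := by
    rw [geom_sum_eq (by norm_num)]
    have h : (0 : ℝ) ≤ (3 / 4 : ℝ) ^ (N - (k + 1) + 1) := by positivity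
    rw [div_le_iff_of_neg (by norm_num)]
    linarith
  have h10 := sum_le_sum h3
  rw [← sum_mul] at h10
  have h11 : (∑ r ∈ range (N - (k + 1) + 1), (3 / 4 : ℝ) ^ r) * (2 * (lam * 2 ^ (k + 1))) ≤
      4 * (2 * (lam * 2 ^ (k + 1))) := mul_le_mul_of_nonneg_right h9 (by linarith)
  have h12 := hH j hj
  linarith

section number

variable {κ : Type*} [Fintype κ] [DecidableEq κ] {e : κ → ℤ} {l : ℝ}

/-- **The number `wf + wh` of the slot of the increasing part**, summed over `x₀`; any multiplier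
which moves at most as much as `Th`. -/
theorem wI_sum' {M t0 : ℤ} {G Kq : ℤ → ℕ → ℤ → Matrix κ κ ℝ}
    (hT : ∀ x1 ∈ iv N S, Tr l N (G x1) (Kq x1)) {lam : ℝ} (hl : 0 ≤ lam) (c₀ : ℤ)
    {U : ℤ → ℕ → ℤ → ℤ → Matrix (Ix L) (Ix L) ℝ}
    (hU : ∀ x0 ∈ iv N t0, ∀ k x j, vd (U x0) k x j ≤
      vk (fun k x j => Th l N M (Kq x) c₀ x0 x k j) k x j)
    {c : ℤ → ℕ → ℤ} {F H : ℤ → ℕ → ℤ → ℤ → ℝ}
    (hcx : ∀ k < N, ∀ i j, ix (k + 1) i = ix (k + 1) j → c i (k + 1) = c j (k + 1))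
    (hF : ∀ k < N, ∀ q ∈ iv (N - (k + 1)) t0, ∀ n ∈ iv (N - (k + 1)) R, ∀ x ∈ iv N S,
      ∑ x0 ∈ iv (k + 1) q, rt L (F x0 (L + (k + 1))) (k + 1) n x ≤ lam * 2 ^ (k + 1))
    (hH : ∀ k < N, ∀ q ∈ iv (N - (k + 1)) t0, ∀ n ∈ iv (N - (k + 1)) T, ∀ x ∈ iv N S,
      ∑ x0 ∈ iv (k + 1) q, rt L (H x0 (L + (k + 1))) (k + 1) n x ≤ lam * 2 ^ (k + 1)) :
    ∑ x0 ∈ iv N t0, (∑ k ∈ range N, GW N R S T (k + 1) (c x0 (k + 1))
        (wf (U x0) (F x0 (L + (k + 1))) (H x0 (L + (k + 1))) k) +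
      ∑ k ∈ range N, wh (U x0) (H x0 (L + (k + 1))) N S T k) ≤
    lam * (4 ^ N * (81940 * (l⁻¹ * ∑ x1 ∈ iv N S, (G x1 N M).trace))) := by
  set ρ : ℕ → ℤ → ℤ → ℤ → ℝ := fun k x0 x j =>
    if x0 ∈ iv N t0 then rr L N R (c x0) (F x0) (H x0) k x j else 0 with hρ
  have h0 : ∀ k x0 x j, 0 ≤ ρ k x0 x j := by
    intro k x0 x j
    rw [hρ]
    dsimp only
    split_ifs
    · exact rr_nonneg ..
    · exact le_rfl
  have hr : ∀ k < N, ∀ q, ∀ x1 ∈ iv N S, ∀ j ∈ iv (N - (k + 1)) T,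
      ∑ x0 ∈ iv (k + 1) q, ρ k x0 x1 j ≤ 10 * lam * 2 ^ (k + 1) := by
    intro k hk q x1 h1 j hj
    by_cases hq : q ∈ iv (N - (k + 1)) t0
    · refine le_trans (sum_le_sum fun x0 _ => ?_) (rr_rows hl hk (hcx k hk) q x1
        (fun n hn => hF k hk q hq n hn x1 h1) (fun n hn => hH k hk q hq n hn x1 h1) hj)
      rw [hρ]
      dsimp only
      split_ifs
      · exact le_rfl
      · exact rr_nonneg ..
    · refine le_trans (le_of_eq (sum_eq_zero fun x0 hx => ?_)) (by positivity)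
      rw [hρ]
      dsimp only
      rw [if_neg]
      intro h
      apply hq
      rw [mem_iv] at h hx ⊢
      rw [← hx, PL.ix_ix, Nat.add_sub_cancel' (by omega : k + 1 ≤ N)]
      exact h
  have h2 := wI_num (M := M) (T := T) hT (by positivity : 0 ≤ 10 * lam) h0 hr (iv N t0) c₀
  refine le_trans (sum_le_sum fun x0 hx0 => ?_) (h2.trans (le_of_eq (by ring)))
  refine (wfh_le (c x0) _ (F x0) (H x0)).trans (sum_le_sum fun x _ => sum_le_sum fun k _ =>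
    mul_le_mul_of_nonneg_left (sum_le_sum fun j _ => ?_) (by positivity))
  have e1 : ρ k x0 x j = rr L N R (c x0) (F x0) (H x0) k x j := by
    rw [hρ]
    dsimp only
    rw [if_pos hx0]
  rw [e1]
  exact mul_le_mul_of_nonneg_left (hU x0 hx0 k x j) (rr_nonneg ..)

/-- the multiplier `Th / 2` in the label letters -/
theorem vd_half_le (he : Function.Injective e) (hm : ∀ i, e i ∈ H958.lbs L)
    (V : ℕ → ℤ → ℤ → Matrix κ κ ℝ) (k : ℕ) (x j : ℤ) :
    vd (fun k x j => emb L e ((1 / 2 : ℝ) • V k x j)) k x j ≤ vk V k x j := by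
  rw [H822.vd_emb he hm]
  exact vk_half V k x j

/-- **The number `wf + wh` of the slot `Th / 2`**, summed over `x₀`. -/
theorem wI_sum {M t0 : ℤ} {G Kq : ℤ → ℕ → ℤ → Matrix κ κ ℝ}
    (hT : ∀ x1 ∈ iv N S, Tr l N (G x1) (Kq x1)) (he : Function.Injective e)
    (hm : ∀ i, e i ∈ H958.lbs L) {lam : ℝ} (hl : 0 ≤ lam) (c₀ : ℤ)
    {c : ℤ → ℕ → ℤ} {F H : ℤ → ℕ → ℤ → ℤ → ℝ}
    (hcx : ∀ k < N, ∀ i j, ix (k + 1) i = ix (k + 1) j → c i (k + 1) = c j (k + 1))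
    (hF : ∀ k < N, ∀ q ∈ iv (N - (k + 1)) t0, ∀ n ∈ iv (N - (k + 1)) R, ∀ x ∈ iv N S,
      ∑ x0 ∈ iv (k + 1) q, rt L (F x0 (L + (k + 1))) (k + 1) n x ≤ lam * 2 ^ (k + 1))
    (hH : ∀ k < N, ∀ q ∈ iv (N - (k + 1)) t0, ∀ n ∈ iv (N - (k + 1)) T, ∀ x ∈ iv N S,
      ∑ x0 ∈ iv (k + 1) q, rt L (H x0 (L + (k + 1))) (k + 1) n x ≤ lam * 2 ^ (k + 1)) :
    ∑ x0 ∈ iv N t0, (∑ k ∈ range N, GW N R S T (k + 1) (c x0 (k + 1))
        (wf (fun k x j => emb L e ((1 / 2 : ℝ) • Th l N M (Kq x) c₀ x0 x k j))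
          (F x0 (L + (k + 1))) (H x0 (L + (k + 1))) k) +
      ∑ k ∈ range N, wh (fun k x j => emb L e ((1 / 2 : ℝ) • Th l N M (Kq x) c₀ x0 x k j))
        (H x0 (L + (k + 1))) N S T k) ≤
    lam * (4 ^ N * (81940 * (l⁻¹ * ∑ x1 ∈ iv N S, (G x1 N M).trace))) :=
  wI_sum' hT hl c₀ (fun _ _ _ _ _ => vd_half_le he hm _ _ _ _) hcx hF hH

end number

end

end Vale.Agent.P141.H150.WI
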